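import Vale.Agent.P013.Basic

/-!
Perron formula for the first Riesz mean, with a shift of the contour.
(1) `k₁ u = (1 - u)₊` has Mellin transform `1 / (s (s + 1))` for `0 < re s`, and `k₂ u = (1 - u)₊² / (2 u)` has Mellin
transform `1 / ((s - 1) s (s + 1))` for `1 < re s` (`hasMellin_cpow_Ioc`, `hasMellin_one_Ioc`, linearity). Both are
continuous on `u > 0` and the transforms are integrable on `re s = 2`, so `mellinInv_mellin_eq` (or
`mellin_inversion`) gives `k u = (1 / 2π) ∫ t, u^(-(2 + i t)) * (transform at 2 + i t)`.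
(2) With `u = n / X`, summing against `a n` (`integral_tsum` / `hasSum_integral_of_summable_integral_norm`):
`∑ n ≤ X, a n (1 - n / X) = (1 / 2π) ∫ t, LSeries a s * X^s / (s (s + 1))`, `s = 2 + i t`; with `u = 1 / X` the polar part
gives `ρ k₂ (1 / X) = ρ X (1 - 1 / X)² / 2`.
(3) `G s = F s X^s / (s (s + 1))` is holomorphic on the closed strip `σ ≤ re s ≤ 2`, `‖G s‖ ≤ K X^(re s) √(1 + |t|) * 8 / (1 + t²)`.
Cauchy on rectangles (`Complex.integral_boundary_rect_eq_zero_of_differentiableOn`), horizontal sides tend to `0`,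
`intervalIntegral_tendsto_integral`; so the integral on `re s = 2` equals the one on `re s = σ`, which is at most
`K X^σ ∫ 8 √(1 + |t|) / (1 + t²) dt` (integrable, for instance below `C (1 + |t|)^(-3/2)`, `integrable_one_add_norm`).
-/

namespace Vale.Agent.P013

open Finset Complex

open MeasureTheory Filter Topology

theorem PA3_congr {f g : ℝ → ℂ} {s m m' : ℂ} (h : HasMellin f s m) (e : Set.EqOn f g (Set.Ioi 0))
    (e' : m = m') : HasMellin g s m' := by
  have e2 : Set.EqOn (fun t : ℝ => (t : ℂ) ^ (s - 1) • f t) (fun t : ℝ => (t : ℂ) ^ (s - 1) • g t)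
      (Set.Ioi 0) := fun t ht => by simp only [e ht]
  exact ⟨h.1.congr_fun e2 measurableSet_Ioi,
    (setIntegral_congr_fun measurableSet_Ioi e2).symm.trans (h.2.trans e')⟩

theorem PA3_inv {k : ℝ → ℂ} {m : ℂ → ℂ} (hm : ∀ s : ℂ, s.re = 2 → HasMellin k s (m s))
    (hi : Integrable fun y : ℝ => m ((2 : ℝ) + y * I)) {x : ℝ} (hx : 0 < x)
    (hc : ContinuousAt k x) :
    ∫ y : ℝ, (x : ℂ) ^ (-((2 : ℝ) + y * I)) * m ((2 : ℝ) + y * I) = 2 * Real.pi * k x := by
  have e : ∀ y : ℝ, mellin k ((2 : ℝ) + y * I) = m ((2 : ℝ) + y * I) := fun y =>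
    (hm _ (by simp)).2
  have h := mellinInv_mellin_eq 2 k hx (hm _ (by simp)).1
    (hi.congr (Eventually.of_forall fun y => (e y).symm)) hc
  simp only [mellinInv, e, smul_eq_mul, real_smul] at h
  rw [← h, ← mul_assoc]
  have : (Real.pi : ℂ) ≠ 0 := by exact_mod_cast Real.pi_ne_zero
  refine (one_mul _).symm.trans (congrArg (· * _) ?_)
  push_cast
  field_simp

theorem PA3_ne {s : ℂ} (hs : s.re = 2) : s - 1 ≠ 0 ∧ s ≠ 0 ∧ s + 1 ≠ 0 := by
  refine ⟨fun h => ?_, fun h => ?_, fun h => ?_⟩ <;>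
  · have := congrArg re h
    simp [hs] at this
    try norm_num at this

theorem PA3_mel1 {s : ℂ} (hs : s.re = 2) :
    HasMellin (fun u : ℝ => ((max (1 - u) 0 : ℝ) : ℂ)) s (1 / (s * (s + 1))) := by
  have h0 := hasMellin_one_Ioc (s := s) (by linarith)
  have h1 := hasMellin_cpow_Ioc 1 (s := s) (by simp [hs]; norm_num)
  obtain ⟨-, n0, n1⟩ := PA3_ne hs
  refine PA3_congr (hasMellin_sub h0.1 h1.1) (fun u hu => ?_) (by rw [h0.2, h1.2]; field_simp; ring)
  by_cases h : u ≤ 1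
  · have : u ∈ Set.Ioc (0 : ℝ) 1 := ⟨hu, h⟩
    simp [Set.indicator_of_mem this, max_eq_left (sub_nonneg.2 h)]
  · have : u ∉ Set.Ioc (0 : ℝ) 1 := fun h' => h h'.2
    simp [Set.indicator_of_notMem this, max_eq_right (sub_nonpos.2 (not_le.1 h).le)]

theorem PA3_mel2 {s : ℂ} (hs : s.re = 2) :
    HasMellin (fun u : ℝ => ((max (1 - u) 0 ^ 2 / (2 * u) : ℝ) : ℂ)) s
      (1 / (s - 1) * (1 / (s * (s + 1)))) := by
  have h0 := hasMellin_one_Ioc (s := s) (by linarith)
  have h1 := hasMellin_cpow_Ioc 1 (s := s) (by simp [hs]; norm_num)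
  have h2 := hasMellin_cpow_Ioc (-1) (s := s) (by simp [hs])
  have h3 := hasMellin_add h2.1 h1.1
  have h4 := hasMellin_const_smul h3.1 (1 / 2 : ℂ)
  obtain ⟨n2, n0, n1⟩ := PA3_ne hs
  refine PA3_congr (hasMellin_sub h4.1 h0.1) (fun u hu => ?_) (by
    rw [h4.2, h3.2, h0.2, h1.2, h2.2, smul_eq_mul, ← sub_eq_add_neg]
    field_simp
    ring)
  by_cases h : u ≤ 1
  · have : u ∈ Set.Ioc (0 : ℝ) 1 := ⟨hu, h⟩
    have h5 : (u : ℂ) ≠ 0 := by exact_mod_cast (ne_of_gt hu)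
    simp only [Set.indicator_of_mem this, max_eq_left (sub_nonneg.2 h), cpow_neg_one, cpow_one,
      smul_eq_mul]
    push_cast
    field_simp
    ring
  · have : u ∉ Set.Ioc (0 : ℝ) 1 := fun h' => h h'.2
    simp [Set.indicator_of_notMem this, max_eq_right (sub_nonpos.2 (not_le.1 h).le)]

/-- The majorant. -/
noncomputable def PA3w (t : ℝ) : ℝ := (1 + ‖t‖) ^ (-(3 / 2 : ℝ))

theorem PA3w_int : Integrable PA3w := integrable_one_add_norm (by norm_num)

theorem PA3w_nonneg (t : ℝ) : 0 ≤ PA3w t := by unfold PA3w; positivity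

theorem PA3_bound {s : ℂ} (hs : 1 / 2 ≤ s.re) :
    √(1 + |s.im|) * ‖1 / (s * (s + 1))‖ ≤ 9 * PA3w s.im := by
  have h0 : 0 < 1 + |s.im| := by positivity
  have h1 : 1 + |s.im| ≤ 3 * ‖s‖ := by linarith [re_le_norm s, abs_im_le_norm s]
  have h2 : 1 + |s.im| ≤ 3 * ‖s + 1‖ := by
    have a := re_le_norm (s + 1)
    have b := abs_im_le_norm (s + 1)
    simp only [add_re, add_im, one_re, one_im, add_zero] at a b
    linarith
  have h3 : PA3w s.im = √(1 + |s.im|) / (1 + |s.im|) ^ 2 := by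
    rw [PA3w, Real.norm_eq_abs, Real.sqrt_eq_rpow, ← Real.rpow_two, ← Real.rpow_sub h0]
    norm_num
  have h4 : ‖1 / (s * (s + 1))‖ ≤ 9 / (1 + |s.im|) ^ 2 := by
    rw [norm_div, norm_one, norm_mul, div_le_div_iff₀ (mul_pos (by linarith) (by linarith))
      (by positivity)]
    nlinarith [mul_le_mul h1 h2 h0.le (by linarith)]
  rw [h3]
  exact (mul_le_mul_of_nonneg_left h4 (Real.sqrt_nonneg _)).trans (le_of_eq (by ring))

theorem PA3_int {G : ℂ → ℂ} {c B : ℝ} (hG : ∀ s : ℂ, s.re = c → DifferentiableAt ℂ G s)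
    (hB : ∀ s : ℂ, s.re = c → ‖G s‖ ≤ B * PA3w s.im) : Integrable fun y : ℝ => G (c + y * I) := by
  refine (PA3w_int.const_mul B).mono' (Continuous.aestronglyMeasurable
    (continuous_iff_continuousAt.2 fun y => ?_)) (Eventually.of_forall fun y => ?_)
  · exact ContinuousAt.comp (g := G) (f := fun y : ℝ => (c : ℂ) + y * I)
      (hG _ (by simp)).continuousAt (by fun_prop)
  · simpa using hB (c + y * I) (by simp)

theorem PA3_shift {G : ℂ → ℂ} {σ τ B : ℝ} (h : σ ≤ τ)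
    (hG : ∀ s : ℂ, σ ≤ s.re → s.re ≤ τ → DifferentiableAt ℂ G s)
    (hB : ∀ s : ℂ, σ ≤ s.re → s.re ≤ τ → ‖G s‖ ≤ B * PA3w s.im) :
    ∫ y : ℝ, G (τ + y * I) = ∫ y : ℝ, G (σ + y * I) := by
  have i1 := PA3_int (c := σ) (fun s hs => hG s hs.ge (hs.le.trans h))
    fun s hs => hB s hs.ge (hs.le.trans h)
  have i2 := PA3_int (c := τ) (fun s hs => hG s (h.trans hs.ge) hs.le)
    fun s hs => hB s (h.trans hs.ge) hs.le
  have t0 : Tendsto (fun T : ℝ => B * PA3w T * |τ - σ|) atTop (𝓝 0) := by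
    have := (((tendsto_rpow_neg_atTop (by norm_num : (0 : ℝ) < 3 / 2)).comp
      (tendsto_atTop_add_const_left _ 1 tendsto_norm_atTop_atTop)).const_mul B).mul_const |τ - σ|
    rwa [mul_zero, zero_mul] at this
  have t1 : ∀ e : ℝ → ℝ, (∀ T, PA3w (e T) = PA3w T) →
      Tendsto (fun T : ℝ => ∫ x in σ..τ, G (x + e T * I)) atTop (𝓝 0) := fun e he =>
    squeeze_zero_norm (fun T => intervalIntegral.norm_integral_le_of_norm_le_const fun x hx => by
      rw [Set.uIoc_of_le h] at hx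
      simpa [he] using hB (x + e T * I) (by simpa using hx.1.le) (by simpa using hx.2)) t0
  have t2 := (((t1 (fun T => -T) fun T => by simp [PA3w]).sub (t1 id fun _ => rfl)).add
    ((intervalIntegral_tendsto_integral i2 tendsto_neg_atTop_atBot tendsto_id).const_smul I)).sub
    ((intervalIntegral_tendsto_integral i1 tendsto_neg_atTop_atBot tendsto_id).const_smul I)
  have t3 := tendsto_nhds_unique t2 (tendsto_const_nhds.congr fun T =>
    (integral_boundary_rect_eq_zero_of_differentiableOn G ⟨σ, -T⟩ ⟨τ, T⟩ fun s hs => by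
      have h1 : s.re ∈ Set.uIcc σ τ := hs.1
      rw [Set.uIcc_of_le h] at h1
      exact (hG s h1.1 h1.2).differentiableWithinAt).symm)
  rw [sub_zero, zero_add, sub_eq_zero] at t3
  exact smul_right_injective ℂ I_ne_zero t3

theorem PA3_diff {X : ℝ} (hX : 0 < X) {s : ℂ} (hs : 1 / 2 ≤ s.re) :
    DifferentiableAt ℂ (fun s : ℂ => (X : ℂ) ^ s * (1 / (s * (s + 1)))) s := by
  have h0 : s ≠ 0 := fun h => by rw [h, zero_re] at hs; linarith
  have h1 : s + 1 ≠ 0 := fun h => by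
    have := congrArg re h
    simp only [add_re, one_re, zero_re] at this
    linarith
  exact (differentiableAt_id.const_cpow (Or.inl (ofReal_ne_zero.2 hX.ne'))).mul
    ((differentiableAt_const _).div (by fun_prop) (mul_ne_zero h0 h1))

theorem PA3_bound2 {s : ℂ} (hs : 1 / 2 ≤ s.re) : ‖1 / (s * (s + 1))‖ ≤ 9 * PA3w s.im :=
  (le_mul_of_one_le_left (norm_nonneg _)
    (Real.one_le_sqrt.2 (le_add_of_nonneg_right (abs_nonneg _)))).trans (PA3_bound hs)

theorem PA3_div {x X : ℝ} (hx : 0 < x) (hX : 0 < X) (s : ℂ) :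
    ((x / X : ℝ) : ℂ) ^ (-s) = (X : ℂ) ^ s / (x : ℂ) ^ s := by
  rw [cpow_neg, ofReal_div, div_cpow_ofReal_nonneg hx.le hX.le, inv_div]

theorem PA3_perron {a : ℕ → ℂ} {X : ℝ} (hX : 0 < X) (ha : LSeriesSummable a 2) :
    ∫ y : ℝ, LSeries a ((2 : ℝ) + y * I) * ((X : ℂ) ^ ((2 : ℝ) + y * I) *
      (1 / (((2 : ℝ) + y * I) * ((2 : ℝ) + y * I + 1)))) =
      2 * Real.pi * ∑ n ∈ Icc 1 ⌊X⌋₊, a n * (1 - (n : ℂ) / X) := by
  have i0 := PA3_int (G := fun s => 1 / (s * (s + 1))) (c := 2) (B := 9)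
    (fun s hs => (differentiableAt_const _).div (by fun_prop)
      (mul_ne_zero (PA3_ne hs).2.1 (PA3_ne hs).2.2)) fun s hs => PA3_bound2 (by linarith)
  have i1 := PA3_int (G := fun s => (X : ℂ) ^ s * (1 / (s * (s + 1)))) (c := 2)
    (B := X ^ (2 : ℝ) * 9)
    (fun s hs => PA3_diff hX (by linarith)) fun s hs => by
      rw [norm_mul, norm_cpow_eq_rpow_re_of_pos hX, hs, mul_assoc]
      exact mul_le_mul_of_nonneg_left (PA3_bound2 (by linarith)) (by positivity)
  have hn : ∀ (n : ℕ) (y : ℝ), ‖LSeries.term a ((2 : ℝ) + y * I) n‖ = ‖LSeries.term a 2 n‖ :=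
    fun n y => by simp [LSeries.norm_term_eq]
  have h1 := hasSum_integral_of_summable_integral_norm (μ := volume)
    (F := fun (n : ℕ) (y : ℝ) => LSeries.term a ((2 : ℝ) + y * I) n *
      ((X : ℂ) ^ ((2 : ℝ) + y * I) * (1 / (((2 : ℝ) + y * I) * ((2 : ℝ) + y * I + 1)))))
    (fun n => i1.bdd_mul (c := ‖LSeries.term a 2 n‖) ?_ (Eventually.of_forall fun y => (hn n y).le))
    (by
      simp only [norm_mul (LSeries.term _ _ _), hn, integral_const_mul]
      exact ha.norm.mul_right _)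
  · simp only [tsum_mul_right] at h1
    rw [mul_sum]
    have h2 : ∀ n : ℕ, n ≠ 0 → ∫ y : ℝ, LSeries.term a ((2 : ℝ) + y * I) n *
        ((X : ℂ) ^ ((2 : ℝ) + y * I) * (1 / (((2 : ℝ) + y * I) * ((2 : ℝ) + y * I + 1)))) =
        2 * Real.pi * (a n * ((max (1 - n / X) 0 : ℝ) : ℂ)) := by
      intro n hn0
      have h3 : (0 : ℝ) < n := by positivity
      rw [mul_left_comm, ← PA3_inv (fun s hs => PA3_mel1 hs) i0 (div_pos h3 hX) (by fun_prop),
        ← integral_const_mul]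
      refine integral_congr_ae (Eventually.of_forall fun y => ?_)
      simp only [LSeries.term_of_ne_zero hn0, PA3_div h3 hX, ofReal_natCast]
      ring
    refine (h1.unique (hasSum_sum_of_ne_finset_zero (s := Icc 1 ⌊X⌋₊) fun n hn => ?_)).trans
      (sum_congr rfl fun n hn => ?_)
    · rcases eq_or_ne n 0 with rfl | hn0
      · simp
      have h3 : X < n := (Nat.floor_lt hX.le).1 (not_le.1 fun h =>
        hn (mem_Icc.2 ⟨Nat.one_le_iff_ne_zero.2 hn0, h⟩))
      rw [h2 n hn0, max_eq_right (sub_nonpos.2 ((one_le_div hX).2 h3.le))]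
      simp
    · have h3 : (n : ℝ) ≤ X := (Nat.le_floor_iff hX.le).1 (mem_Icc.1 hn).2
      rw [h2 n (Nat.one_le_iff_ne_zero.1 (mem_Icc.1 hn).1),
        max_eq_left (sub_nonneg.2 ((div_le_one hX).2 h3))]
      simp
  · refine Continuous.aestronglyMeasurable ?_
    rcases eq_or_ne n 0 with rfl | hn0
    · simpa using continuous_const
    simp only [LSeries.term_of_ne_zero hn0]
    have h3 : (n : ℂ) ≠ 0 := by exact_mod_cast hn0
    exact continuous_const.div (Continuous.const_cpow (by fun_prop) (Or.inl h3))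
      fun y => cpow_ne_zero_iff.2 (Or.inl h3)

theorem riesz : ∃ C : ℝ, 0 < C ∧ ∀ (a : ℕ → ℂ) (F : ℂ → ℂ) (ρ : ℂ) (σ K X : ℝ),
    1 / 2 ≤ σ → σ ≤ 2 → 1 ≤ X → LSeriesSummable a 2 →
    (∀ s : ℂ, σ ≤ s.re → s.re ≤ 2 → DifferentiableAt ℂ F s) →
    (∀ s : ℂ, s.re = 2 → LSeries a s = F s + ρ / (s - 1)) →
    (∀ s : ℂ, σ ≤ s.re → s.re ≤ 2 → ‖F s‖ ≤ K * √(1 + |s.im|)) →
    ‖∑ n ∈ Icc 1 ⌊X⌋₊, a n * (1 - (n : ℂ) / X) - ρ * (X * (1 - 1 / X) ^ 2 / 2)‖ ≤
      C * K * X ^ σ := by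
  have hI : 0 ≤ ∫ t, PA3w t := integral_nonneg PA3w_nonneg
  refine ⟨9 * (∫ t, PA3w t) + 1, by positivity, fun a F ρ σ K X h1 h2 hX ha hF hL hK => ?_⟩
  have hX0 : 0 < X := by linarith
  have hK0 : 0 ≤ K := nonneg_of_mul_nonneg_left ((norm_nonneg _).trans (hK 2 (by simpa) (by simp)))
    (Real.sqrt_pos.2 (by positivity))
  have hd : ∀ s : ℂ, σ ≤ s.re → s.re ≤ 2 →
      DifferentiableAt ℂ (fun s : ℂ => F s * ((X : ℂ) ^ s * (1 / (s * (s + 1))))) s :=
    fun s a b => (hF s a b).mul (PA3_diff hX0 (by linarith))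
  have hb : ∀ s : ℂ, σ ≤ s.re → s.re ≤ 2 →
      ‖F s * ((X : ℂ) ^ s * (1 / (s * (s + 1))))‖ ≤ K * X ^ s.re * 9 * PA3w s.im := by
    intro s a b
    rw [norm_mul, norm_mul, norm_cpow_eq_rpow_re_of_pos hX0]
    calc _ ≤ K * √(1 + |s.im|) * (X ^ s.re * ‖1 / (s * (s + 1))‖) :=
          mul_le_mul_of_nonneg_right (hK s a b) (by positivity)
      _ = K * X ^ s.re * (√(1 + |s.im|) * ‖1 / (s * (s + 1))‖) := by ring
      _ ≤ K * X ^ s.re * (9 * PA3w s.im) :=
          mul_le_mul_of_nonneg_left (PA3_bound (by linarith)) (by positivity)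
      _ = _ := by ring
  have e1 := PA3_shift h2 hd (B := K * X ^ (2 : ℝ) * 9) fun s a b => (hb s a b).trans (by
    have := PA3w_nonneg s.im
    gcongr)
  have i1 := PA3_int (c := 2) (B := K * X ^ (2 : ℝ) * 9) (fun s hs => hd s (h2.trans hs.ge) hs.le)
    fun s hs => hs ▸ hb s (h2.trans hs.ge) hs.le
  have b2 : ∀ s : ℂ, s.re = 2 → ‖1 / (s - 1) * (1 / (s * (s + 1)))‖ ≤ 9 * PA3w s.im := by
    intro s hs
    have h3 : 1 ≤ ‖s - 1‖ := le_trans (by simp [hs]; norm_num) (re_le_norm _)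
    rw [norm_mul, norm_div, norm_one]
    exact (mul_le_of_le_one_left (norm_nonneg _) (div_le_one_of_le₀ h3 (norm_nonneg _))).trans
      (PA3_bound2 (by linarith))
  have d2 : ∀ s : ℂ, s.re = 2 →
      DifferentiableAt ℂ (fun s : ℂ => 1 / (s - 1) * (1 / (s * (s + 1)))) s := fun s hs =>
    DifferentiableAt.fun_mul ((differentiableAt_const _).fun_div (by fun_prop) (PA3_ne hs).1)
      ((differentiableAt_const _).fun_div (by fun_prop)
        (mul_ne_zero (PA3_ne hs).2.1 (PA3_ne hs).2.2))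
  have i2 := PA3_int (G := fun s => (X : ℂ) ^ s * (1 / (s - 1) * (1 / (s * (s + 1))))) (c := 2)
    (B := X ^ (2 : ℝ) * 9)
    (fun s hs => (differentiableAt_id.const_cpow (Or.inl (ofReal_ne_zero.2 hX0.ne'))).mul (d2 s hs))
    fun s hs => by
      rw [norm_mul, norm_cpow_eq_rpow_re_of_pos hX0, hs, mul_assoc]
      exact mul_le_mul_of_nonneg_left (b2 s hs) (by positivity)
  have e2 := PA3_inv (fun s hs => PA3_mel2 hs) (PA3_int d2 b2) (div_pos one_pos hX0)
    (continuous_ofReal.continuousAt.comp (ContinuousAt.div (by fun_prop) (by fun_prop)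
      (by positivity)))
  simp only [PA3_div one_pos hX0, ofReal_one, one_cpow, div_one,
    max_eq_left (sub_nonneg.2 ((div_le_one hX0).2 hX))] at e2
  have e3 := integral_add i1 (i2.const_mul ρ)
  rw [integral_const_mul, e2, e1, integral_congr_ae (g := fun y : ℝ => LSeries a ((2 : ℝ) + y * I) *
    ((X : ℂ) ^ ((2 : ℝ) + y * I) * (1 / (((2 : ℝ) + y * I) * ((2 : ℝ) + y * I + 1)))))
    (Eventually.of_forall fun y => by simp only [hL ((2 : ℝ) + y * I) (by simp)]; ring),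
    PA3_perron hX0 ha] at e3
  have e4 : ∫ y : ℝ, F (σ + y * I) *
      ((X : ℂ) ^ (σ + y * I) * (1 / ((σ + y * I) * (σ + y * I + 1)))) = ((2 * Real.pi : ℝ) : ℂ) *
        (∑ n ∈ Icc 1 ⌊X⌋₊, a n * (1 - (n : ℂ) / X) - ρ * (X * (1 - 1 / X) ^ 2 / 2)) := by
    have : (X : ℂ) ≠ 0 := ofReal_ne_zero.2 hX0.ne'
    rw [← sub_eq_iff_eq_add.2 e3]
    push_cast
    field_simp
  have e5 := norm_integral_le_of_norm_le (PA3w_int.const_mul (K * X ^ σ * 9))
    (f := fun y : ℝ => F (σ + y * I) *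
      ((X : ℂ) ^ (σ + y * I) * (1 / ((σ + y * I) * (σ + y * I + 1)))))
    (Eventually.of_forall fun y => by
      simpa only [add_re, ofReal_re, mul_re, I_re, mul_zero, ofReal_im, I_im, mul_one, sub_self,
        add_zero, add_im, mul_im, zero_add] using hb (σ + y * I) (by simp) (by simpa using h2))
  rw [e4, norm_mul, norm_real, Real.norm_of_nonneg Real.two_pi_pos.le, integral_const_mul] at e5
  refine (le_mul_of_one_le_left (norm_nonneg _) (by linarith [Real.pi_gt_three])).trans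
    (e5.trans ?_)
  have : 0 ≤ K * X ^ σ := by positivity
  nlinarith

end Vale.Agent.P013
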