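import Vale.Agent.P013.PA2
import Vale.Agent.P013.PA3

/-!
Primes in progressions from the zero-free half plane. `σ = 3999 / 4000`. For each `χ` mod `q` apply `riesz` to
`a n = χ n Λ n` (`DirichletCharacter.LSeriesSummable_twist_vonMangoldt`), `F = - HH' / HH` (differentiable by `HH_diff`,
`HH_ne`), `HH_logderiv`, `HH_logderiv_le`. Orthogonality (`DirichletCharacter.sum_char_inv_mul_char_eq`, the number
of characters is `φ q`) gives for `Ψ X = ∑ n ≤ X, n ≡ a, Λ n (X - n)`: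
`|Ψ X - (X - 1)² / (2 φ q)| ≤ C₁ log (2 q) X^(1 + σ)` for all `X ≥ 1`.
Differencing with `h = X^((1 + σ) / 2) ≤ X`: `h ψ(X; q, a) ≤ Ψ (X + h) - Ψ X`, and if `X - h ≥ 1`,
`Ψ X - Ψ (X - h) ≤ h ψ(X; q, a)`. The main terms give `X / φ q + O(h + 1)`, the errors
`O(log (2 X) X^((1 + σ) / 2))`. If `X - h < 1` the lower bound is trivial (`X / φ q ≤ X < 1 + h`). With `δ = 1 / 16000`,
`log (2 X) X^(1 - 2 δ) ≤ C X^(1 - δ)`.
-/

namespace Vale.Agent.P013

open Finset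
open scoped ArithmeticFunction.vonMangoldt

theorem pa4_char (h : ZF) : ∃ C : ℝ, 0 < C ∧ ∀ (q : ℕ) [NeZero q] (χ : DirichletCharacter ℂ q)
    (X : ℝ), 1 ≤ X →
    ‖∑ n ∈ Icc 1 ⌊X⌋₊, χ n * (Λ n : ℂ) * (1 - (n : ℂ) / X) -
      (open Classical in if χ = 1 then 1 else 0) * (X * (1 - 1 / X) ^ 2 / 2)‖ ≤
      C * Real.log (2 * q) * X ^ (3999 / 4000 : ℝ) := by
  obtain ⟨C, hC, h1⟩ := riesz
  obtain ⟨C', hC', h2⟩ := HH_logderiv_le h
  refine ⟨C * C', by positivity, fun q _ χ X hX => ?_⟩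
  have h3 := h1 (fun n : ℕ => χ n * (Λ n : ℂ)) (fun s => -(deriv (HH χ) s / HH χ s)) _
    (3999 / 4000) (C' * Real.log (2 * q)) X (by norm_num) (by norm_num) hX
    (DirichletCharacter.LSeriesSummable_twist_vonMangoldt χ (s := 2) (by norm_num))
    (fun s hs _ => (((HH_diff χ).deriv s).div (HH_diff χ s) (HH_ne h χ (by linarith))).neg)
    (fun s hs => HH_logderiv χ (by rw [hs]; norm_num))
    (fun s hs hs' => by rw [norm_neg]; exact h2 q χ s hs hs')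
  exact h3.trans (le_of_eq (by ring))

/-- the weight of a progression -/
noncomputable def pa4w (q a n : ℕ) : ℝ := if n ≡ a [MOD q] then Λ n else 0

theorem pa4w_nonneg (q a n : ℕ) : 0 ≤ pa4w q a n := by
  unfold pa4w
  split_ifs
  · exact ArithmeticFunction.vonMangoldt_nonneg
  · exact le_rfl

theorem pa4_riesz (h : ZF) : ∃ C : ℝ, 0 < C ∧ ∀ (q a : ℕ) (X : ℝ), 1 ≤ q → a.Coprime q → 1 ≤ X →
    |∑ n ∈ Icc 1 ⌊X⌋₊, pa4w q a n * (X - n) - (X - 1) ^ 2 / (2 * Nat.totient q)| ≤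
      C * Real.log (2 * q) * X ^ (7999 / 4000 : ℝ) := by
  classical
  obtain ⟨C, hC, h1⟩ := pa4_char h
  refine ⟨C, hC, fun q a X hq ha hX => ?_⟩
  haveI : NeZero q := ⟨by omega⟩
  have hu : IsUnit (a : ZMod q) := (ZMod.isUnit_iff_coprime a q).2 ha
  have hφ : (0 : ℝ) < Nat.totient q := by exact_mod_cast Nat.totient_pos.2 hq
  have hX0 : (0 : ℝ) < X := by linarith
  obtain ⟨M, hM⟩ : ∃ M : ℂ, M = X * (1 - 1 / X) ^ 2 / 2 := ⟨_, rfl⟩
  have h2 : ∑ χ : DirichletCharacter ℂ q, χ (a : ZMod q)⁻¹ *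
      (∑ n ∈ Icc 1 ⌊X⌋₊, χ n * (Λ n : ℂ) * (1 - (n : ℂ) / X) - (if χ = 1 then 1 else 0) * M) =
      (((Nat.totient q / X) * (∑ n ∈ Icc 1 ⌊X⌋₊, pa4w q a n * (X - n) -
        (X - 1) ^ 2 / (2 * Nat.totient q)) : ℝ) : ℂ) := by
    have hX' : (X : ℂ) ≠ 0 := by exact_mod_cast hX0.ne'
    have hφ' : (Nat.totient q : ℂ) ≠ 0 := by exact_mod_cast hφ.ne'
    have e1 : ∑ χ : DirichletCharacter ℂ q, χ (a : ZMod q)⁻¹ * ((if χ = 1 then 1 else 0) * M) =
        M := by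
      rw [sum_eq_single 1]
      · rw [if_pos rfl, one_mul, MulChar.one_apply (IsUnit.of_mul_eq_one _ (ZMod.inv_mul_of_unit _ hu)), one_mul]
      · intro χ _ hχ
        rw [if_neg hχ, zero_mul, mul_zero]
      · simp
    have e2 : ∑ χ : DirichletCharacter ℂ q, χ (a : ZMod q)⁻¹ *
        ∑ n ∈ Icc 1 ⌊X⌋₊, χ n * (Λ n : ℂ) * (1 - (n : ℂ) / X) =
        ∑ n ∈ Icc 1 ⌊X⌋₊, (Nat.totient q / X : ℂ) * ((pa4w q a n : ℂ) * (X - n)) := by
      simp only [mul_sum]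
      rw [sum_comm]
      refine sum_congr rfl fun n _ => ?_
      simp only [mul_assoc]
      simp only [← mul_assoc (_ : ℂ) (_ : ℂ) ((Λ n : ℂ) * _)]
      rw [← sum_mul, DirichletCharacter.sum_char_inv_mul_char_eq ℂ hu]
      unfold pa4w
      by_cases hn : n ≡ a [MOD q]
      · rw [if_pos hn, if_pos ((ZMod.natCast_eq_natCast_iff _ _ _).2 hn.symm)]
        field_simp
      · rw [if_neg hn, if_neg fun h => hn ((ZMod.natCast_eq_natCast_iff _ _ _).1 h).symm]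
        simp
    rw [sum_congr rfl fun χ _ => mul_sub _ _ _, sum_sub_distrib, e1, e2, hM, ← mul_sum]
    push_cast
    field_simp
  have h3 : ‖∑ χ : DirichletCharacter ℂ q, χ (a : ZMod q)⁻¹ *
      (∑ n ∈ Icc 1 ⌊X⌋₊, χ n * (Λ n : ℂ) * (1 - (n : ℂ) / X) - (if χ = 1 then 1 else 0) * M)‖ ≤
      Nat.totient q * (C * Real.log (2 * q) * X ^ (3999 / 4000 : ℝ)) := by
    refine (norm_sum_le _ _).trans ?_
    calc _ ≤ ∑ _χ : DirichletCharacter ℂ q, C * Real.log (2 * q) * X ^ (3999 / 4000 : ℝ) := by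
          refine sum_le_sum fun χ _ => ?_
          rw [norm_mul, hM]
          exact (mul_le_of_le_one_left (norm_nonneg _) (χ.norm_le_one _)).trans (h1 q χ X hX)
      _ = _ := by
          rw [sum_const, card_univ, ← Nat.card_eq_fintype_card,
            DirichletCharacter.card_eq_totient_of_hasEnoughRootsOfUnity, nsmul_eq_mul]
  rw [h2, Complex.norm_real, Real.norm_eq_abs, abs_mul, abs_of_pos (div_pos hφ hX0),
    div_mul_eq_mul_div, div_le_iff₀ hX0, mul_assoc] at h3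
  refine (le_of_mul_le_mul_left h3 hφ).trans (le_of_eq ?_)
  rw [mul_assoc, ← Real.rpow_add_one hX0.ne']
  norm_num

theorem pa4_up {w : ℕ → ℝ} (hw : ∀ n, 0 ≤ w n) {X h : ℝ} (hX : 0 ≤ X) (hh : 0 ≤ h) :
    ∑ n ∈ Icc 1 ⌊X⌋₊, w n * (X - n) + h * ∑ n ∈ Icc 1 ⌊X⌋₊, w n ≤
      ∑ n ∈ Icc 1 ⌊X + h⌋₊, w n * (X + h - n) := by
  calc _ = ∑ n ∈ Icc 1 ⌊X⌋₊, w n * (X + h - n) := by
        rw [mul_sum, ← sum_add_distrib]
        exact sum_congr rfl fun n _ => by ring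
    _ ≤ _ := by
        refine sum_le_sum_of_subset_of_nonneg
          (Icc_subset_Icc_right (Nat.floor_le_floor (by linarith))) fun n hn _ => ?_
        have := (Nat.le_floor_iff (by linarith)).1 (mem_Icc.1 hn).2
        exact mul_nonneg (hw n) (by linarith)

theorem pa4_down {w : ℕ → ℝ} (hw : ∀ n, 0 ≤ w n) {X h : ℝ} (hX : 0 ≤ X - h) (hh : 0 ≤ h) :
    ∑ n ∈ Icc 1 ⌊X⌋₊, w n * (X - n) ≤
      ∑ n ∈ Icc 1 ⌊X - h⌋₊, w n * (X - h - n) + h * ∑ n ∈ Icc 1 ⌊X⌋₊, w n := by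
  have h1 : ∑ n ∈ Icc 1 ⌊X⌋₊, w n * (X - n) =
      ∑ n ∈ Icc 1 ⌊X⌋₊, w n * (X - h - n) + h * ∑ n ∈ Icc 1 ⌊X⌋₊, w n := by
    rw [mul_sum, ← sum_add_distrib]
    exact sum_congr rfl fun n _ => by ring
  have h2 : ∑ n ∈ Icc 1 ⌊X - h⌋₊, w n * (n - (X - h)) ≤ ∑ n ∈ Icc 1 ⌊X⌋₊, w n * (n - (X - h)) := by
    refine sum_le_sum_of_subset_of_nonneg
      (Icc_subset_Icc_right (Nat.floor_le_floor (by linarith))) fun n hn hn' => ?_
    rw [mem_Icc] at hn hn'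
    have := (Nat.floor_lt hX).1 (show ⌊X - h⌋₊ < n by omega)
    exact mul_nonneg (hw n) (by linarith)
  have h3 : ∀ s : Finset ℕ, ∑ n ∈ s, w n * (n - (X - h)) = -∑ n ∈ s, w n * (X - h - n) := by
    intro s
    rw [← sum_neg_distrib]
    exact sum_congr rfl fun n _ => by ring
  rw [h3, h3] at h2
  linarith

theorem pa4_diff {w : ℕ → ℝ} (hw : ∀ n, 0 ≤ w n) {X h φ E : ℝ} (h1 : 1 ≤ h) (hX : h ≤ X)
    (hφ : 1 ≤ φ) (hE : 0 ≤ E) (hb : ∀ Y, 1 ≤ Y → Y ≤ 2 * X →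
      |∑ n ∈ Icc 1 ⌊Y⌋₊, w n * (Y - n) - (Y - 1) ^ 2 / (2 * φ)| ≤ E * h ^ 2) :
    |∑ n ∈ Icc 1 ⌊X⌋₊, w n - X / φ| ≤ (2 + 2 * E) * h := by
  have h0 : 0 < h := by linarith
  have hφ0 : 0 < φ := by linarith
  obtain ⟨r, hr⟩ : ∃ r, r = 1 / φ := ⟨_, rfl⟩
  have hr0 : 0 < r := by rw [hr]; positivity
  have hr1 : r ≤ 1 := by rw [hr, div_le_one hφ0]; exact hφ
  have hd : ∀ t : ℝ, t / (2 * φ) = t * r / 2 := fun t => by rw [hr]; field_simp
  have hd' : X / φ = X * r := by rw [hr]; field_simp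
  simp only [hd] at hb
  have hψ : 0 ≤ ∑ n ∈ Icc 1 ⌊X⌋₊, w n := sum_nonneg fun n _ => hw n
  have b0 := abs_le.1 (hb X (by linarith) (by linarith))
  have b1 := abs_le.1 (hb (X + h) (by linarith) (by linarith))
  have u := pa4_up hw (X := X) (by linarith) h0.le
  rw [hd', abs_le]
  constructor
  · by_cases hc : 1 ≤ X - h
    · have b2 := abs_le.1 (hb (X - h) hc (by linarith))
      have d := pa4_down hw (X := X) (by linarith) h0.le
      refine le_of_mul_le_mul_left ?_ h0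
      have : h * (h * r) ≤ h * (h * 1) := by gcongr
      have : h * r ≤ h * h := by gcongr; linarith
      nlinarith
    · have : X * r ≤ X * 1 := by gcongr; linarith
      nlinarith
  · refine le_of_mul_le_mul_left ?_ h0
    have : h * (h * r) ≤ h * (h * 1) := by gcongr
    have : 0 ≤ h * r := by positivity
    nlinarith

theorem pa_of_zf (h : ZF) : ∃ δ C : ℝ, 0 < δ ∧ δ ≤ 1 / 4 ∧ PA δ C := by
  obtain ⟨C, hC, h1⟩ := pa4_riesz h
  refine ⟨1 / 16000, 2 + 2 * (C * 32000 * 4), by norm_num, by norm_num, fun q a X hq ha hqX => ?_⟩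
  have hq' : (1 : ℝ) ≤ q := by exact_mod_cast hq
  have hX : 1 ≤ X := hq'.trans hqX
  have hX0 : 0 < X := by linarith
  have hφ : (1 : ℝ) ≤ Nat.totient q := by exact_mod_cast Nat.totient_pos.2 hq
  have hd : 1 ≤ X ^ (1 / 16000 : ℝ) := Real.one_le_rpow hX (by norm_num)
  have hlog : Real.log (2 * q) ≤ 32000 * X ^ (1 / 16000 : ℝ) := by
    have e1 : Real.log (2 * q) ≤ Real.log (2 * X) := Real.log_le_log (by linarith) (by linarith)
    have e2 := Real.log_le_rpow_div (x := 2 * X) (ε := 1 / 16000) (by linarith) (by norm_num)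
    have e3 : (2 : ℝ) ^ (1 / 16000 : ℝ) ≤ 2 := by
      conv_rhs => rw [← Real.rpow_one 2]
      exact Real.rpow_le_rpow_of_exponent_le (by norm_num) (by norm_num)
    rw [Real.mul_rpow (by norm_num) hX0.le] at e2
    nlinarith
  have hlog0 : 0 ≤ Real.log (2 * q) := Real.log_nonneg (by linarith)
  have h2 := pa4_diff (pa4w_nonneg q a) (X := X) (h := X ^ (7999 / 8000 : ℝ)) (φ := Nat.totient q)
    (E := C * (32000 * X ^ (1 / 16000 : ℝ)) * 4) (Real.one_le_rpow hX (by norm_num))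
    (by
      conv_rhs => rw [← Real.rpow_one X]
      exact Real.rpow_le_rpow_of_exponent_le hX (by norm_num)) hφ (by positivity)
    (fun Y hY hY' => (h1 q a Y hq ha hY).trans (by
      have e1 : Y ^ (7999 / 4000 : ℝ) ≤ 4 * (X ^ (7999 / 8000 : ℝ)) ^ 2 := by
        have e2 : (2 : ℝ) ^ (7999 / 4000 : ℝ) ≤ 4 := by
          calc (2 : ℝ) ^ (7999 / 4000 : ℝ) ≤ 2 ^ ((2 : ℕ) : ℝ) :=
                Real.rpow_le_rpow_of_exponent_le (by norm_num) (by norm_num)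
            _ = 4 := by rw [Real.rpow_natCast]; norm_num
        have e3 : (X ^ (7999 / 8000 : ℝ)) ^ 2 = X ^ (7999 / 4000 : ℝ) := by
          rw [← Real.rpow_natCast, ← Real.rpow_mul hX0.le]; norm_num
        calc _ ≤ (2 * X) ^ (7999 / 4000 : ℝ) := Real.rpow_le_rpow (by linarith) hY' (by norm_num)
          _ = 2 ^ (7999 / 4000 : ℝ) * X ^ (7999 / 4000 : ℝ) := Real.mul_rpow (by norm_num) hX0.le
          _ ≤ _ := by
              rw [e3]
              exact mul_le_mul_of_nonneg_right e2 (Real.rpow_nonneg hX0.le _)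
      calc _ ≤ C * (32000 * X ^ (1 / 16000 : ℝ)) * (4 * (X ^ (7999 / 8000 : ℝ)) ^ 2) := by
            have : 0 ≤ Y ^ (7999 / 4000 : ℝ) := by positivity
            gcongr
        _ = _ := by ring))
  rw [sum_filter]
  refine h2.trans ?_
  have e4 : X ^ (1 - 1 / 16000 : ℝ) = X ^ (1 / 16000 : ℝ) * X ^ (7999 / 8000 : ℝ) := by
    rw [← Real.rpow_add hX0]; norm_num
  rw [e4]
  have e5 : 2 + 2 * (C * (32000 * X ^ (1 / 16000 : ℝ)) * 4) ≤
      (2 + 2 * (C * 32000 * 4)) * X ^ (1 / 16000 : ℝ) := by nlinarith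
  exact (mul_le_mul_of_nonneg_right e5 (Real.rpow_nonneg hX0.le _)).trans (le_of_eq (mul_assoc _ _ _))

end Vale.Agent.P013
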