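import Mathlib

/-!
Definitions for the Jacobsthal project (overview: notes/P013.md). Do not edit.
-/

namespace Vale.Agent.P013

open Finset Real
open scoped ArithmeticFunction.vonMangoldt

noncomputable section

open Classical

/-- product of a finite set of primes -/
def pr (d : Finset ℕ) : ℕ := ∏ p ∈ d, p

/-- least element -/
def mn (d : Finset ℕ) : ℕ := sInf (d : Set ℕ)

/-- primes in `(u, v]` -/
def PR (u v : ℝ) : Finset ℕ := (Ioc ⌊u⌋₊ ⌊v⌋₊).filter Nat.Prime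

/-- number of `ν ∈ [1, y]` with `q ∣ x + ν` -/
def cnt (x y q : ℕ) : ℕ := ((Icc 1 y).filter fun ν => q ∣ x + ν).card

/-- remainder term -/
def Fe (x y q : ℕ) : ℝ := (cnt x y q : ℝ) - (y : ℝ) / q

/-- sifting function: `ν ∈ [1, y]`, `a ∣ x + ν`, no prime below `z` divides `x + ν` -/
def Sv (x y a z : ℕ) : ℕ :=
  ((Icc 1 y).filter fun ν => a ∣ x + ν ∧ ∀ p ∈ Nat.primesBelow z, ¬ p ∣ x + ν).card

/-- Rosser chain condition -/
def Ch (par : ℕ) (D : ℝ) (d : Finset ℕ) : Prop :=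
  ∀ p ∈ d, Even (par + (d.filter fun q => p ≤ q).card) →
    (pr (d.filter fun q => p < q) : ℝ) * (p : ℝ) ^ 3 < D

def chains (par : ℕ) (D : ℝ) (z : ℕ) : Finset (Finset ℕ) :=
  (Nat.primesBelow z).powerset.filter (Ch par D)

/-- main term of the Rosser sieve -/
def Mm (par : ℕ) (D : ℝ) (z : ℕ) : ℝ := ∑ d ∈ chains par D z, (-1) ^ d.card / (pr d : ℝ)

/-- pointwise value of the Rosser sieve -/
def lam (par : ℕ) (D : ℝ) (Q : Finset ℕ) : ℝ :=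
  ∑ d ∈ Q.powerset.filter (Ch par D), (-1) ^ d.card

/-- primes below `z` dividing `N` -/
def Qs (z N : ℕ) : Finset ℕ := (Nat.primesBelow z).filter fun p => p ∣ N

/-- discarded sets of the lower sieve -/
def disc (D : ℝ) (z : ℕ) : Finset (Finset ℕ) :=
  (Nat.primesBelow z).powerset.filter fun e =>
    e.Nonempty ∧ Ch 0 D (e.erase (mn e)) ∧ ¬ Ch 0 D e

/-- unit window `D e^(-Λ-1) < pr d ≤ D e^(-Λ)` -/
def win (D Λ' : ℝ) (d : Finset ℕ) : Prop :=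
  D * exp (-Λ' - 1) < (pr d : ℝ) ∧ (pr d : ℝ) ≤ D * exp (-Λ')

def Bm (E L l : ℝ) : ℝ := L ^ 2 / l - 2 * L + E * (L / l - 1) ^ 2

def Bp (E L l : ℝ) : ℝ := (L - l) ^ 2 / l + 3 / 5 * E * L ^ 2 / l ^ 2

/-- zero-free half plane -/
def ZF : Prop :=
  ∀ (q : ℕ) [NeZero q] (χ : DirichletCharacter ℂ q) (s : ℂ), 1999 / 2000 < s.re →
    (χ ≠ 1 ∨ s ≠ 1) → DirichletCharacter.LFunction χ s ≠ 0

/-- primes in progressions with a power saving -/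
def PA (δ C : ℝ) : Prop :=
  ∀ (q a : ℕ) (X : ℝ), 1 ≤ q → a.Coprime q → (q : ℝ) ≤ X →
    |∑ n ∈ (Icc 1 ⌊X⌋₊).filter (fun n => n ≡ a [MOD q]), Λ n - X / (Nat.totient q : ℝ)|
      ≤ C * X ^ (1 - δ)

/-- entire function attached to a character -/
def HH {q : ℕ} [NeZero q] (χ : DirichletCharacter ℂ q) : ℂ → ℂ :=
  if χ = 1 then DirichletCharacter.LFunctionTrivChar₁ q else DirichletCharacter.LFunction χ

/-- strongly multiplicative weight -/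
def hl (a b : ℕ → ℝ) (S : Finset ℕ) (k : ℕ) : ℝ := ∏ p ∈ S, if p ∣ k then a p else b p

/-- weights of the direct argument -/
def da (g : ℤ) (r : ℕ) : ℝ := if (r : ℤ) ∣ g then 0 else 1

def db (g : ℤ) (r : ℕ) : ℝ := if (r : ℤ) ∣ g then 1 else 1 - 1 / ((r : ℝ) - 1)

/-- survival condition of the direct argument: `α ∣ N` and `N / α` has no prime factor below `W` -/
def Surv (α W : ℕ) (N : ℤ) : Prop :=
  (α : ℤ) ∣ N ∧ ∀ r ∈ Nat.primesBelow W, ¬ ((α * r : ℕ) : ℤ) ∣ N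

/-- index of the box of `p` -/
def bx (L p : ℕ) : ℕ := ⌈(L : ℝ) * log p⌉₊

/-- upper end of a box -/
def ro (L c : ℕ) : ℝ := exp ((c : ℝ) / L)

/-- rounded size of a set of primes -/
def sg (L : ℕ) (d : Finset ℕ) : ℝ := ∏ p ∈ d, ro L (bx L p)

/-- support of the Selberg weights -/
def DD {r : ℕ} (L W : ℕ) (J : Fin r → Finset ℕ) (R' R : ℝ) : Finset (Finset ℕ) :=
  (Nat.primesBelow W).powerset.filter fun d =>
    sg L d ≤ R' ∨ (sg L d ≤ R ∧ ∀ i, (d ∩ J i).Nonempty)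

def fw (d : Finset ℕ) : ℝ := ∏ p ∈ d, 1 / ((p : ℝ) - 1)

def GG (𝒟 : Finset (Finset ℕ)) : ℝ := ∑ d ∈ 𝒟, fw d

/-- Selberg weights -/
def rho (𝒟 : Finset (Finset ℕ)) (b : Finset ℕ) : ℝ :=
  (-1) ^ b.card * (pr b : ℝ) * (∑ d ∈ 𝒟.filter (fun d => b ⊆ d), fw d) / GG 𝒟

/-- remainder of the Selberg sieve -/
def Err (x y a : ℕ) (𝒟 : Finset (Finset ℕ)) : ℝ :=
  ∑ b₁ ∈ 𝒟, ∑ b₂ ∈ 𝒟, rho 𝒟 b₁ * rho 𝒟 b₂ * Fe x y (a * pr (b₁ ∪ b₂))

/-- multilinear remainder sum -/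
def Phi {r : ℕ} (x y m : ℕ) (B : Fin r → Finset ℕ) : ℝ :=
  ∑ p ∈ Fintype.piFinset B, Fe x y (m * ∏ i, p i)

/-- size of a product set -/
def NN {r : ℕ} (B : Fin r → Finset ℕ) : ℝ := ∏ i, ((B i).card : ℝ)

/-- boxes with indices `c` -/
def Bx {r : ℕ} (L : ℕ) (J : Fin r → Finset ℕ) (c : Fin r → ℕ) (i : Fin r) : Finset ℕ :=
  (J i).filter fun p => bx L p = c i

/-- all tuples of box indices -/
def Cs {r : ℕ} (L : ℕ) (J : Fin r → Finset ℕ) : Finset (Fin r → ℕ) :=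
  Fintype.piFinset fun i => (J i).image (bx L)

/-- sets of primes below `W` of rounded size at most `R` -/
def Sm (L W : ℕ) (R : ℝ) : Finset (Finset ℕ) :=
  (Nat.primesBelow W).powerset.filter fun d => sg L d ≤ R

/-- the structured remainder -/
def ErrS {r : ℕ} (x y a L W : ℕ) (J : Fin r → Finset ℕ) (R e : ℝ) : ℝ :=
  ∑ c ∈ Cs L J, ∑ b₁ ∈ Sm L W (R / ∏ i, ro L (c i)), ∑ b₂ ∈ Sm L W R,
    (|Phi x y (a * pr (b₁ ∪ b₂)) (Bx L J c)| + e * NN (Bx L J c))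

/-- blocks of primes with logarithmic end points `v` -/
def JJ (r : ℕ) (v : ℕ → ℕ) (i : Fin r) : Finset ℕ := PR (exp (v i)) (exp (v (i + 1)))

/-- logarithmic end points -/
def vv (c₀ K₀ K y : ℕ) : ℕ → ℕ
  | 0 => ⌈(c₀ : ℝ) * log (log y)⌉₊
  | i + 1 => K₀ * K ^ i * ⌈(c₀ : ℝ) * log (log y)⌉₊

/-- centred count in a progression -/
def gg (p k c ν r : ℕ) : ℝ :=
  (((Icc 1 ν).filter fun i : ℕ => (p : ℤ) ∣ (r : ℤ) - c + k * i).card : ℝ) - (ν : ℝ) / p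

/-- second coordinate of the point attached to `m` -/
def nn (x m : ℕ) : ℤ := -((x % m : ℕ) : ℤ)

def det3 (x m₁ m₂ m₃ : ℕ) : ℤ :=
  ((m₂ : ℤ) - m₁) * (nn x m₃ - nn x m₁) - ((m₃ : ℤ) - m₁) * (nn x m₂ - nn x m₁)

/-- `m` lies on a line with at least `ρ` points -/
def Rich (x y : ℕ) (ρ : ℝ) (m : ℕ) : Prop :=
  ∃ m' ∈ Icc 1 y, m' ≠ m ∧ ρ ≤ (((Icc 1 y).filter fun m'' => det3 x m m' m'' = 0).card : ℝ)

/-- the exceptional moduli -/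
def BadM {r : ℕ} (x y : ℕ) (B : Fin r → Finset ℕ) (U κ ρ : ℝ) : Finset ℕ :=
  (Icc 1 y).filter fun m => (y : ℝ) ≤ m * U ∧ κ * NN B ≤ |Phi x y m B| ∧ ¬ Rich x y ρ m

/-- level -/
def Dp (y : ℕ) : ℝ := (y : ℝ) / log y ^ 7

def Pp (y : ℕ) : ℝ := (y : ℝ) ^ (3 / 10 : ℝ)

def ww (n y : ℕ) : ℝ := exp ((log (Dp y) - log (Pp y)) / ((n : ℝ) + 3 / 2))

def WW (n y : ℕ) : ℕ := ⌊ww n y⌋₊ + 1

def B1 (η : ℝ) (y : ℕ) : Finset ℕ := PR (Pp y) (Pp y ^ (1 + η))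

def AA (n : ℕ) (η : ℝ) (y : ℕ) : Finset (Finset ℕ) :=
  (PR (ww n y) (ww n y ^ (1 + η))).powersetCard n

end

end Vale.Agent.P013
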