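import Vale.Agent.P013.PA1

/-!
`logderiv_ball`: `f' / f` is holomorphic on the disc, so it has a primitive `g` with `g c = 0`
(`DifferentiableOn.isExactOn_ball`, `Complex.IsExactOn.with_val_at`); `f * exp (-g)` has zero derivative on the
(convex) disc, so `f z = f c * exp (g z)` and `re (g z) ≤ M`. `Complex.borelCaratheodory_zero` for `g (c + ·)` gives
`‖g z‖ ≤ 2 M ‖z - c‖ / (R - ‖z - c‖) ≤ 4 M R / (R - r)` for `‖z - c‖ ≤ (R + r) / 2`; the Cauchy estimate on the circle
of radius `(R - r) / 2` around `z` (`Complex.norm_deriv_le_of_forall_mem_sphere_norm_le`) gives the claim.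

`HH_logderiv_le`: `c = 2 + i t` with `t = im s`, `R = 1 + 1 / 2000`, `r = 1 + 1 / 4000`; on the disc `re > 1999 / 2000`,
`‖z‖ + 1 ≤ |t| + 5`, so `‖HH z‖ ≤ 16 q (|t| + 5)² ‖HH c‖`, `M = log (16 q (|t| + 5)²) ≤ C log (2 q) √(1 + |t|)`.
-/

namespace Vale.Agent.P013

open Complex Metric

theorem logderiv_ball {f : ℂ → ℂ} {c : ℂ} {R r M : ℝ} (hr : 0 ≤ r) (hrR : r < R) (hM : 0 < M)
    (hf : DifferentiableOn ℂ f (ball c R)) (h0 : ∀ z ∈ ball c R, f z ≠ 0)
    (hb : ∀ z ∈ ball c R, ‖f z‖ ≤ Real.exp M * ‖f c‖) {z : ℂ} (hz : ‖z - c‖ ≤ r) :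
    ‖deriv f z / f z‖ ≤ 8 * R * M / (R - r) ^ 2 := by
  have hR : 0 < R := hr.trans_lt hrR
  have hd : DifferentiableOn ℂ (fun z => deriv f z / f z) (ball c R) :=
    (hf.deriv isOpen_ball).div hf h0
  obtain ⟨g, hg0, hg⟩ := hd.isExactOn_ball.with_val_at c 0
  have hgd : DifferentiableOn ℂ g (ball c R) := fun w hw =>
    (hg w hw).differentiableAt.differentiableWithinAt
  have hconst : ∀ w ∈ ball c R, f w * exp (-g w) = f c := by
    intro w hw
    have h1 : DifferentiableOn ℂ (fun w => f w * exp (-g w)) (ball c R) := hf.mul hgd.neg.cexp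
    have h2 : Set.EqOn (deriv fun w => f w * exp (-g w)) 0 (ball c R) := by
      intro x hx
      have h3 := ((hf x hx).differentiableAt (isOpen_ball.mem_nhds hx)).hasDerivAt
      have h4 := (h3.mul (hg x hx).neg.cexp).deriv
      have h5 := h0 x hx
      refine Eq.trans h4 ?_
      simp only [Pi.zero_apply, Pi.neg_apply]
      field_simp
      ring
    have h3 := isOpen_ball.is_const_of_deriv_eq_zero (convex_ball c R).isPreconnected h1 h2 hw
      (mem_ball_self hR)
    simpa [hg0] using h3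
  have hre : ∀ w ∈ ball c R, (g w).re ≤ M := by
    intro w hw
    have h1 := hb w hw
    have h2 : f w = f c * exp (g w) := by
      rw [← hconst w hw, mul_assoc, ← Complex.exp_add, neg_add_cancel, Complex.exp_zero, mul_one]
    rw [h2, norm_mul, Complex.norm_exp, mul_comm] at h1
    exact Real.exp_le_exp.1
      (le_of_mul_le_mul_right h1 (norm_pos_iff.2 (h0 c (mem_ball_self hR))))
  have hmap : ∀ w ∈ ball (0 : ℂ) R, c + w ∈ ball c R := fun w hw => by
    simpa [mem_ball_iff_norm] using hw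
  have hbc : ∀ w : ℂ, ‖w - c‖ ≤ (R + r) / 2 → ‖g w‖ ≤ 4 * M * R / (R - r) := by
    intro w hw
    have h1 := borelCaratheodory_zero (f := fun w => g (c + w)) (z := w - c) hM
      (hgd.comp (by fun_prop) hmap) (fun w hw => hre _ (hmap w hw)) hR
      (mem_ball_zero_iff.2 (by linarith)) (by simpa using hg0)
    simp only [add_sub_cancel] at h1
    refine h1.trans ?_
    rw [div_le_div_iff₀ (by linarith) (by linarith)]
    have h2 : ‖w - c‖ * (R - r) ≤ R * (2 * (R - ‖w - c‖)) :=
      mul_le_mul (by linarith) (by linarith) (by linarith) hR.le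
    nlinarith
  have hzb : z ∈ ball c R := mem_ball_iff_norm.2 (by linarith)
  have hsub : ∀ w ∈ closedBall z ((R - r) / 2), ‖w - c‖ ≤ (R + r) / 2 := fun w hw => by
    have h1 := mem_closedBall_iff_norm.1 hw
    have h2 := norm_sub_le_norm_sub_add_norm_sub w z c
    linarith
  have hc := norm_deriv_le_of_forall_mem_sphere_norm_le (f := g) (c := z) (R := (R - r) / 2)
    (by linarith) (hgd.diffContOnCl_ball fun w hw =>
      mem_ball_iff_norm.2 (by linarith [hsub w hw]))
    fun w hw => hbc w (hsub w (sphere_subset_closedBall hw))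
  rw [(hg z hzb).deriv] at hc
  refine hc.trans (le_of_eq ?_)
  have : R - r ≠ 0 := by linarith
  field_simp
  ring

theorem HH_logderiv_le (h : ZF) : ∃ C : ℝ, 0 < C ∧ ∀ (q : ℕ) [NeZero q]
    (χ : DirichletCharacter ℂ q) (s : ℂ), 3999 / 4000 ≤ s.re → s.re ≤ 2 →
    ‖deriv (HH χ) s / HH χ s‖ ≤ C * Real.log (2 * q) * √(1 + |s.im|) := by
  refine ⟨8 * (1 + 1 / 2000) * 40 / (1 / 4000) ^ 2, by positivity, fun q _ χ s h1 h2 => ?_⟩
  have hq : (1 : ℝ) ≤ q := by exact_mod_cast NeZero.pos q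
  set t := s.im with ht
  have ht0 := abs_nonneg t
  let c : ℂ := ⟨2, t⟩
  have hM1 : 1 < 16 * (q : ℝ) * (|t| + 5) ^ 2 := by nlinarith
  have hball : ∀ z ∈ ball c (1 + 1 / 2000), 1999 / 2000 < z.re ∧ ‖z‖ + 1 ≤ |t| + 5 := by
    intro z hz
    have a1 := mem_ball_iff_norm.1 hz
    have a2 := abs_lt.1 ((abs_re_le_norm (z - c)).trans_lt a1)
    have a3 : ‖c‖ ≤ 2 + |t| := by
      simpa [c] using norm_le_abs_re_add_abs_im c
    have a4 := norm_le_norm_add_norm_sub' z c
    simp only [sub_re, c] at a2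
    constructor <;> linarith [a2.1]
  have key := logderiv_ball (f := HH χ) (c := c) (R := 1 + 1 / 2000) (r := 1 + 1 / 4000)
    (M := Real.log (16 * q * (|t| + 5) ^ 2)) (z := s) (by norm_num) (by norm_num)
    (Real.log_pos hM1) (HH_diff χ).differentiableOn (fun z hz => HH_ne h χ (hball z hz).1)
    (fun z hz => ?_) ?_
  · refine key.trans ?_
    have b1 : Real.log (16 * q * (|t| + 5) ^ 2) ≤ 40 * (Real.log (2 * q) * √(1 + |t|)) := by
      have c1 : 1 ≤ √(1 + |t|) := Real.one_le_sqrt.2 (by linarith)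
      have c2 : 1 / 2 ≤ Real.log (2 * q) :=
        le_trans (by linarith [Real.log_two_gt_d9]) (Real.log_le_log two_pos (by linarith))
      have c3 : 16 * q * (|t| + 5) ^ 2 ≤ 2 * q * (4 * √(1 + |t|)) ^ 4 := by
        have : (4 * √(1 + |t|)) ^ 4 = 256 * (1 + |t|) ^ 2 := by
          rw [mul_pow, show (4 : ℕ) = 2 * 2 from rfl, pow_mul √(1 + |t|),
            Real.sq_sqrt (by linarith)]
          norm_num
        rw [this]
        have c4 : 8 * (|t| + 5) ^ 2 ≤ 256 * (1 + |t|) ^ 2 := by nlinarith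
        nlinarith
      have c5 := Real.log_le_log (by linarith) c3
      rw [Real.log_mul (x := 2 * q) (by positivity) (by positivity), Real.log_pow] at c5
      have c6 := Real.log_le_sub_one_of_pos (x := 4 * √(1 + |t|)) (by positivity)
      have c7 : Real.log (2 * q) ≤ Real.log (2 * q) * √(1 + |t|) :=
        le_mul_of_one_le_right (by linarith) c1
      have c8 : 1 / 2 * √(1 + |t|) ≤ Real.log (2 * q) * √(1 + |t|) :=
        mul_le_mul_of_nonneg_right c2 (by positivity)
      push_cast at c5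
      linarith
    rw [show (1 + 1 / 2000 - (1 + 1 / 4000) : ℝ) = 1 / 4000 by norm_num]
    norm_num at b1 ⊢
    linarith
  · obtain ⟨a1, a2⟩ := hball z hz
    have a3 := HH_upper χ (s := z) (by linarith)
    have a4 := HH_lower χ (s := c) rfl
    rw [Real.exp_log (by linarith)]
    have a5 : (‖z‖ + 1) ^ 2 ≤ (|t| + 5) ^ 2 := pow_le_pow_left₀ (by positivity) a2 2
    calc ‖HH χ z‖ ≤ 4 * q * (‖z‖ + 1) ^ 2 := a3
      _ ≤ 4 * q * (|t| + 5) ^ 2 := mul_le_mul_of_nonneg_left a5 (by positivity)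
      _ = 16 * q * (|t| + 5) ^ 2 * (1 / 4) := by ring
      _ ≤ _ := mul_le_mul_of_nonneg_left a4 (by positivity)
  · have a1 := norm_le_abs_re_add_abs_im (s - c)
    have a2 : (s - c).im = 0 := by simp [c, ht]
    have a3 : |(s - c).re| ≤ 1 + 1 / 4000 := by
      simp only [sub_re, c]
      rw [abs_le]
      constructor <;> linarith
    rw [a2, abs_zero, add_zero] at a1
    linarith

end Vale.Agent.P013
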