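import Vale.Agent.P013.Mert

/-!
Brun-Hooley upper bound sieve. `M` from `mert_sq`. Blocks `S i = S.filter (w^(2^-(i+1)) < r ≤ w^(2^-i))`, `i < m`, where
`m` is so large that `w^(2^-m) < 2`; they partition `S`, and `∑ r ∈ S i, g r ≤ 2 M`. Let `J i = J₀ + 2 i`, `J₀` even.
For `n` let `Q = S.filter (bad · n)`; `y i = ∑ e ⊆ Q ∩ S i, |e| ≤ J i, (-1)^|e|` is `≥ 0` and equals `1` if `Q ∩ S i = ∅`
(`∑ k ≤ J, (-1)^k choose m k = (-1)^J choose (m - 1) J`, `Int.alternating_sum_range_choose_eq_choose`). So the indicator of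
`Q = ∅` is at most `∏ i, y i = ∑ e ∈ 𝓔, e ⊆ Q, (-1)^|e|`, where `𝓔 = {e ⊆ S : ∀ i, |e ∩ S i| ≤ J i}` (prove this factorisation
once for a general weight: `∑ e ∈ 𝓔, ∏ r ∈ e, c r = ∏ i, ∑ e ⊆ S i, |e| ≤ J i, ∏ r ∈ e, c r`, and use it for
`c r = - indicator (bad r n)` and `c r = - g r`). For `e ∈ 𝓔`, `pr e ≤ w^(∑ (J₀ + 2 i) 2^-i) ≤ w^(2 J₀ + 4) = w^s₀`, so
`|𝓔| ≤ w^s₀` (`card_le_of_pr_le`). Main term: Bonferroni
`∑ |e| ≤ J, ∏ (-g) ≤ ∏ (1 - g) + ∑ |e| = J + 1, ∏ g` for even `J` (induction on the set, for both parities at once;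
see also `Vale/Agent/P031/Sieve1.lean`), `∑ |e| = k, ∏ g ≤ (∑ g)^k / k!`, `∏ (1 - g) ≥ exp (-2 ∑ g) ≥ exp (-4 M)`
(`g ≤ 1/2`). So each block factor is at most `∏ (1 - g) * (1 + exp (4 M) (2 M)^(J i + 1) / (J i + 1)!)` and the product
of the corrections is at most `exp (exp (4 M) * tail of the exponential series beyond J₀) ≤ 1 + ε` for large `J₀`.
-/

namespace Vale.Agent.P013

open Finset Real

open Classical

theorem bh_bonf (H : Finset ℕ) {J : ℕ} (hJ : Even J) :
    (if H = ∅ then (1 : ℝ) else 0) ≤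
      ∑ D ∈ H.powerset, if D.card ≤ J then (-1 : ℝ) ^ D.card else 0 := by
  split_ifs with h
  · simp [h]
  · rw [sum_powerset_apply_card (fun m => if m ≤ J then (-1 : ℝ) ^ m else 0)]
    obtain ⟨n, hn⟩ : ∃ n, H.card = n + 1 :=
      ⟨H.card - 1, by have := card_pos.2 (nonempty_iff_ne_empty.2 h); omega⟩
    rw [hn]
    have e1 : ∑ m ∈ range (n + 1 + 1), (n + 1).choose m • (if m ≤ J then (-1 : ℝ) ^ m else 0) =
        ∑ m ∈ range (J + 1), (-1 : ℝ) ^ m * (n + 1).choose m := by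
      have a1 : ∑ m ∈ range (n + 1 + 1), (n + 1).choose m • (if m ≤ J then (-1 : ℝ) ^ m else 0) =
          ∑ m ∈ range (n + 1 + 1 + (J + 1)),
            (n + 1).choose m • (if m ≤ J then (-1 : ℝ) ^ m else 0) := by
        refine sum_subset (range_subset_range.2 (by omega)) fun m _ hm => ?_
        rw [Nat.choose_eq_zero_of_lt (by simpa using hm), zero_smul]
      rw [a1, ← sum_subset (s₁ := range (J + 1)) (range_subset_range.2 (by omega))]
      · refine sum_congr rfl fun m hm => ?_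
        rw [if_pos (by simpa [Nat.lt_succ_iff] using hm), nsmul_eq_mul, mul_comm]
      · intro m _ hm
        rw [if_neg (by simpa [Nat.lt_succ_iff] using hm), smul_zero]
    have e2 := Int.alternating_sum_range_choose_eq_choose (n := n) (m := J)
    have e3 : ∑ m ∈ range (J + 1), (-1 : ℝ) ^ m * (n + 1).choose m = (-1) ^ J * n.choose J := by
      exact_mod_cast e2
    rw [e1, e3, hJ.neg_one_pow]
    positivity

theorem bh_point (T : Finset ℕ) (P : ℕ → Prop) {J : ℕ} (hJ : Even J) :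
    (if ∀ r ∈ T, ¬ P r then (1 : ℝ) else 0) ≤
      ∑ e ∈ T.powerset.filter (fun e => e.card ≤ J), ∏ r ∈ e, (if P r then (-1 : ℝ) else 0) := by
  have h1 := bh_bonf (T.filter P) hJ
  simp only [filter_eq_empty_iff] at h1
  refine le_trans (le_of_eq (if_congr Iff.rfl rfl rfl)) (h1.trans (le_of_eq ?_))
  rw [sum_filter, ← sum_subset (s₁ := (T.filter P).powerset) (powerset_mono.2 (filter_subset _ _))]
  · refine sum_congr rfl fun D hD => ?_
    rw [prod_congr rfl fun q hq => if_pos (mem_filter.1 (mem_powerset.1 hD hq)).2, prod_const]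
  · intro D hD hD'
    have : ∃ q ∈ D, ¬ P q := by
      by_contra hc
      push Not at hc
      exact hD' (mem_powerset.2 fun q hq => mem_filter.2 ⟨mem_powerset.1 hD hq, hc q hq⟩)
    obtain ⟨q, hq, hq'⟩ := this
    rw [prod_eq_zero hq (if_neg hq'), ite_self]

theorem bh_block (T : Finset ℕ) (g : ℕ → ℝ) (J : ℕ) {M : ℝ}
    (hg : ∀ r ∈ T, 0 ≤ g r ∧ g r ≤ 1 / 2) (hM : ∑ r ∈ T, g r ≤ 2 * M) :
    |∑ e ∈ T.powerset.filter (fun e => e.card ≤ J), ∏ r ∈ e, (-g r)| ≤
      (∏ r ∈ T, (1 - g r)) * (1 + exp (10 * M - J)) := by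
  have hs : 0 ≤ ∑ r ∈ T, g r := sum_nonneg fun r hr => (hg r hr).1
  have h1 : ∏ r ∈ T, (1 - g r) = ∑ e ∈ T.powerset, ∏ r ∈ e, (-g r) := by
    rw [← prod_one_add]; rfl
  have h2 : exp (-(4 * M)) ≤ ∏ r ∈ T, (1 - g r) := by
    calc exp (-(4 * M)) ≤ exp (∑ r ∈ T, -(2 * g r)) := by
          rw [sum_neg_distrib, ← mul_sum]; exact exp_le_exp.2 (by linarith)
      _ = ∏ r ∈ T, exp (-(2 * g r)) := exp_sum _ _
      _ ≤ _ := by
          refine prod_le_prod (fun _ _ => (exp_pos _).le) fun r hr => ?_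
          obtain ⟨a, b⟩ := hg r hr
          rw [exp_neg, inv_le_iff_one_le_mul₀ (exp_pos _)]
          nlinarith [add_one_le_exp (2 * g r)]
  have h3 : |∑ e ∈ T.powerset.filter (fun e => ¬ e.card ≤ J), ∏ r ∈ e, (-g r)| ≤
      exp (6 * M - J) := by
    calc _ ≤ ∑ e ∈ T.powerset.filter (fun e => ¬ e.card ≤ J), exp (-J) * ∏ r ∈ e, (exp 1 * g r) := by
          refine (abs_sum_le_sum_abs _ _).trans (sum_le_sum fun e he => ?_)
          obtain ⟨he1, he2⟩ := mem_filter.1 he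
          have h0 : 0 ≤ ∏ r ∈ e, g r := prod_nonneg fun r hr => (hg r (mem_powerset.1 he1 hr)).1
          rw [prod_neg, abs_mul, abs_pow, abs_neg, abs_one, one_pow, one_mul, abs_of_nonneg h0,
            prod_mul_distrib, prod_const, ← exp_nat_mul, mul_one, ← mul_assoc, ← exp_add]
          refine le_mul_of_one_le_left h0 (one_le_exp ?_)
          have : (J : ℝ) ≤ e.card := by exact_mod_cast (not_le.1 he2).le
          linarith
      _ ≤ ∑ e ∈ T.powerset, exp (-J) * ∏ r ∈ e, (exp 1 * g r) := by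
          refine sum_le_sum_of_subset_of_nonneg (filter_subset _ _) fun e he _ => ?_
          exact mul_nonneg (exp_pos _).le (prod_nonneg fun r hr =>
            mul_nonneg (exp_pos _).le (hg r (mem_powerset.1 he hr)).1)
      _ = exp (-J) * ∏ r ∈ T, (1 + exp 1 * g r) := by rw [← mul_sum, prod_one_add]
      _ ≤ exp (-J) * ∏ r ∈ T, exp (3 * g r) := by
          gcongr with r hr
          · exact fun r hr => by have := (hg r hr).1; positivity
          · have := (hg r hr).1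
            nlinarith [add_one_le_exp (3 * g r), exp_one_lt_d9]
      _ ≤ exp (6 * M - J) := by
          rw [← exp_sum, ← exp_add, ← mul_sum]
          gcongr
          linarith
  have h4 : exp (6 * M - J) ≤ (∏ r ∈ T, (1 - g r)) * exp (10 * M - J) := by
    calc exp (6 * M - J) = exp (-(4 * M)) * exp (10 * M - J) := by rw [← exp_add]; ring_nf
      _ ≤ _ := by gcongr
  have h5 := sum_filter_add_sum_filter_not T.powerset (fun e => e.card ≤ J)
    (fun e => ∏ r ∈ e, (-g r))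
  have h6 := (exp_pos (-(4 * M))).le.trans h2
  rw [abs_le] at h3 ⊢
  constructor <;> nlinarith [exp_pos (10 * M - J)]

theorem bh_geo (J₀ m : ℕ) :
    ∑ i ∈ range m, (1 / 2 : ℝ) ^ i * ((J₀ + 2 * i : ℕ) : ℝ) ≤ 2 * J₀ + 4 := by
  have h : ∑ i ∈ range m, (1 / 2 : ℝ) ^ i * ((J₀ + 2 * i : ℕ) : ℝ) =
      2 * J₀ + 4 - (2 * J₀ + 4 * m + 4) * (1 / 2 : ℝ) ^ m := by
    induction m with
    | zero => simp
    | succ m ih => rw [sum_range_succ, ih]; push_cast; ring
  rw [h]
  exact sub_le_self _ (by positivity)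

theorem bh_index {w : ℝ} (hw : 2 ≤ w) {r : ℝ} (h2 : 2 ≤ r) (hr : r ≤ w) :
    ∃ i : ℕ, w ^ ((1 / 2 : ℝ) ^ (i + 1)) < r ∧ r ≤ w ^ ((1 / 2 : ℝ) ^ i) := by
  have hl : 0 < log w := log_pos (by linarith)
  have hex : ∃ i : ℕ, w ^ ((1 / 2 : ℝ) ^ (i + 1)) < r := by
    obtain ⟨n, hn⟩ := exists_pow_lt_of_lt_one (x := log 2 / log w) (y := (1 / 2 : ℝ))
      (div_pos (log_pos (by norm_num)) hl) (by norm_num)
    refine ⟨n, lt_of_lt_of_le ?_ h2⟩
    rw [rpow_def_of_pos (by linarith), ← lt_log_iff_exp_lt (by norm_num)]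
    rw [lt_div_iff₀ hl] at hn
    have : 0 < (1 / 2 : ℝ) ^ n * log w := by positivity
    rw [pow_succ]
    linarith
  refine ⟨Nat.find hex, Nat.find_spec hex, ?_⟩
  rcases Nat.eq_zero_or_pos (Nat.find hex) with h | h
  · rw [h]; simpa using hr
  · have := Nat.find_min hex (m := Nat.find hex - 1) (by omega)
    rw [Nat.sub_add_cancel h] at this
    exact not_lt.1 this

theorem bh_corr {ε : ℝ} (hε : 0 < ε) (M : ℝ) : ∃ J₀ : ℕ, Even J₀ ∧ ∀ m : ℕ,
    ∏ i ∈ range m, (1 + exp (10 * M - ((J₀ + 2 * i : ℕ) : ℝ))) ≤ 1 + ε := by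
  have hl : 0 < log (1 + ε) := log_pos (by linarith)
  obtain ⟨k, hk⟩ := exists_nat_ge (10 * M - log (log (1 + ε) / 2))
  refine ⟨2 * k, even_two_mul k, fun m => ?_⟩
  have h1 : exp (10 * M - 2 * k) ≤ log (1 + ε) / 2 := by
    rw [← le_log_iff_exp_le (by positivity)]
    have : (0 : ℝ) ≤ k := Nat.cast_nonneg k
    linarith
  have h2 : exp (-2) ≤ (1 / 2 : ℝ) := by
    rw [exp_neg, inv_le_comm₀ (exp_pos _) (by norm_num)]
    linarith [add_one_le_exp (2 : ℝ)]
  calc _ ≤ ∏ i ∈ range m, exp (log (1 + ε) / 2 * (1 / 2) ^ i) := by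
        refine prod_le_prod (fun _ _ => by positivity) fun i _ => ?_
        have : exp (10 * M - ((2 * k + 2 * i : ℕ) : ℝ)) = exp (10 * M - 2 * k) * exp (-2) ^ i := by
          rw [← exp_nat_mul, ← exp_add]; push_cast; ring_nf
        have h3 : exp (10 * M - 2 * k) * exp (-2) ^ i ≤ log (1 + ε) / 2 * (1 / 2) ^ i := by gcongr
        linarith [add_one_le_exp (log (1 + ε) / 2 * (1 / 2) ^ i)]
    _ ≤ exp (log (1 + ε)) := by
        rw [← exp_sum, ← mul_sum]
        gcongr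
        nlinarith [sum_geometric_two_le m]
    _ = 1 + ε := exp_log (by linarith)

theorem bh {ε : ℝ} (hε : 0 < ε) : ∃ s₀ : ℝ, 0 < s₀ ∧ ∀ (I S : Finset ℕ) (wt g : ℕ → ℝ)
    (bad : ℕ → ℕ → Prop) (w X Rm : ℝ), 2 ≤ w → 0 ≤ X → (∀ n ∈ I, 0 ≤ wt n) →
    (∀ r ∈ S, r.Prime ∧ (r : ℝ) ≤ w ∧ 0 ≤ g r ∧ g r ≤ 1 / 2 ∧ g r ≤ 2 / r) →
    (∀ e ⊆ S, (pr e : ℝ) ≤ w ^ s₀ →
      |∑ n ∈ I.filter (fun n => ∀ r ∈ e, bad r n), wt n - X * ∏ r ∈ e, g r| ≤ Rm) →
    ∑ n ∈ I.filter (fun n => ∀ r ∈ S, ¬ bad r n), wt n ≤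
      (1 + ε) * X * ∏ r ∈ S, (1 - g r) + w ^ s₀ * Rm := by
  obtain ⟨M, -, hM⟩ := mert_sq
  obtain ⟨J₀, hJ₀, hcorr⟩ := bh_corr hε M
  refine ⟨2 * J₀ + 4, by positivity, fun I S wt g bad w X Rm hw hX hwt hS hR => ?_⟩
  have hw1 : 1 ≤ w := by linarith
  have hw0 : 0 < w := by linarith
  choose! β hβ using fun r (hr : r ∈ S) =>
    bh_index hw (r := r) (by exact_mod_cast (hS r hr).1.two_le) (hS r hr).2.1
  set m := S.sup β + 1 with hm
  have hβm : ∀ r ∈ S, β r ∈ range m := fun r hr => mem_range.2 (Nat.lt_succ_of_le (le_sup hr))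
  set B : ℕ → Finset ℕ := fun i => S.filter fun r => β r = i with hB
  set t : Fin m → Finset (Finset ℕ) := fun i =>
    (B i).powerset.filter fun e => e.card ≤ J₀ + 2 * i with ht
  set U : (Fin m → Finset ℕ) → Finset ℕ := fun x => univ.biUnion x with hU
  have hx : ∀ x ∈ Fintype.piFinset t, ∀ i : Fin m, x i ⊆ B i ∧ (x i).card ≤ J₀ + 2 * i := by
    intro x hx i
    have := Fintype.mem_piFinset.1 hx i
    rwa [ht, mem_filter, mem_powerset] at this
  have hprod : ∀ x ∈ Fintype.piFinset t, ∀ c : ℕ → ℝ,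
      ∏ r ∈ U x, c r = ∏ i, ∏ r ∈ x i, c r := by
    intro x hx' c
    refine prod_biUnion fun i _ j _ hij => ?_
    refine disjoint_left.2 fun r hi hj => hij (Fin.ext ?_)
    rw [← (mem_filter.1 ((hx x hx' i).1 hi)).2, ← (mem_filter.1 ((hx x hx' j).1 hj)).2]
  have hUS : ∀ x ∈ Fintype.piFinset t, U x ⊆ S := by
    intro x hx' r hr
    obtain ⟨i, -, hi⟩ := mem_biUnion.1 hr
    exact (mem_filter.1 ((hx x hx' i).1 hi)).1
  have hUpr : ∀ x ∈ Fintype.piFinset t, (pr (U x) : ℝ) ≤ w ^ (2 * (J₀ : ℝ) + 4) := by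
    intro x hx'
    rw [pr_cast, hprod x hx']
    calc _ ≤ ∏ i : Fin m, w ^ ((1 / 2 : ℝ) ^ (i : ℕ) * ((J₀ + 2 * i : ℕ) : ℝ)) := by
          refine prod_le_prod (fun i _ => by positivity) fun i _ => ?_
          have h1 : 1 ≤ w ^ ((1 / 2 : ℝ) ^ (i : ℕ)) := one_le_rpow hw1 (by positivity)
          rw [rpow_mul hw0.le, rpow_natCast]
          refine le_trans ?_ (pow_le_pow_right₀ h1 (hx x hx' i).2)
          rw [← prod_const]
          refine prod_le_prod (fun _ _ => by positivity) fun r hr => ?_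
          obtain ⟨h2, h3⟩ := mem_filter.1 ((hx x hx' i).1 hr)
          rw [← h3]
          exact (hβ r h2).2
      _ ≤ _ := by
          rw [← rpow_sum_of_pos hw0, Fin.sum_univ_eq_sum_range
            (fun i => (1 / 2 : ℝ) ^ i * ((J₀ + 2 * i : ℕ) : ℝ))]
          exact rpow_le_rpow_of_exponent_le hw1 (bh_geo J₀ m)
  have hcard : ((Fintype.piFinset t).card : ℝ) ≤ w ^ (2 * (J₀ : ℝ) + 4) := by
    rw [← card_image_of_injOn (f := U)]
    · refine card_le_of_pr_le (by positivity) fun d hd => ?_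
      obtain ⟨x, hx', rfl⟩ := mem_image.1 hd
      exact ⟨fun p hp => (hS p (hUS x hx' hp)).1, hUpr x hx'⟩
    · have key : ∀ x ∈ Fintype.piFinset t, ∀ i : Fin m, x i = (U x).filter fun r => β r = i := by
        intro x hx' i
        ext r
        rw [mem_filter, hU, mem_biUnion]
        refine ⟨fun h => ⟨⟨i, mem_univ _, h⟩, (mem_filter.1 ((hx x hx' i).1 h)).2⟩, ?_⟩
        rintro ⟨⟨j, -, hj⟩, h⟩
        have : j = i := Fin.ext (by rw [← h, (mem_filter.1 ((hx x hx' j).1 hj)).2])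
        rwa [← this]
      intro x hx' x' hx'' h
      funext i
      rw [key x hx' i, key x' hx'' i, h]
  have hRm : 0 ≤ Rm := (abs_nonneg _).trans
    (hR ∅ (empty_subset _) (by rw [pr_empty, Nat.cast_one]; exact one_le_rpow hw1 (by positivity)))
  have hpt : ∀ n, (if ∀ r ∈ S, ¬ bad r n then (1 : ℝ) else 0) ≤
      ∑ x ∈ Fintype.piFinset t, (-1) ^ (U x).card * if ∀ r ∈ U x, bad r n then 1 else 0 := by
    intro n
    calc _ ≤ ∏ i : Fin m, (if ∀ r ∈ B i, ¬ bad r n then (1 : ℝ) else 0) := by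
          split_ifs with h
          · rw [prod_congr rfl fun i _ => if_pos fun r hr => h r (mem_filter.1 hr).1]; simp
          · exact prod_nonneg fun i _ => by split_ifs <;> norm_num
      _ ≤ ∏ i : Fin m, ∑ e ∈ t i, ∏ r ∈ e, (if bad r n then (-1 : ℝ) else 0) := by
          refine prod_le_prod (fun i _ => by split_ifs <;> norm_num) fun i _ => ?_
          exact bh_point (B i) (fun r => bad r n) (hJ₀.add (even_two_mul _))
      _ = _ := by
          rw [prod_univ_sum]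
          refine sum_congr rfl fun x hx' => ?_
          rw [← hprod x hx']
          split_ifs with h
          · rw [prod_congr rfl fun r hr => if_pos (h r hr), prod_const, mul_one]
          · push Not at h
            obtain ⟨r, hr, h⟩ := h
            rw [prod_eq_zero hr (if_neg h), mul_zero]
  have hmain : ∑ x ∈ Fintype.piFinset t, ∏ r ∈ U x, (-g r) ≤ (1 + ε) * ∏ r ∈ S, (1 - g r) := by
    rw [sum_congr rfl fun x hx' => hprod x hx' _, ← prod_univ_sum t fun _ e => ∏ r ∈ e, (-g r)]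
    have hnn : ∀ i, 0 ≤ ∏ r ∈ B i, (1 - g r) := fun i =>
      prod_nonneg fun r hr => by linarith [(hS r (mem_filter.1 hr).1).2.2.2.1]
    calc _ ≤ ∏ i : Fin m, |∑ e ∈ t i, ∏ r ∈ e, (-g r)| := by
          rw [← abs_prod]; exact le_abs_self _
      _ ≤ ∏ i : Fin m, (∏ r ∈ B i, (1 - g r)) * (1 + exp (10 * M - ((J₀ + 2 * i : ℕ) : ℝ))) := by
          refine prod_le_prod (fun _ _ => abs_nonneg _) fun i _ => ?_
          refine bh_block (B i) g _ (fun r hr => ?_) ?_
          · have := hS r (mem_filter.1 hr).1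
            exact ⟨this.2.2.1, this.2.2.2.1⟩
          · have h1 : 1 ≤ w ^ ((1 / 2 : ℝ) ^ ((i : ℕ) + 1)) := one_le_rpow hw1 (by positivity)
            have h2 := hM _ h1
            have h3 : (w ^ ((1 / 2 : ℝ) ^ ((i : ℕ) + 1))) ^ 2 = w ^ ((1 / 2 : ℝ) ^ (i : ℕ)) := by
              rw [← rpow_natCast, ← rpow_mul hw0.le]; congr 1; push_cast; ring
            calc _ ≤ ∑ r ∈ B i, 2 * (1 / (r : ℝ)) := sum_le_sum fun r hr => by
                    rw [mul_one_div]; exact (hS r (mem_filter.1 hr).1).2.2.2.2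
              _ ≤ 2 * M := by
                  rw [← mul_sum]
                  gcongr
                  refine le_trans (sum_le_sum_of_subset_of_nonneg (fun r hr => ?_)
                    fun _ _ _ => by positivity) h2
                  obtain ⟨h4, h5⟩ := mem_filter.1 hr
                  rw [mem_PR (by positivity) (by positivity), h3, ← h5]
                  exact ⟨(hS r h4).1, hβ r h4⟩
      _ = (∏ r ∈ S, (1 - g r)) *
            ∏ i ∈ range m, (1 + exp (10 * M - ((J₀ + 2 * i : ℕ) : ℝ))) := by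
          rw [prod_mul_distrib, Fin.prod_univ_eq_prod_range (fun i => ∏ r ∈ B i, (1 - g r)),
            Fin.prod_univ_eq_prod_range
              (fun i => 1 + exp (10 * M - ((J₀ + 2 * i : ℕ) : ℝ))),
            prod_fiberwise_of_maps_to hβm]
      _ ≤ _ := by
          rw [mul_comm]
          exact mul_le_mul_of_nonneg_right (hcorr m)
            (prod_nonneg fun r hr => by linarith [(hS r hr).2.2.2.1])
  calc _ = ∑ n ∈ I, wt n * if ∀ r ∈ S, ¬ bad r n then (1 : ℝ) else 0 := by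
        rw [sum_filter]
        exact sum_congr rfl fun n _ => by split_ifs <;> simp
    _ ≤ ∑ n ∈ I, wt n * ∑ x ∈ Fintype.piFinset t,
          (-1) ^ (U x).card * if ∀ r ∈ U x, bad r n then 1 else 0 :=
        sum_le_sum fun n hn => mul_le_mul_of_nonneg_left (hpt n) (hwt n hn)
    _ = ∑ x ∈ Fintype.piFinset t,
          (-1) ^ (U x).card * ∑ n ∈ I.filter (fun n => ∀ r ∈ U x, bad r n), wt n := by
        simp only [mul_sum, sum_filter]
        rw [sum_comm]
        exact sum_congr rfl fun x _ => sum_congr rfl fun n _ => by split_ifs <;> ring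
    _ ≤ ∑ x ∈ Fintype.piFinset t, (X * ∏ r ∈ U x, (-g r) + Rm) := by
        refine sum_le_sum fun x hx' => ?_
        have h1 := hR (U x) (hUS x hx') (hUpr x hx')
        have h2 : |(-1 : ℝ) ^ (U x).card| = 1 := by simp
        have h3 := le_abs_self ((-1 : ℝ) ^ (U x).card *
          (∑ n ∈ I.filter (fun n => ∀ r ∈ U x, bad r n), wt n - X * ∏ r ∈ U x, g r))
        rw [abs_mul, h2, one_mul] at h3
        rw [prod_neg]
        linarith
    _ ≤ _ := by
        rw [sum_add_distrib, ← mul_sum, sum_const, nsmul_eq_mul]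
        have h1 := mul_le_mul_of_nonneg_left hmain hX
        have h2 := mul_le_mul_of_nonneg_right hcard hRm
        linarith

end Vale.Agent.P013
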