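import Vale.Agent.P013.Defs

/-! Small facts used everywhere. -/

namespace Vale.Agent.P013

open Finset Real Filter

theorem mem_PR {u v : ℝ} (hu : 0 ≤ u) (hv : 0 ≤ v) {p : ℕ} :
    p ∈ PR u v ↔ p.Prime ∧ u < p ∧ (p : ℝ) ≤ v := by
  unfold PR
  rw [mem_filter, mem_Ioc, Nat.floor_lt hu, Nat.le_floor_iff hv]
  tauto

theorem prime_of_mem_PR {u v : ℝ} {p : ℕ} (h : p ∈ PR u v) : p.Prime := (mem_filter.1 h).2

theorem pr_pos {d : Finset ℕ} (h : ∀ p ∈ d, p.Prime) : 0 < pr d :=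
  prod_pos fun p hp => (h p hp).pos

theorem pr_empty : pr ∅ = 1 := by simp [pr]

theorem pr_cast (d : Finset ℕ) : (pr d : ℝ) = ∏ p ∈ d, (p : ℝ) := by simp [pr]

theorem primeFactors_pr {d : Finset ℕ} (h : ∀ p ∈ d, p.Prime) : (pr d).primeFactors = d :=
  Nat.primeFactors_prod h

theorem pr_inj {d e : Finset ℕ} (hd : ∀ p ∈ d, p.Prime) (he : ∀ p ∈ e, p.Prime)
    (h : pr d = pr e) : d = e := by
  rw [← primeFactors_pr hd, h, primeFactors_pr he]

theorem pr_insert {d : Finset ℕ} {p : ℕ} (h : p ∉ d) : pr (insert p d) = p * pr d :=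
  prod_insert h

theorem pr_union {d e : Finset ℕ} (h : Disjoint d e) : pr (d ∪ e) = pr d * pr e :=
  prod_union h

theorem pr_dvd_iff {d : Finset ℕ} (h : ∀ p ∈ d, p.Prime) {N : ℕ} :
    pr d ∣ N ↔ ∀ p ∈ d, p ∣ N := by
  refine ⟨fun hN p hp => (dvd_prod_of_mem _ hp).trans hN, fun hN => ?_⟩
  exact Finset.prod_primes_dvd N (fun p hp => (h p hp).prime) hN

theorem pr_union_le {d e : Finset ℕ} (hd : ∀ p ∈ d, p.Prime) :
    pr (d ∪ e) ≤ pr d * pr e := by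
  classical
  have h1 : pr (d ∪ e) = pr (d \ e) * pr e := by
    rw [← pr_union sdiff_disjoint, sdiff_union_self_eq_union]
  rw [h1]
  exact Nat.mul_le_mul_right _ (Nat.le_of_dvd (pr_pos hd) (prod_dvd_prod_of_subset _ _ _ sdiff_subset))

/-- a family of sets of primes with products at most `R` has at most `R` members -/
theorem card_le_of_pr_le {𝒟 : Finset (Finset ℕ)} {R : ℝ} (hR : 0 ≤ R)
    (h : ∀ d ∈ 𝒟, (∀ p ∈ d, p.Prime) ∧ (pr d : ℝ) ≤ R) : (𝒟.card : ℝ) ≤ R := by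
  have h1 : 𝒟.card ≤ (Icc 1 ⌊R⌋₊).card := by
    refine card_le_card_of_injOn pr (fun d hd => ?_) fun d hd e he hde =>
      pr_inj (h d hd).1 (h e he).1 hde
    exact mem_coe.2 (mem_Icc.2 ⟨pr_pos (h d hd).1, Nat.le_floor (h d hd).2⟩)
  rw [Nat.card_Icc, Nat.add_sub_cancel] at h1
  exact (Nat.cast_le.2 h1).trans (Nat.floor_le hR)

theorem mn_mem {d : Finset ℕ} (h : d.Nonempty) : mn d ∈ d :=
  mem_coe.1 (Nat.sInf_mem (coe_nonempty.2 h))

theorem mn_le {d : Finset ℕ} {p : ℕ} (h : p ∈ d) : mn d ≤ p := Nat.sInf_le (mem_coe.2 h)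

theorem cnt_eq (x y q : ℕ) : cnt x y q = (x + y) / q - x / q := by
  unfold cnt
  have h1 : ((Icc 1 y).filter fun ν => q ∣ x + ν).card
      = ((Ioc x (x + y)).filter fun n => q ∣ n).card := by
    refine card_bij (fun ν _ => x + ν) (fun ν hν => ?_) (fun a _ b _ h => by omega)
      fun n hn => ⟨n - x, ?_, ?_⟩
    · simp only [mem_filter, mem_Icc, mem_Ioc] at hν ⊢
      exact ⟨⟨by omega, by omega⟩, hν.2⟩
    · simp only [mem_filter, mem_Icc, mem_Ioc] at hn ⊢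
      refine ⟨⟨by omega, by omega⟩, ?_⟩
      rw [Nat.add_sub_cancel' hn.1.1.le]; exact hn.2
    · simp only [mem_filter, mem_Ioc] at hn
      omega
  have h2 : ((Ioc 0 (x + y)).filter fun n => q ∣ n).card =
      ((Ioc 0 x).filter fun n => q ∣ n).card + ((Ioc x (x + y)).filter fun n => q ∣ n).card := by
    rw [← card_union_of_disjoint, ← filter_union, Ioc_union_Ioc_eq_Ioc (by omega) (by omega)]
    exact disjoint_filter_filter (by
      rw [Finset.disjoint_left]; intro a ha hb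
      rw [mem_Ioc] at ha hb; omega)
  rw [Nat.Ioc_filter_dvd_card_eq_div, Nat.Ioc_filter_dvd_card_eq_div] at h2
  rw [h1]; omega

theorem abs_Fe_le (x y : ℕ) {q : ℕ} (hq : 1 ≤ q) : |Fe x y q| ≤ 1 := by
  unfold Fe
  rw [cnt_eq, Nat.cast_sub (Nat.div_le_div_right (Nat.le_add_right _ _))]
  have hq' : (0 : ℝ) < q := by exact_mod_cast hq
  have key : ∀ n : ℕ, ((n / q : ℕ) : ℝ) ≤ (n : ℝ) / q ∧ (n : ℝ) / q < ((n / q : ℕ) : ℝ) + 1 := by
    intro n
    refine ⟨Nat.cast_div_le, ?_⟩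
    rw [div_lt_iff₀ hq']
    have := Nat.lt_div_mul_add (a := n) hq
    have h2 : (n : ℝ) < ((n / q * q + q : ℕ) : ℝ) := by exact_mod_cast this
    push_cast at h2; linarith
  obtain ⟨h1, h2⟩ := key (x + y)
  obtain ⟨h3, h4⟩ := key x
  have h5 : ((x + y : ℕ) : ℝ) / q = (x : ℝ) / q + (y : ℝ) / q := by push_cast; ring
  rw [abs_le]; constructor <;> linarith

theorem Sv_anti (x y a : ℕ) {z z' : ℕ} (h : z ≤ z') : Sv x y a z' ≤ Sv x y a z := by
  unfold Sv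
  refine card_le_card fun ν hν => ?_
  simp only [mem_filter, Nat.mem_primesBelow] at hν ⊢
  exact ⟨hν.1, hν.2.1, fun p hp => hν.2.2 p ⟨hp.1.trans_le h, hp.2⟩⟩

theorem ro_pos (L c : ℕ) : 0 < ro L c := exp_pos _

theorem one_le_ro (L c : ℕ) : 1 ≤ ro L c := one_le_exp (by positivity)

theorem le_ro_bx {L p : ℕ} (hL : 1 ≤ L) (hp : 1 ≤ p) : (p : ℝ) ≤ ro L (bx L p) := by
  have hL' : (0 : ℝ) < L := by exact_mod_cast hL
  have hp' : (0 : ℝ) < p := by exact_mod_cast hp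
  unfold ro bx
  rw [← log_le_iff_le_exp hp', le_div_iff₀ hL', mul_comm]
  exact Nat.le_ceil _

theorem ro_bx_le {L p : ℕ} (hL : 1 ≤ L) (hp : 1 ≤ p) :
    ro L (bx L p) ≤ p * exp (1 / (L : ℝ)) := by
  have hL' : (0 : ℝ) < L := by exact_mod_cast hL
  have hp' : (0 : ℝ) < p := by exact_mod_cast hp
  have h0 : 0 ≤ (L : ℝ) * log p := mul_nonneg hL'.le (log_nonneg (by exact_mod_cast hp))
  unfold ro bx
  nth_rewrite 2 [← exp_log hp']
  rw [← exp_add, exp_le_exp, div_le_iff₀ hL', add_mul, one_div_mul_cancel hL'.ne', mul_comm (log _)]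
  exact (Nat.ceil_lt_add_one h0).le

theorem one_le_sg (L : ℕ) (d : Finset ℕ) : 1 ≤ sg L d := by
  unfold sg
  calc (1 : ℝ) = ∏ _p ∈ d, (1 : ℝ) := by simp
    _ ≤ _ := prod_le_prod (fun _ _ => zero_le_one) fun p _ => one_le_ro _ _

theorem pr_le_sg {L : ℕ} (hL : 1 ≤ L) {d : Finset ℕ} (h : ∀ p ∈ d, p.Prime) :
    (pr d : ℝ) ≤ sg L d := by
  rw [pr_cast]
  exact prod_le_prod (fun p _ => Nat.cast_nonneg _) fun p hp => le_ro_bx hL (h p hp).one_le

/-- few large primes divide a nonzero integer -/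
theorem card_mul_log_le {S : Finset ℕ} {M : ℤ} (hM : M ≠ 0) {w : ℝ} (hw : 0 < w)
    (h : ∀ p ∈ S, p.Prime ∧ w ≤ p ∧ (p : ℤ) ∣ M) : (S.card : ℝ) * log w ≤ log |(M : ℝ)| := by
  have h1 : pr S ∣ M.natAbs :=
    (pr_dvd_iff fun p hp => (h p hp).1).2 fun p hp => Int.natCast_dvd.1 (h p hp).2.2
  have h2 : (pr S : ℝ) ≤ |(M : ℝ)| := by
    have := Nat.le_of_dvd (Int.natAbs_pos.2 hM) h1
    rw [← Int.cast_abs, ← Int.natCast_natAbs]
    exact_mod_cast this
  have h3 : w ^ S.card ≤ (pr S : ℝ) := by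
    rw [pr_cast, ← prod_const]
    exact prod_le_prod (fun _ _ => hw.le) fun p hp => (h p hp).2.1
  rw [← log_pow]
  exact log_le_log (by positivity) (h3.trans h2)

theorem ev_le_log (c : ℝ) : ∀ᶠ y : ℕ in atTop, c ≤ log y :=
  (tendsto_log_atTop.comp tendsto_natCast_atTop_atTop).eventually_ge_atTop c

theorem ev_le_loglog (c : ℝ) : ∀ᶠ y : ℕ in atTop, c ≤ log (log y) :=
  (tendsto_log_atTop.comp (tendsto_log_atTop.comp tendsto_natCast_atTop_atTop)).eventually_ge_atTop c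

/-- a power of the logarithm is eventually below any positive power -/
theorem ev_log_pow_le_real (c : ℝ) (k : ℕ) {ε : ℝ} (hε : 0 < ε) :
    ∀ᶠ t : ℝ in atTop, c * log t ^ k ≤ t ^ ε := by
  have h := (isLittleO_log_rpow_rpow_atTop (k : ℝ) hε).bound
    (c := 1 / (|c| + 1)) (by positivity)
  filter_upwards [h, eventually_ge_atTop (1 : ℝ)] with t ht h1
  have h2 : 0 ≤ log t ^ k := pow_nonneg (log_nonneg h1) k
  have h3 : 0 ≤ t ^ ε := by positivity
  rw [rpow_natCast, norm_of_nonneg h2, norm_of_nonneg h3, one_div_mul_eq_div,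
    le_div_iff₀ (by positivity)] at ht
  nlinarith [le_abs_self c]

theorem ev_log_pow_le (c : ℝ) (k : ℕ) {ε : ℝ} (hε : 0 < ε) :
    ∀ᶠ y : ℕ in atTop, c * log y ^ k ≤ (y : ℝ) ^ ε :=
  tendsto_natCast_atTop_atTop.eventually (ev_log_pow_le_real c k hε)

/-- the same one level down: `c (log log y)^k ≤ (log y)^ε` -/
theorem ev_loglog_pow_le (c : ℝ) (k : ℕ) {ε : ℝ} (hε : 0 < ε) :
    ∀ᶠ y : ℕ in atTop, c * log (log y) ^ k ≤ (log y) ^ ε :=
  (tendsto_log_atTop.comp tendsto_natCast_atTop_atTop).eventually (ev_log_pow_le_real c k hε)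

end Vale.Agent.P013
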