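import Vale.Agent.P013.MertAux
import Vale.Agent.Lib.NT.Mertens

/-!
Consequences of the Mertens theorems (`Vale.Agent.Lib.NT.mertens1`, `mertens2_const`, `mertens3`).
Note `PR u v = primes of Icc 1 ⌊v⌋₊ minus primes of Icc 1 ⌊u⌋₊` for `0 ≤ u ≤ v`.

`mert_sum`: difference of `mertens2_const` at `v` and `u`.
`mert_k`: let `A t = ∑ p ∈ PR w (exp t), log p / p`, so `|A t - (t - l)| ≤ 2 C₁` for `t ≥ l = log w`.
For `φ u = 1 / u ^ (k + 1)`, `φ (log p) = φ v + ∫ t in log p..v, (k + 1) / t ^ (k + 2)`, hence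
`∑ (log p / p) φ (log p) = φ v * A v + ∫ t in l..v, A t * (k + 1) / t ^ (k + 2) ≤ ∫ t in l..v, φ t + 2 C₁ φ l`.
(Alternatively use `sum_mul_eq_sub_sub_integral_mul` in the variable `exp t`, or start from `mert_sum` with
`φ u = 1 / u ^ k`.) The third item is `mert_sum`, the fourth the lower bound for `A v`.
`mert_ratio`: `(1 - 1 / p)⁻¹ ≤ exp (1 / p + 2 / p ^ 2)` and `∑ over p > w of 2 / p ^ 2 ≤ 4 / w`.
`mert_ratio_const`: the same, or `mertens3`.
`mert_sq`: for `a ≥ 2` use `mert_sum`; for `a < 2` only `p ≤ 3` occur.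
-/

namespace Vale.Agent.P013

open Finset Real

theorem mert_PR_sum {u v : ℝ} (huv : u ≤ v) (f : ℕ → ℝ) : ∑ p ∈ PR u v, f p =
    ∑ p ∈ (Icc 1 ⌊v⌋₊).filter Nat.Prime, f p - ∑ p ∈ (Icc 1 ⌊u⌋₊).filter Nat.Prime, f p := by
  have h := Nat.floor_mono huv
  rw [eq_sub_iff_add_eq, ← sum_union]
  · refine sum_congr ?_ fun _ _ => rfl
    ext p
    simp only [PR, mem_union, mem_filter, mem_Ioc, mem_Icc]
    constructor
    · rintro (⟨h1, h2⟩ | ⟨h1, h2⟩) <;> exact ⟨⟨by omega, by omega⟩, h2⟩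
    · rintro ⟨h1, h2⟩
      by_cases h3 : p ≤ ⌊u⌋₊
      · exact Or.inr ⟨⟨h1.1, h3⟩, h2⟩
      · exact Or.inl ⟨⟨by omega, h1.2⟩, h2⟩
  · rw [Finset.disjoint_left]
    intro p h1 h2
    simp only [PR, mem_filter, mem_Ioc, mem_Icc] at h1 h2
    omega

theorem mert_sum : ∃ C : ℝ, 0 < C ∧ ∀ u v : ℝ, 2 ≤ u → u ≤ v →
    |∑ p ∈ PR u v, 1 / (p : ℝ) - log (log v / log u)| ≤ C / log u := by
  obtain ⟨M, C, hC, h⟩ := Vale.Agent.Lib.NT.mertens2_const
  refine ⟨2 * C + 1, by positivity, fun u v hu huv => ?_⟩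
  have hlu : 0 < log u := log_pos (by linarith)
  have hlv : log u ≤ log v := log_le_log (by linarith) huv
  have h1 := abs_le.1 (h u hu)
  have h2 := abs_le.1 (h v (hu.trans huv))
  have h3 : C / log v ≤ C / log u := div_le_div_of_nonneg_left hC hlu hlv
  have h4 : (2 * C + 1) / log u = 2 * (C / log u) + 1 / log u := by ring
  have h5 : 0 < 1 / log u := by positivity
  rw [mert_PR_sum huv, log_div (hlu.trans_le hlv).ne' hlu.ne', abs_le]
  constructor <;> linarith [h1.1, h1.2, h2.1, h2.2]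

theorem mert_k : ∃ C : ℝ, 0 < C ∧ ∀ w v : ℝ, 2 ≤ w → log w ≤ v →
    ∑ p ∈ PR w (exp v), 1 / ((p : ℝ) * log p) ≤ 1 / log w - 1 / v + C / log w ^ 2 ∧
    ∑ p ∈ PR w (exp v), 1 / ((p : ℝ) * log p ^ 2) ≤
      (1 / log w ^ 2 - 1 / v ^ 2) / 2 + C / log w ^ 3 ∧
    ∑ p ∈ PR w (exp v), 1 / (p : ℝ) ≤ log (v / log w) + C / log w ∧
    v - log w - C ≤ ∑ p ∈ PR w (exp v), log p / (p : ℝ) := by
  obtain ⟨C₁, hC₁, h1⟩ := Vale.Agent.Lib.NT.mertens1
  obtain ⟨C₂, hC₂, h2⟩ := mert_sum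
  refine ⟨2 * C₁ + C₂, by positivity, fun w v hw hv => ?_⟩
  have hw0 : 0 < w := by linarith
  have hl : 0 < log w := log_pos (by linarith)
  have hA : ∀ t, log w ≤ t → |∑ p ∈ PR w (exp t), log p / (p : ℝ) - (t - log w)| ≤ 2 * C₁ := by
    intro t ht
    have hwt : w ≤ exp t := (log_le_iff_le_exp hw0).1 ht
    have a1 := abs_le.1 (h1 w (by linarith))
    have a2 := abs_le.1 (h1 (exp t) (by linarith))
    rw [log_exp] at a2
    rw [mert_PR_sum hwt, abs_le]
    constructor <;> linarith [a1.1, a1.2, a2.1, a2.2]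
  have hp : ∀ p ∈ PR w (exp v), log w ≤ log p ∧ log p ≤ v := by
    intro p hp
    obtain ⟨-, a1, a2⟩ := (mem_PR hw0.le (exp_pos v).le).1 hp
    exact ⟨log_le_log hw0 a1.le, (log_le_iff_le_exp (hw0.trans a1)).2 a2⟩
  have hc : ∀ p ∈ PR w (exp v), 0 ≤ log p / (p : ℝ) := fun p hp' =>
    div_nonneg (hl.le.trans (hp p hp').1) (Nat.cast_nonneg p)
  have hB : ∀ t ∈ Set.Icc (log w) v, ∑ p ∈ (PR w (exp v)).filter (fun p : ℕ => log p ≤ t),
      log p / (p : ℝ) ≤ t - log w + 2 * C₁ := by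
    intro t ht
    have e : (PR w (exp v)).filter (fun p : ℕ => log p ≤ t) = PR w (exp t) := by
      ext p
      rw [mem_filter, mem_PR hw0.le (exp_pos v).le, mem_PR hw0.le (exp_pos t).le]
      constructor
      · rintro ⟨⟨a1, a2, -⟩, a4⟩
        exact ⟨a1, a2, (log_le_iff_le_exp (hw0.trans a2)).1 a4⟩
      · rintro ⟨a1, a2, a3⟩
        exact ⟨⟨a1, a2, a3.trans (exp_le_exp.2 ht.2)⟩, (log_le_iff_le_exp (hw0.trans a2)).2 a3⟩
    rw [e]
    linarith [(abs_le.1 (hA t ht.1)).2]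
  have hv0 : 0 < v := hl.trans_le hv
  have hne : ∀ t ∈ Set.Icc (log w) v, t ≠ 0 := fun t ht => (hl.trans_le ht.1).ne'
  have hinv : ContinuousOn (fun t : ℝ => t⁻¹) (Set.Icc (log w) v) := continuousOn_id.inv₀ hne
  refine ⟨?_, ?_, ?_, ?_⟩
  · have key := mertAux_abel (PR w (exp v)) (fun p => log p / (p : ℝ)) (fun p => log p) hv hc hp
      (φ := fun t => t⁻¹ ^ 2) (ψ := fun t => 2 * t⁻¹ ^ 3) (B := fun t => t - log w + 2 * C₁)
      (G := fun t => -2 * t⁻¹ + (log w - 2 * C₁) * t⁻¹ ^ 2)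
      (fun t ht => by
        have := hne t ht
        refine ((hasDerivAt_inv this).fun_pow 2).congr_deriv ?_
        rw [← inv_pow]
        push_cast
        ring)
      (continuousOn_const.mul (hinv.pow 3))
      (fun t ht => by have := hl.trans_le ht.1; positivity) (by positivity) hB (by fun_prop)
      (fun t ht => by
        have := hne t ht
        refine (((hasDerivAt_inv this).const_mul (-2)).fun_add
          (((hasDerivAt_inv this).fun_pow 2).const_mul (log w - 2 * C₁))).congr_deriv ?_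
        simp only [Nat.add_one_sub_one, Nat.cast_ofNat]
        field_simp
        ring)
    calc _ = ∑ p ∈ PR w (exp v), log p / (p : ℝ) * (log p)⁻¹ ^ 2 := by
          refine sum_congr rfl fun p hp' => ?_
          have := (hl.trans_le (hp p hp').1).ne'
          field_simp
      _ ≤ _ := key
      _ = 1 / log w - 1 / v + (2 * C₁) / log w ^ 2 := by
          field_simp
          ring
      _ ≤ _ := by
          gcongr
          linarith
  · have key := mertAux_abel (PR w (exp v)) (fun p => log p / (p : ℝ)) (fun p => log p) hv hc hp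
      (φ := fun t => t⁻¹ ^ 3) (ψ := fun t => 3 * t⁻¹ ^ 4) (B := fun t => t - log w + 2 * C₁)
      (G := fun t => -3 / 2 * t⁻¹ ^ 2 + (log w - 2 * C₁) * t⁻¹ ^ 3)
      (fun t ht => by
        have := hne t ht
        refine ((hasDerivAt_inv this).fun_pow 3).congr_deriv ?_
        rw [← inv_pow]
        push_cast
        ring)
      (continuousOn_const.mul (hinv.pow 4))
      (fun t ht => by have := hl.trans_le ht.1; positivity) (by positivity) hB (by fun_prop)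
      (fun t ht => by
        have := hne t ht
        refine ((((hasDerivAt_inv this).fun_pow 2).const_mul (-3 / 2)).fun_add
          (((hasDerivAt_inv this).fun_pow 3).const_mul (log w - 2 * C₁))).congr_deriv ?_
        simp only [Nat.add_one_sub_one, Nat.cast_ofNat]
        field_simp
        ring)
    calc _ = ∑ p ∈ PR w (exp v), log p / (p : ℝ) * (log p)⁻¹ ^ 3 := by
          refine sum_congr rfl fun p hp' => ?_
          have := (hl.trans_le (hp p hp').1).ne'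
          field_simp
      _ ≤ _ := key
      _ = (1 / log w ^ 2 - 1 / v ^ 2) / 2 + (2 * C₁) / log w ^ 3 := by
          field_simp
          ring
      _ ≤ _ := by
          gcongr
          linarith
  · have a1 := (abs_le.1 (h2 w (exp v) hw ((log_le_iff_le_exp hw0).1 hv))).2
    rw [log_exp] at a1
    have a2 : C₂ / log w ≤ (2 * C₁ + C₂) / log w := by
      gcongr
      linarith
    linarith
  · linarith [(abs_le.1 (hA v hv)).1]

theorem mert_prod : ∃ C : ℝ, 0 < C ∧ ∀ w t : ℝ, 2 ≤ w → w ≤ t →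
    ∏ p ∈ PR w t, (1 - 1 / (p : ℝ))⁻¹ ≤ exp (C / log w) * (log t / log w) := by
  obtain ⟨C, hC, h⟩ := mert_sum
  refine ⟨C + 4, by positivity, fun w t hw hwt => ?_⟩
  have hw0 : 0 < w := by linarith
  have hl : 0 < log w := log_pos (by linarith)
  have hlt : log w ≤ log t := log_le_log hw0 hwt
  have h1 : ∏ p ∈ PR w t, (1 - 1 / (p : ℝ))⁻¹ ≤
      exp (∑ p ∈ PR w t, (1 / (p : ℝ) + 2 * (1 / (p : ℝ)) ^ 2)) := by
    rw [exp_sum]
    have hp : ∀ p ∈ PR w t, 1 / (p : ℝ) ≤ 1 / 2 := fun p hp =>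
      one_div_le_one_div_of_le (by norm_num) (by exact_mod_cast (prime_of_mem_PR hp).two_le)
    refine prod_le_prod (fun p hp' => inv_nonneg.2 (by linarith [hp p hp'])) fun p hp' => ?_
    have a1 := Vale.Agent.Lib.NT.exp_neg_le_one_sub (u := 1 / (p : ℝ)) (by positivity) (hp p hp')
    rw [exp_neg] at a1
    exact inv_le_of_inv_le₀ (exp_pos _) a1
  have hf : 2 ≤ ⌊w⌋₊ := Nat.le_floor (by exact_mod_cast hw)
  have h2 : ∑ p ∈ PR w t, 2 * (1 / (p : ℝ)) ^ 2 ≤ 4 / log w := by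
    have a1 := sum_Ioc_inv_sq_le_sub (α := ℝ) (k := ⌊w⌋₊) (n := ⌊t⌋₊) (by omega)
      (Nat.floor_mono hwt)
    have a2 : ∑ p ∈ PR w t, (1 / (p : ℝ)) ^ 2 ≤ ∑ i ∈ Ioc ⌊w⌋₊ ⌊t⌋₊, ((i : ℝ) ^ 2)⁻¹ := by
      simp only [one_div, inv_pow]
      exact sum_le_sum_of_subset_of_nonneg (filter_subset _ _) fun _ _ _ => by positivity
    have a3 : (⌊w⌋₊ : ℝ)⁻¹ ≤ 2 / log w := by
      have b1 : log w ≤ w - 1 := log_le_sub_one_of_pos hw0
      have b2 := Nat.lt_floor_add_one w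
      have b3 : (0 : ℝ) < ⌊w⌋₊ := by exact_mod_cast (by omega : 0 < ⌊w⌋₊)
      rw [inv_eq_one_div, div_le_div_iff₀ b3 hl]
      linarith
    have a4 : (0 : ℝ) ≤ (⌊t⌋₊ : ℝ)⁻¹ := by positivity
    rw [← mul_sum, show 4 / log w = 2 * (2 / log w) by ring]
    linarith
  have h3 := (abs_le.1 (h w t hw hwt)).2
  refine h1.trans ?_
  rw [← exp_log (div_pos (hl.trans_le hlt) hl), ← exp_add, exp_le_exp, sum_add_distrib, add_div]
  linarith

theorem mert_ratio {ε : ℝ} (hε : 0 < ε) : ∃ w₀ : ℝ, ∀ w t : ℝ, w₀ ≤ w → w ≤ t →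
    ∏ p ∈ PR w t, (1 - 1 / (p : ℝ))⁻¹ ≤ (1 + ε) * log t / log w := by
  obtain ⟨C, hC, h⟩ := mert_prod
  have hL : 0 < log (1 + ε) := log_pos (by linarith)
  refine ⟨max 2 (exp (C / log (1 + ε))), fun w t hw hwt => ?_⟩
  have hw2 : 2 ≤ w := (le_max_left _ _).trans hw
  have hl : 0 < log w := log_pos (by linarith)
  have hlt : log w ≤ log t := log_le_log (by linarith) hwt
  have h1 : C / log (1 + ε) ≤ log w :=
    (le_log_iff_exp_le (by linarith)).2 ((le_max_right _ _).trans hw)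
  have h2 : exp (C / log w) ≤ 1 + ε := by
    rw [← le_log_iff_exp_le (by linarith), div_le_iff₀ hl]
    rw [div_le_iff₀ hL] at h1
    linarith
  refine (h w t hw2 hwt).trans ?_
  rw [mul_div_assoc]
  exact mul_le_mul_of_nonneg_right h2 (div_nonneg (hl.le.trans hlt) hl.le)

theorem mert_ratio_const : ∃ C : ℝ, 0 < C ∧ ∀ t : ℝ, 2 ≤ t →
    ∏ p ∈ PR 1 t, (1 - 1 / (p : ℝ))⁻¹ ≤ C * log t ∧
    ∀ w : ℝ, 2 ≤ w → w ≤ t → ∏ p ∈ PR w t, (1 - 1 / (p : ℝ))⁻¹ ≤ C * log t / log w := by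
  obtain ⟨C, hC, h⟩ := mert_prod
  obtain ⟨c, C', hc, -, h3⟩ := Vale.Agent.Lib.NT.mertens3
  have h2 : 0 < log 2 := log_pos (by norm_num)
  refine ⟨c⁻¹ + exp (C / log 2), by positivity, fun t ht => ⟨?_, fun w hw hwt => ?_⟩⟩
  · have hl : 0 < log t := log_pos (by linarith)
    have e : PR 1 t = (Icc 1 ⌊t⌋₊).filter Nat.Prime := by
      ext p
      simp only [PR, Nat.floor_one, mem_filter, mem_Ioc, mem_Icc]
      exact and_congr_left fun hp => ⟨fun h => ⟨h.1.le, h.2⟩, fun h => ⟨hp.one_lt, h.2⟩⟩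
    rw [e, prod_inv_distrib]
    refine (inv_anti₀ (div_pos hc hl) (h3 t ht).1).trans ?_
    rw [inv_div, div_eq_inv_mul]
    exact mul_le_mul_of_nonneg_right (by linarith [exp_pos (C / log 2)]) hl.le
  · have hl : log 2 ≤ log w := log_le_log (by norm_num) hw
    have hlt : log w ≤ log t := log_le_log (by linarith) hwt
    refine (h w t hw hwt).trans ?_
    rw [mul_div_assoc]
    refine mul_le_mul_of_nonneg_right ?_ (div_nonneg (by linarith) (by linarith))
    have : exp (C / log w) ≤ exp (C / log 2) :=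
      exp_le_exp.2 (div_le_div_of_nonneg_left hC.le h2 hl)
    linarith [inv_pos.2 hc]

theorem mert_sq : ∃ M : ℝ, 0 < M ∧ ∀ a : ℝ, 1 ≤ a → ∑ p ∈ PR a (a ^ 2), 1 / (p : ℝ) ≤ M := by
  obtain ⟨C, hC, h⟩ := mert_sum
  have h2 : 0 < log 2 := log_pos (by norm_num)
  refine ⟨4 + log 2 + C / log 2, by positivity, fun a ha => ?_⟩
  by_cases ha2 : 2 ≤ a
  · have hl : log 2 ≤ log a := log_le_log (by norm_num) ha2
    have h1 := (abs_le.1 (h a (a ^ 2) ha2 (by nlinarith))).2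
    rw [log_pow, mul_div_assoc, div_self (h2.trans_le hl).ne', mul_one, Nat.cast_ofNat] at h1
    linarith [div_le_div_of_nonneg_left hC.le h2 hl]
  · have h1 : PR a (a ^ 2) ⊆ Icc 1 4 := by
      intro p hp
      obtain ⟨a1, -, a3⟩ := (mem_PR (by linarith) (by positivity)).1 hp
      refine mem_Icc.2 ⟨a1.one_le, ?_⟩
      have : (p : ℝ) ≤ 4 := by nlinarith [not_le.1 ha2]
      exact_mod_cast this
    have h3 : ∑ p ∈ PR a (a ^ 2), 1 / (p : ℝ) ≤ ∑ p ∈ Icc (1 : ℕ) 4, 1 / (p : ℝ) :=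
      sum_le_sum_of_subset_of_nonneg h1 fun _ _ _ => by positivity
    have h4 : ∑ p ∈ Icc (1 : ℕ) 4, 1 / (p : ℝ) ≤ 4 := by
      simp only [sum_Icc_succ_top (by norm_num : 1 ≤ 3 + 1), sum_Icc_succ_top (by norm_num : 1 ≤ 2 + 1),
        sum_Icc_succ_top (by norm_num : 1 ≤ 1 + 1), Icc_self, sum_singleton]
      norm_num
    have : 0 < C / log 2 := by positivity
    linarith

end Vale.Agent.P013
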