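import Vale.Agent.P013.Hall
import Vale.Agent.P013.Mert

/-!
Corollaries of `hall`.
`hall_w`: `S = primesBelow W`; the pairs `(da, db)` are `(0, 1)` or `(1, 1 - 1 / (r - 1))`, and
`(1 + 2 / r) (r - 2) / (r - 1) ≥ 1` for `r ≥ 4`. `PR 1 t \ S ⊆ PR (W - 1) t`, all factors are `≥ 1`; use
`mert_ratio`, `log W ≤ (1 + e) log (W - 1)` and `t / log t ^ 2 ≤ e t / log W` for large `W`.
`rough_count`, `lack_count`: `a = 0`, `b = 1` makes `hl` the indicator of the integers with no prime factor in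
`S`. For `S = PR 1 w` one has `PR 1 t \ S = PR w t`; for `S = PR (exp v) (exp v')`,
`PR 1 t \ S = PR 1 (exp v) ∪ PR (exp v') t`; use `mert_ratio_const`. For `t < t₀` the count is at most `t` and
`log w ≤ log t₀`, `v' ≤ log t₀`.
`rough_window`: every term is at most `e / t`; if `w ≤ t` use `rough_count`; if `t < w` the set is empty
(`n > t / e ≥ 1` has a prime factor `≤ n ≤ t < w`).
-/

namespace Vale.Agent.P013

open Finset Real

open Classical

theorem hallCor_da (g : ℤ) {p : ℕ} (hp : p.Prime) : 0 ≤ da g p ∧ da g p ≤ 1 ∧ 0 ≤ db g p ∧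
    db g p + da g p / ((p : ℝ) - 1) ≤ 1 ∧ (5 ≤ p → da g p ≤ (1 + 2 / (p : ℝ)) * db g p) := by
  have h2 : (2 : ℝ) ≤ p := by exact_mod_cast hp.two_le
  unfold da db
  split_ifs
  · refine ⟨le_rfl, zero_le_one, zero_le_one, by simp, fun _ => by positivity⟩
  · refine ⟨zero_le_one, le_rfl, ?_, by linarith, fun h5 => ?_⟩
    · rw [sub_nonneg, div_le_one (by linarith)]
      linarith
    · have h6 : (5 : ℝ) ≤ p := by exact_mod_cast h5
      have h7 : 0 < (p : ℝ) - 1 := by linarith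
      have e : (1 + 2 / (p : ℝ)) * (1 - 1 / ((p : ℝ) - 1)) =
          1 + ((p : ℝ) - 4) / (p * ((p : ℝ) - 1)) := by
        field_simp
        ring
      rw [e]
      have : 0 ≤ ((p : ℝ) - 4) / (p * ((p : ℝ) - 1)) := div_nonneg (by linarith) (by positivity)
      linarith

theorem hallCor_one_le {p : ℕ} (hp : p.Prime) : 1 ≤ (1 - 1 / (p : ℝ))⁻¹ := by
  have h2 : (1 : ℝ) < p := by exact_mod_cast hp.one_lt
  have h3 : 1 / (p : ℝ) < 1 := (div_lt_one (by linarith)).2 h2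
  have h4 : 0 < 1 / (p : ℝ) := by positivity
  exact (one_le_inv₀ (by linarith)).2 (by linarith)

theorem hallCor_prod_mono {A B : Finset ℕ} (h : A ⊆ B) (hB : ∀ p ∈ B, p.Prime) :
    ∏ p ∈ A, (1 - 1 / (p : ℝ))⁻¹ ≤ ∏ p ∈ B, (1 - 1 / (p : ℝ))⁻¹ :=
  prod_le_prod_of_subset_of_one_le h
    (fun p hp => zero_le_one.trans (hallCor_one_le (hB p (h hp))))
    fun p hp _ => hallCor_one_le (hB p hp)

theorem hallCor_card_le {t : ℝ} (ht : 0 ≤ t) (P : ℕ → Prop) {_ : DecidablePred P} :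
    (((Icc 1 ⌊t⌋₊).filter P).card : ℝ) ≤ t := by
  have h1 := card_filter_le (Icc 1 ⌊t⌋₊) P
  rw [Nat.card_Icc, Nat.add_sub_cancel] at h1
  exact (Nat.cast_le.2 h1).trans (Nat.floor_le ht)

theorem hallCor_count : ∃ t₀ : ℝ, 3 ≤ t₀ ∧ ∀ t : ℝ, t₀ ≤ t → ∀ S : Finset ℕ, (∀ p ∈ S, p.Prime) →
    (((Icc 1 ⌊t⌋₊).filter fun n => ∀ p ∈ S, ¬ p ∣ n).card : ℝ) ≤
      2 * (t / log t) * ∏ p ∈ PR 1 t \ S, (1 - 1 / (p : ℝ))⁻¹ + t / log t := by
  obtain ⟨t₀, h⟩ := hall one_pos
  refine ⟨max 3 t₀, le_max_left _ _, fun t ht S hS => ?_⟩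
  have ht3 : 3 ≤ t := (le_max_left _ _).trans ht
  have h1 := h t ((le_max_right _ _).trans ht) S (fun _ => 0) (fun _ => 1) fun p hp =>
    ⟨hS p hp, le_rfl, zero_le_one, zero_le_one, by simp, fun _ => by positivity⟩
  have h2 : 1 ≤ log t := by
    rw [le_log_iff_exp_le (by linarith)]
    linarith [exp_one_lt_d9]
  have h3 : t / log t ^ 2 ≤ t / log t :=
    div_le_div_of_nonneg_left (by linarith) (by linarith) (by nlinarith)
  have h4 : (((Icc 1 ⌊t⌋₊).filter fun n => ∀ p ∈ S, ¬ p ∣ n).card : ℝ) ≤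
      ∑ k ∈ Icc 1 ⌊t⌋₊, hl (fun _ => 0) (fun _ => 1) S k := by
    rw [card_eq_sum_ones, Nat.cast_sum, sum_filter]
    refine sum_le_sum fun k _ => ?_
    split_ifs with hk
    · rw [hl, prod_eq_one fun p hp => if_neg (hk p hp), Nat.cast_one]
    · exact hl_nonneg (fun _ _ => ⟨le_rfl, zero_le_one⟩) k
  rw [one_add_one_eq_two] at h1
  linarith

theorem hl_da_nonneg (g : ℤ) (W k : ℕ) : 0 ≤ hl (da g) (db g) (Nat.primesBelow W) k := by
  exact hl_nonneg (fun p hp =>
    have h := hallCor_da g (Nat.prime_of_mem_primesBelow hp)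
    ⟨h.1, h.2.2.1⟩) k

theorem hall_w {ε : ℝ} (hε : 0 < ε) : ∃ W₀ : ℝ, ∀ W : ℕ, W₀ ≤ W → ∀ (g : ℤ) (t : ℝ), W ≤ t →
    ∑ k ∈ Icc 1 ⌊t⌋₊, hl (da g) (db g) (Nat.primesBelow W) k ≤ (1 + ε) * t / log W := by
  set e := min ε 1 / 10 with he
  have he0 : 0 < e := by positivity
  have he1 : 10 * e ≤ 1 := by linarith [min_le_right ε 1]
  have he2 : 10 * e ≤ ε := by linarith [min_le_left ε 1]
  obtain ⟨t₀, h⟩ := hall he0
  obtain ⟨w₀, h'⟩ := mert_ratio he0
  refine ⟨|t₀| + |w₀| + exp (1 / e) + 2, fun W hW g t ht => ?_⟩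
  have a1 := abs_nonneg t₀
  have a2 := abs_nonneg w₀
  have a3 := exp_pos (1 / e)
  have a4 := le_abs_self t₀
  have a5 := le_abs_self w₀
  have hW1 : 0 < (W : ℝ) - 1 := by linarith
  have b1 : 1 / e ≤ log ((W : ℝ) - 1) := (le_log_iff_exp_le hW1).2 (by linarith)
  have b2 : 0 < log ((W : ℝ) - 1) := lt_of_lt_of_le (by positivity) b1
  have b3 : log ((W : ℝ) - 1) ≤ log W := log_le_log hW1 (by linarith)
  have b4 : log W ≤ log t := log_le_log (by linarith) ht
  have b5 : log W ≤ (1 + e) * log ((W : ℝ) - 1) := by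
    have c1 : log W ≤ log (2 * ((W : ℝ) - 1)) := log_le_log (by linarith) (by linarith)
    rw [log_mul two_ne_zero hW1.ne'] at c1
    rw [div_le_iff₀ he0] at b1
    linarith [log_two_lt_d9]
  have hlW : 0 < log W := b2.trans_le b3
  have hlt : 0 < log t := hlW.trans_le b4
  have ht0 : 0 < t := by linarith
  have h1 := h t (by linarith) (Nat.primesBelow W) (da g) (db g) fun p hp =>
    ⟨Nat.prime_of_mem_primesBelow hp, hallCor_da g (Nat.prime_of_mem_primesBelow hp)⟩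
  have h2 : ∏ p ∈ PR 1 t \ Nat.primesBelow W, (1 - 1 / (p : ℝ))⁻¹ ≤
      (1 + e) * log t / log ((W : ℝ) - 1) := by
    refine (hallCor_prod_mono (fun p hp => ?_) fun p hp => prime_of_mem_PR hp).trans
      (h' ((W : ℝ) - 1) t (by linarith) (by linarith))
    obtain ⟨c1, c2⟩ := mem_sdiff.1 hp
    obtain ⟨c3, -, c4⟩ := (mem_PR zero_le_one ht0.le).1 c1
    refine (mem_PR hW1.le ht0.le).2 ⟨c3, ?_, c4⟩
    have c5 : W ≤ p := not_lt.1 fun c6 => c2 (Nat.mem_primesBelow.2 ⟨c6, c3⟩)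
    have c6 : (W : ℝ) ≤ p := by exact_mod_cast c5
    linarith
  have h3 : (1 + e) * log t / log ((W : ℝ) - 1) ≤ (1 + e) ^ 2 * log t / log W := by
    rw [div_le_div_iff₀ b2 hlW]
    have := mul_le_mul_of_nonneg_left b5 (show 0 ≤ (1 + e) * log t by positivity)
    linarith
  have h4 : t / log t ^ 2 ≤ e * (t / log W) := by
    rw [← mul_div_assoc, div_le_div_iff₀ (by positivity) hlW]
    have c1 : 1 ≤ e * log t := by
      rw [div_le_iff₀ he0] at b1
      nlinarith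
    have c2 : log W ≤ e * log t ^ 2 := by nlinarith
    nlinarith
  have h5 : (1 + e) * (t / log t) * ((1 + e) ^ 2 * log t / log W) = (1 + e) ^ 3 * (t / log W) := by
    field_simp
  have h6 := mul_le_mul_of_nonneg_left (h2.trans h3)
    (show 0 ≤ (1 + e) * (t / log t) by positivity)
  have h7 : (1 + e) ^ 3 + e ≤ 1 + ε := by nlinarith [mul_pos he0 he0]
  have h8 := mul_le_mul_of_nonneg_right h7 (show 0 ≤ t / log W by positivity)
  rw [mul_div_assoc]
  linarith

theorem rough_count : ∃ C : ℝ, 0 < C ∧ ∀ w t : ℝ, 2 ≤ w → w ≤ t →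
    (((Icc 1 ⌊t⌋₊).filter fun n => ∀ p : ℕ, p.Prime → p ∣ n → w < p).card : ℝ) ≤
      C * t / log w := by
  obtain ⟨t₀, ht₀, h⟩ := hallCor_count
  obtain ⟨C, hC, h'⟩ := mert_ratio_const
  have hl0 : 0 < log t₀ := log_pos (by linarith)
  refine ⟨2 * C + 1 + log t₀, by positivity, fun w t hw hwt => ?_⟩
  have hlw : 0 < log w := log_pos (by linarith)
  have hlt : log w ≤ log t := log_le_log (by linarith) hwt
  have ht0 : 0 < t := by linarith
  have hq : 0 < t / log w := by positivity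
  rw [mul_div_assoc]
  by_cases ht : t₀ ≤ t
  · have h1 := h t ht (PR 1 w) fun p hp => prime_of_mem_PR hp
    have h2 : ∏ p ∈ PR 1 t \ PR 1 w, (1 - 1 / (p : ℝ))⁻¹ ≤ C * log t / log w := by
      refine (hallCor_prod_mono (fun p hp => ?_) fun p hp => prime_of_mem_PR hp).trans
        ((h' t (by linarith)).2 w hw hwt)
      obtain ⟨c1, c2⟩ := mem_sdiff.1 hp
      obtain ⟨c3, c5, c4⟩ := (mem_PR zero_le_one ht0.le).1 c1
      exact (mem_PR (by linarith) ht0.le).2 ⟨c3, not_le.1 fun c6 =>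
        c2 ((mem_PR zero_le_one (by linarith)).2 ⟨c3, c5, c6⟩), c4⟩
    have h3 : (((Icc 1 ⌊t⌋₊).filter fun n => ∀ p : ℕ, p.Prime → p ∣ n → w < p).card : ℝ) ≤
        (((Icc 1 ⌊t⌋₊).filter fun n => ∀ p ∈ PR 1 w, ¬ p ∣ n).card : ℝ) := by
      refine Nat.cast_le.2 (card_le_card (monotone_filter_right _ fun n _ hn p hp hpn => ?_))
      obtain ⟨c1, -, c2⟩ := (mem_PR zero_le_one (by linarith)).1 hp
      linarith [hn p c1 hpn]
    have hlt0 : 0 < log t := hlw.trans_le hlt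
    have h4 := mul_le_mul_of_nonneg_left h2 (show 0 ≤ 2 * (t / log t) by positivity)
    have h5 : 2 * (t / log t) * (C * log t / log w) = 2 * C * (t / log w) := by field_simp
    have h6 : t / log t ≤ t / log w := div_le_div_of_nonneg_left ht0.le hlw hlt
    nlinarith [mul_pos hl0 hq]
  · refine (hallCor_card_le ht0.le _).trans ?_
    have h1 : log w ≤ log t₀ := hlt.trans (log_le_log ht0 (not_le.1 ht).le)
    have h2 : t = log w * (t / log w) := by field_simp
    nlinarith [mul_pos hC hq, mul_le_mul_of_nonneg_right h1 hq.le]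

theorem rough_window : ∃ C : ℝ, 0 < C ∧ ∀ w t : ℝ, 2 ≤ w → exp 1 ≤ t →
    ∑ n ∈ (Icc 1 ⌊t⌋₊).filter (fun n : ℕ => t * exp (-1) < n ∧
      ∀ p : ℕ, p.Prime → p ∣ n → w < p), 1 / (n : ℝ) ≤ C / log w := by
  obtain ⟨C, hC, h⟩ := rough_count
  refine ⟨C * exp 1, by positivity, fun w t hw ht => ?_⟩
  have hlw : 0 < log w := log_pos (by linarith)
  have ht0 : 0 < t := (exp_pos 1).trans_le ht
  by_cases hwt : w ≤ t
  · have h1 : ∀ n ∈ (Icc 1 ⌊t⌋₊).filter (fun n : ℕ => t * exp (-1) < n ∧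
        ∀ p : ℕ, p.Prime → p ∣ n → w < p), 1 / (n : ℝ) ≤ exp 1 / t := by
      intro n hn
      have a1 := (mem_filter.1 hn).2.1
      refine (one_div_le_one_div_of_le (by positivity) a1.le).trans (le_of_eq ?_)
      rw [exp_neg]
      field_simp
    refine (sum_le_card_nsmul _ _ _ h1).trans ?_
    rw [nsmul_eq_mul]
    have h2 : (((Icc 1 ⌊t⌋₊).filter (fun n : ℕ => t * exp (-1) < n ∧
        ∀ p : ℕ, p.Prime → p ∣ n → w < p)).card : ℝ) ≤ C * t / log w :=
      le_trans (Nat.cast_le.2 (card_le_card (monotone_filter_right _ fun n _ hn => hn.2)))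
        (h w t hw hwt)
    refine (mul_le_mul_of_nonneg_right h2 (by positivity)).trans (le_of_eq ?_)
    field_simp
  · rw [sum_eq_zero fun n hn => ?_]
    · positivity
    exfalso
    obtain ⟨a1, a2, a3⟩ := mem_filter.1 hn
    have a4 : 1 ≤ t * exp (-1) := by
      rw [exp_neg, ← div_eq_mul_inv, le_div_iff₀ (exp_pos 1)]
      linarith
    have a5 : 1 < n := by exact_mod_cast a4.trans_lt a2
    have a6 := a3 _ (Nat.minFac_prime a5.ne') (Nat.minFac_dvd n)
    have a7 : (n.minFac : ℝ) ≤ n := by exact_mod_cast Nat.minFac_le (by omega)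
    have a8 : (n : ℝ) ≤ t := (Nat.le_floor_iff ht0.le).1 (mem_Icc.1 a1).2
    linarith [not_le.1 hwt]

theorem lack_count : ∃ C : ℝ, 0 < C ∧ ∀ v v' t : ℝ, 1 ≤ v → v ≤ v' → exp v' ≤ t →
    (((Icc 1 ⌊t⌋₊).filter fun n => ∀ p ∈ PR (exp v) (exp v'), ¬ p ∣ n).card : ℝ) ≤
      C * t * v / v' := by
  obtain ⟨t₀, ht₀, h⟩ := hallCor_count
  obtain ⟨C, hC, h'⟩ := mert_ratio_const
  have hl0 : 0 < log t₀ := log_pos (by linarith)
  refine ⟨2 * C ^ 2 + 1 + log t₀, by positivity, fun v v' t hv hvv hvt => ?_⟩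
  have ht0 : 0 < t := (exp_pos _).trans_le hvt
  have hlt : v' ≤ log t := (le_log_iff_exp_le ht0).2 hvt
  have hv0 : 0 < v' := by linarith
  have hq : 0 < t * v / v' := by positivity
  have hq' : t / v' ≤ t * v / v' := div_le_div_of_nonneg_right (by nlinarith) hv0.le
  rw [mul_assoc, mul_div_assoc]
  by_cases ht : t₀ ≤ t
  · have h1 := h t ht (PR (exp v) (exp v')) fun p hp => prime_of_mem_PR hp
    have e2 : 2 ≤ exp v := by linarith [add_one_le_exp v]
    have e3 : exp v ≤ exp v' := exp_le_exp.2 hvv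
    have hd : Disjoint (PR 1 (exp v)) (PR (exp v') t) := by
      rw [Finset.disjoint_left]
      intro p c1 c2
      linarith [((mem_PR zero_le_one (exp_pos v).le).1 c1).2.2,
        ((mem_PR (exp_pos v').le ht0.le).1 c2).2.1]
    have h2 : ∏ p ∈ PR 1 t \ PR (exp v) (exp v'), (1 - 1 / (p : ℝ))⁻¹ ≤
        C * v * (C * log t / v') := by
      refine (hallCor_prod_mono (B := PR 1 (exp v) ∪ PR (exp v') t) (fun p hp => ?_)
        fun p hp => (mem_union.1 hp).elim prime_of_mem_PR prime_of_mem_PR).trans ?_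
      · obtain ⟨c1, c2⟩ := mem_sdiff.1 hp
        obtain ⟨c3, c5, c4⟩ := (mem_PR zero_le_one ht0.le).1 c1
        by_cases c6 : (p : ℝ) ≤ exp v
        · exact mem_union_left _ ((mem_PR zero_le_one (exp_pos v).le).2 ⟨c3, c5, c6⟩)
        · exact mem_union_right _ ((mem_PR (exp_pos v').le ht0.le).2 ⟨c3, not_le.1 fun c7 =>
            c2 ((mem_PR (exp_pos v).le (exp_pos v').le).2 ⟨c3, not_le.1 c6, c7⟩), c4⟩)
      · have c1 := (h' (exp v) e2).1
        have c2 := (h' t (by linarith)).2 (exp v') (by linarith) hvt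
        rw [log_exp] at c1 c2
        rw [prod_union hd]
        exact mul_le_mul c1 c2 (prod_nonneg fun p hp =>
          zero_le_one.trans (hallCor_one_le (prime_of_mem_PR hp))) (by positivity)
    have hlt0 : 0 < log t := hv0.trans_le hlt
    have h4 := mul_le_mul_of_nonneg_left h2 (show 0 ≤ 2 * (t / log t) by positivity)
    have h5 : 2 * (t / log t) * (C * v * (C * log t / v')) = 2 * C ^ 2 * (t * v / v') := by
      field_simp
    have h6 : t / log t ≤ t / v' := div_le_div_of_nonneg_left ht0.le hv0 hlt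
    have h7 : (((Icc 1 ⌊t⌋₊).filter fun n => ∀ p ∈ PR (exp v) (exp v'), ¬ p ∣ n).card : ℝ) ≤
        2 * C ^ 2 * (t * v / v') + t * v / v' :=
      h1.trans (add_le_add (h4.trans h5.le) (h6.trans hq'))
    nlinarith [mul_pos hl0 hq]
  · refine (hallCor_card_le ht0.le _).trans ?_
    have h1 : v' ≤ log t₀ := hlt.trans (log_le_log ht0 (not_le.1 ht).le)
    have h2 : t = v' * (t / v') := by field_simp
    have h3 := mul_le_mul h1 hq' (by positivity) hl0.le
    nlinarith [mul_pos (pow_pos hC 2) hq]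

end Vale.Agent.P013
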