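import Vale.Agent.P013.Mert

/-!
The two kernel inequalities. `C` is the constant of `mert_k`, `E = 40 (C + 1)`, `l = log w ≥ l₀` large,
`s = L / l`, `u = log p`.

(a) `v = (L + 1) / 2 ≥ l`, so `s ≥ 2 - 1 / l`. `Bp E (L + u) u = L² / u + (3/5) E (L² / u² + 2 L / u + 1)`.
By `mert_k` the sum is at most
`L² (1/l - 1/v) + C s² + (3/5) E [ (s² - (L/v)²)/2 + 2 (s - L/v) + log (v/l) + C (s² + 2 s + 1)/l ]`.
Here `L² / v ≥ 2 L - 2`, `2 - 2 / (L + 1) = L / v ≤ 2`, `(L/v)² ≥ 4 - 8 / (L + 1)`, `L + 1 ≥ 2 l`,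
`log (v/l) ≤ v/l - 1 = s/2 + 1/(2 l) - 1`. So the bracket is at most
`s²/2 + 5 s/2 - 7 + (5 + C (s + 1)²)/l`, and `(3/5) (s²/2 + 5 s/2 - 7) ≤ (s - 1)² - s²/10`
(the quadratic `0.6 s² - 3.5 s + 5.2` has negative discriminant). The slack `E s² / 10 = 4 (C + 1) s²` absorbs
`2 + C s²` and `(3/5) E (5 + C (s + 1)²) / l` once `l ≥ l₀` (use `s ≥ 1.9`, `(s + 1)² ≤ 4 s²`).

(b) `v = L + 1 ≥ l`, so `s ≥ 1 - 1 / l`. `Bm E (L + u) u = L² / u - u + E L² / u²`. The sum is at most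
`L² (1/l - 1/v) + C s² - (v - l - C) + E (s²/2 + C s² / l)`, `L² / v ≥ L - 1`, hence at most
`(L - l)² / l + C + C s² + E s² / 2 + E C s² / l`, and `C + C s² + E C s² / l ≤ E s² / 10` for `s ≥ 0.9`,
`l ≥ l₀`.
-/

namespace Vale.Agent.P013

open Finset Real

theorem Bp_nonneg {E L l : ℝ} (hE : 0 ≤ E) (hl : 0 ≤ l) : 0 ≤ Bp E L l := by
  unfold Bp; positivity

theorem KI_poly {C a s t X : ℝ} (hC : 0 < C) (ha0 : 0 ≤ a) (ha1 : a ≤ 1 / 40)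
    (hEa : 40 * (C + 1) * a ≤ 1) (hs : 2 - a ≤ s) (ht : 2 - a ≤ t)
    (hX : X ≤ (s ^ 2 - t ^ 2) / 2 + C * s ^ 2 * a + 2 * (s - t + C * s * a) +
      ((s + a) / 2 - 1 + C * a)) :
    2 + C * s ^ 2 + 3 / 5 * (40 * (C + 1)) * X ≤ 40 * (C + 1) * (s - 1) ^ 2 := by
  have e5 : 4 - 4 * a ≤ t ^ 2 := by
    have := pow_le_pow_left₀ (by linarith) ht 2
    nlinarith [sq_nonneg a]
  have e6 : X ≤ s ^ 2 / 2 + 5 * s / 2 - 7 + a * (5 + C * (s + 1) ^ 2) := by linarith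
  have e7 : 3 / 5 * (s ^ 2 / 2 + 5 * s / 2 - 7) ≤ (s - 1) ^ 2 - s ^ 2 / 10 := by
    linarith [sq_nonneg (s - 35 / 12)]
  have e8 : C * (s + 1) ^ 2 ≤ C * (2 * s) ^ 2 :=
    mul_le_mul_of_nonneg_left (pow_le_pow_left₀ (by linarith) (by linarith) 2) hC.le
  have e9 : 40 * (C + 1) * a * (5 + C * (s + 1) ^ 2) ≤ 5 + C * (2 * s) ^ 2 :=
    (mul_le_of_le_one_left (by positivity) hEa).trans (by linarith)
  have e10 := mul_le_mul_of_nonneg_left e6 (show 0 ≤ 3 / 5 * (40 * (C + 1)) by positivity)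
  have e11 := mul_le_mul_of_nonneg_left e7 (show 0 ≤ 40 * (C + 1) by positivity)
  have e12 : (19 / 10) ^ 2 ≤ s ^ 2 := pow_le_pow_left₀ (by norm_num) (by linarith) 2
  have e13 : 0 ≤ C * s ^ 2 := by positivity
  linarith

theorem KI_a {C L l S₀ S₁ S₂ : ℝ} (hC : 0 < C) (hl : 40 * (C + 1) ≤ l) (hL : l ≤ (L + 1) / 2)
    (h1 : S₁ ≤ 1 / l - 1 / ((L + 1) / 2) + C / l ^ 2)
    (h2 : S₂ ≤ (1 / l ^ 2 - 1 / ((L + 1) / 2) ^ 2) / 2 + C / l ^ 3)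
    (h0 : S₀ ≤ log ((L + 1) / 2 / l) + C / l) :
    L ^ 2 * S₁ + 3 / 5 * (40 * (C + 1)) * (L ^ 2 * S₂ + 2 * L * S₁ + S₀) ≤
      Bm (40 * (C + 1)) L l := by
  have hl0 : 0 < l := by linarith
  have hL0 : 0 < L := by linarith
  obtain ⟨a, ha⟩ : ∃ a, a = 1 / l := ⟨_, rfl⟩
  obtain ⟨s, hs⟩ : ∃ s, s = L / l := ⟨_, rfl⟩
  obtain ⟨t, ht⟩ : ∃ t, t = 2 * L / (L + 1) := ⟨_, rfl⟩
  have ha0 : 0 < a := by rw [ha]; positivity
  have hEa : 40 * (C + 1) * a ≤ 1 := by rw [ha, mul_one_div, div_le_one hl0]; exact hl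
  have ha1 : a ≤ 1 / 40 := by nlinarith
  have hs2 : 2 - a ≤ s := by
    rw [ha, hs, le_div_iff₀ hl0, sub_mul, one_div_mul_cancel hl0.ne']
    linarith
  have ht2 : 2 - a ≤ t := by
    have : 2 / (L + 1) ≤ 1 / l := by
      rw [div_le_div_iff₀ (by positivity) hl0]
      linarith
    have e : t = 2 - 2 / (L + 1) := by rw [ht]; field_simp; ring
    linarith
  have hLt : 2 * L - 2 ≤ L * t := by
    rw [ht, ← mul_div_assoc, le_div_iff₀ (by positivity)]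
    nlinarith
  have e1 : L * S₁ ≤ s - t + C * s * a := by
    refine (mul_le_mul_of_nonneg_left h1 hL0.le).trans_eq ?_
    rw [ha, hs, ht]
    field_simp
  have e2 : L ^ 2 * S₁ ≤ L ^ 2 / l - L * t + C * s ^ 2 := by
    refine (mul_le_mul_of_nonneg_left h1 (sq_nonneg L)).trans_eq ?_
    rw [hs, ht]
    field_simp
  have e3 : L ^ 2 * S₂ ≤ (s ^ 2 - t ^ 2) / 2 + C * s ^ 2 * a := by
    refine (mul_le_mul_of_nonneg_left h2 (sq_nonneg L)).trans_eq ?_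
    rw [ha, hs, ht]
    field_simp
  have e4 : S₀ ≤ (s + a) / 2 - 1 + C * a := by
    have h3 := log_le_sub_one_of_pos (show 0 < (L + 1) / 2 / l by positivity)
    have e : (s + a) / 2 - 1 + C * a = (L + 1) / 2 / l - 1 + C / l := by rw [ha, hs]; ring
    linarith
  have e := KI_poly hC ha0.le ha1 hEa hs2 ht2
    (X := L ^ 2 * S₂ + 2 * L * S₁ + S₀) (by linarith)
  rw [Bm, ← hs]
  linarith

theorem KI_b {C L l S S₁ S₂ : ℝ} (hC : 0 < C) (hl : 40 * (C + 1) ≤ l) (hL : l ≤ L + 1)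
    (h1 : S₁ ≤ 1 / l - 1 / (L + 1) + C / l ^ 2)
    (h2 : S₂ ≤ (1 / l ^ 2 - 1 / (L + 1) ^ 2) / 2 + C / l ^ 3) (h0 : L + 1 - l - C ≤ S) :
    L ^ 2 * S₁ - S + 40 * (C + 1) * (L ^ 2 * S₂) ≤ Bp (40 * (C + 1)) L l := by
  have hl0 : 0 < l := by linarith
  have hL0 : 0 < L := by linarith
  obtain ⟨a, ha⟩ : ∃ a, a = 1 / l := ⟨_, rfl⟩
  obtain ⟨s, hs⟩ : ∃ s, s = L / l := ⟨_, rfl⟩
  have ha0 : 0 < a := by rw [ha]; positivity
  have hEa : 40 * (C + 1) * a ≤ 1 := by rw [ha, mul_one_div, div_le_one hl0]; exact hl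
  have ha1 : a ≤ 1 / 40 := by nlinarith
  have hs2 : 1 - a ≤ s := by
    rw [ha, hs, le_div_iff₀ hl0, sub_mul, one_div_mul_cancel hl0.ne']
    linarith
  have hLt : L - 1 ≤ L ^ 2 / (L + 1) := by
    rw [le_div_iff₀ (by positivity)]
    nlinarith
  have e2 : L ^ 2 * S₁ ≤ L ^ 2 / l - L ^ 2 / (L + 1) + C * s ^ 2 := by
    refine (mul_le_mul_of_nonneg_left h1 (sq_nonneg L)).trans_eq ?_
    rw [hs]
    field_simp
  have e3 : L ^ 2 * S₂ ≤ s ^ 2 / 2 + C * s ^ 2 * a := by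
    have h3 : S₂ ≤ 1 / l ^ 2 / 2 + C / l ^ 3 := by
      have : 0 ≤ 1 / (L + 1) ^ 2 := by positivity
      linarith
    refine (mul_le_mul_of_nonneg_left h3 (sq_nonneg L)).trans_eq ?_
    rw [ha, hs]
    field_simp
  have e4 : Bp (40 * (C + 1)) L l = L ^ 2 / l - 2 * L + l + 3 / 5 * (40 * (C + 1)) * s ^ 2 := by
    rw [Bp, hs]
    field_simp
    ring
  have e13 : 0 ≤ C * s ^ 2 := by positivity
  have e9 : 40 * (C + 1) * a * (C * s ^ 2) ≤ C * s ^ 2 := mul_le_of_le_one_left e13 hEa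
  have e10 := mul_le_mul_of_nonneg_left e3 (show 0 ≤ 40 * (C + 1) by positivity)
  have e12 : C * (1 / 2) ≤ C * s ^ 2 := mul_le_mul_of_nonneg_left (by nlinarith) hC.le
  rw [e4]
  nlinarith [sq_nonneg s]

theorem KI : ∃ E l₀ : ℝ, 0 < E ∧ 1 ≤ l₀ ∧ ∀ w L : ℝ, 0 < w → l₀ ≤ log w →
    (log w ≤ (L + 1) / 2 →
      ∑ p ∈ PR w (exp ((L + 1) / 2)), Bp E (L + log p) (log p) / p ≤ Bm E L (log w)) ∧
    (log w ≤ L + 1 →
      ∑ p ∈ PR w (exp (L + 1)), Bm E (L + log p) (log p) / p ≤ Bp E L (log w)) := by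
  obtain ⟨C, hC, hm⟩ := mert_k
  refine ⟨40 * (C + 1), 40 * (C + 1), by positivity, by linarith, fun w L hw hl => ?_⟩
  have hw2 : 2 ≤ w := by
    have := log_le_sub_one_of_pos hw
    linarith
  have hp : ∀ v, ∀ p ∈ PR w (exp v), 0 < (p : ℝ) ∧ 0 < log p := fun v p hp => by
    have h := ((mem_PR hw.le (exp_pos v).le).1 hp).2.1
    exact ⟨by linarith, log_pos (by linarith)⟩
  refine ⟨fun hL => ?_, fun hL => ?_⟩
  · obtain ⟨h1, h2, h0, -⟩ := hm w _ hw2 hL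
    refine le_trans (le_of_eq ?_) (KI_a hC hl hL h1 h2 h0)
    simp only [mul_sum, ← sum_add_distrib]
    refine sum_congr rfl fun p h => ?_
    obtain ⟨h3, h4⟩ := hp _ p h
    rw [Bp]
    field_simp
    ring
  · obtain ⟨h1, h2, -, h0⟩ := hm w _ hw2 hL
    refine le_trans (le_of_eq ?_) (KI_b hC hl hL h1 h2 h0)
    simp only [mul_sum, ← sum_add_distrib, ← sum_sub_distrib]
    refine sum_congr rfl fun p h => ?_
    obtain ⟨h3, h4⟩ := hp _ p h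
    rw [Bm]
    field_simp
    ring

end Vale.Agent.P013
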