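import Vale.Agent.P013.Comb
import Vale.Agent.P013.KI
import Vale.Agent.P013.HallCor

/-!
Mass of the chains in a unit window. `ℒ = log D` large, `E, l₀` from `KI`, `C` from `rough_window`,
`C₀ = 100 C`.

Recurrences (remove `p = mn d`, `d' = d.erase p`, `ch_insert_min`; `win D L d ↔ win D (L + log p) d'`;
the map `d ↦ (p, d')` is injective). The empty set is in no window with `L + 1 ≤ ℒ`.
* `Wm w L ≤ ∑ p ∈ PR w (exp ((L+1)/2)), Wp p (L + log p) / p` when `L + 1 ≤ ℒ`: here `pr d' * p^3 < D`, so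
  `p^2 < D / pr d < exp (L + 1)`.
* `Wp w L ≤ ∑ p ∈ PR w (exp (L+1)), Wm p (L + log p) / p` when `L + 1 ≤ 2 ℒ / 5`: if `d' = ∅` then `par = 0`,
  `pr d = p < z ≤ D^(3/5)` is not in the window; otherwise `q = mn d' > p` has `q^2 * pr d' < D`, so
  `p * pr d < D` and `p < exp (L + 1)`.
Claim `P w` (for `l₀ ≤ log w`): for all `L ≥ 0`,
`L ≤ 3ℒ/5 → log w ≤ (L+1)/2 → Wm w L ≤ C₀ Bm E L (log w) / ℒ²` and `L ≤ 29ℒ/100 → Wp w L ≤ C₀ Bp E L (log w) / ℒ²`.
Induction on `z - w` (strong): terms with `p ≥ z` vanish, or simply note that for `w ≥ z` both masses are `0`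
while `Bm ≥ 0` (by `KI` (a) and `Bp_nonneg`). For `Wm`: each `Wp p (L + log p) ≤ C₀ Bp E (L + log p) (log p) / ℒ²`,
by induction if `L ≤ ℒ/10` (then `L + log p ≤ 29ℒ/100`), and if `L ≥ ℒ/10` directly: `pr` is injective, so by
`rough_window` with `t = D exp (-L - log p) ≥ e` it is at most `C / log p ≤ C Bp / L²`, as
`Bp E (L + u) u ≥ L² / u`. Then `KI` (a). For `Wp`: if `log w > L + 1` the range of `p` is empty; otherwise
`log p ≤ (L + log p + 1)/2`, `L + log p ≤ 3ℒ/5`, induction and `KI` (b).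
Finally `Wm = 0` if `log w > (L+1)/2` (empty range), `Bm ≤ L²/l + E (L/l + 1)²`, and for `l ≤ L + 1`, `l ≥ 1`:
`(L - l)²/l ≤ L²/l + 1` (if `l ≤ 2L` the first term suffices, otherwise `|L - l| ≤ 1`).
-/

namespace Vale.Agent.P013

open Finset Real

open Classical

noncomputable def Wm (par : ℕ) (D : ℝ) (z w : ℕ) (L : ℝ) : ℝ :=
  ∑ d ∈ (chains par D z).filter
    (fun d => Even (par + d.card) ∧ (∀ p ∈ d, w < p) ∧ win D L d), 1 / (pr d : ℝ)

noncomputable def Wp (par : ℕ) (D : ℝ) (z w : ℕ) (L : ℝ) : ℝ :=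
  ∑ d ∈ (chains par D z).filter
    (fun d => ¬ Even (par + d.card) ∧ (∀ p ∈ d, w < p) ∧ win D L d), 1 / (pr d : ℝ)

theorem ChainA_mem {par z : ℕ} {D : ℝ} {d : Finset ℕ} :
    d ∈ chains par D z ↔ (∀ p ∈ d, p < z ∧ p.Prime) ∧ Ch par D d := by
  unfold chains
  rw [mem_filter, mem_powerset]
  exact and_congr_left fun _ => forall₂_congr fun p _ => Nat.mem_primesBelow

theorem ChainA_erase {par z : ℕ} {D : ℝ} {d : Finset ℕ} (hd : d ∈ chains par D z)
    (hne : d.Nonempty) : d.erase (mn d) ∈ chains par D z := by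
  rw [ChainA_mem] at hd ⊢
  exact ⟨fun p hp => hd.1 p (mem_of_mem_erase hp), ((Comb_split hne).1 hd.2).1⟩

theorem ChainA_ev {par z : ℕ} {D : ℝ} {d : Finset ℕ} (hd : d ∈ chains par D z)
    (hne : d.Nonempty) (he : Even (par + d.card)) : (pr d : ℝ) * (mn d : ℝ) ^ 2 < D := by
  have := ((Comb_split hne).1 (ChainA_mem.1 hd).2).2 he
  rw [Comb_pr_erase hne]
  linarith

theorem ChainA_ne {D L : ℝ} {d : Finset ℕ} (hD : 0 < D) (hL : L + 1 ≤ log D) (h : win D L d) :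
    d.Nonempty := by
  rw [nonempty_iff_ne_empty]
  rintro rfl
  have h1 := h.1
  rw [pr_empty, Nat.cast_one, ← exp_log hD, ← exp_add] at h1
  linarith [one_le_exp (show 0 ≤ log D + (-L - 1) by linarith)]

theorem ChainA_rec {par z w : ℕ} {D L v : ℝ} (P Q : Finset ℕ → Prop) (hv : 0 ≤ v)
    {S : Finset (Finset ℕ)} {T : ℕ → Finset (Finset ℕ)}
    (hS : ∀ d ∈ S, d ∈ chains par D z ∧ P d ∧ (∀ p ∈ d, w < p) ∧ win D L d)
    (hT : ∀ p d, d ∈ chains par D z ∧ Q d ∧ (∀ q ∈ d, p < q) ∧ win D (L + log p) d → d ∈ T p)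
    (h : ∀ d ∈ chains par D z, P d → win D L d →
      d.Nonempty ∧ (mn d : ℝ) ≤ v ∧ Q (d.erase (mn d))) :
    ∑ d ∈ S, 1 / (pr d : ℝ) ≤ ∑ p ∈ PR w v, (∑ d ∈ T p, 1 / (pr d : ℝ)) / p := by
  rw [← sum_fiberwise_of_maps_to (g := mn) (t := PR w v) fun d hd => ?_]
  swap
  · obtain ⟨h1, h2, h3, h4⟩ := hS d hd
    obtain ⟨h5, h6, -⟩ := h d h1 h2 h4
    exact (mem_PR (Nat.cast_nonneg _) hv).2 ⟨((ChainA_mem.1 h1).1 _ (mn_mem h5)).2,
      Nat.cast_lt.2 (h3 _ (mn_mem h5)), h6⟩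
  refine sum_le_sum fun p hp => ?_
  have hp0 : (0 : ℝ) < p := Nat.cast_pos.2 (prime_of_mem_PR hp).pos
  have key : ∀ d ∈ S.filter (fun d => mn d = p),
      p ∈ d ∧ (pr d : ℝ) = p * pr (d.erase p) ∧ d.erase p ∈ T p := by
    intro d hd
    obtain ⟨hd', rfl⟩ := mem_filter.1 hd
    obtain ⟨h1, h2, -, h4⟩ := hS d hd'
    obtain ⟨h5, -, h7⟩ := h d h1 h2 h4
    have e := Comb_pr_erase h5
    refine ⟨mn_mem h5, e, hT _ _ ⟨ChainA_erase h1 h5, h7, Comb_lt_erase, ?_, ?_⟩⟩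
    · have h8 := h4.1
      rw [show -(L + log (mn d)) - 1 = -L - 1 - log (mn d) by ring, exp_sub, exp_log hp0,
        ← mul_div_assoc, div_lt_iff₀ hp0]
      linarith
    · have h8 := h4.2
      rw [show -(L + log (mn d)) = -L - log (mn d) by ring, exp_sub, exp_log hp0,
        ← mul_div_assoc, le_div_iff₀ hp0]
      linarith
  rw [sum_congr rfl fun d hd => show 1 / (pr d : ℝ) = 1 / (pr (d.erase p) : ℝ) / p by
      rw [(key d hd).2.1, div_div, mul_comm],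
    ← sum_image (g := fun d : Finset ℕ => d.erase p) (f := fun d => 1 / (pr d : ℝ) / p)
      fun d hd e he hde => by
        rw [← insert_erase (key d hd).1, ← insert_erase (key e he).1]
        exact congrArg _ hde, sum_div]
  refine sum_le_sum_of_subset_of_nonneg (fun d hd => ?_) fun _ _ _ => by positivity
  obtain ⟨e, he, rfl⟩ := mem_image.1 hd
  exact (key e he).2.2

theorem ChainA_recm {par z w : ℕ} {D L : ℝ} (hD : 0 < D) (hL : L + 1 ≤ log D) :
    Wm par D z w L ≤ ∑ p ∈ PR w (exp ((L + 1) / 2)), Wp par D z p (L + log p) / p := by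
  unfold Wm Wp
  refine ChainA_rec (fun d => Even (par + d.card)) (fun d => ¬ Even (par + d.card))
    (exp_pos _).le (fun d hd => mem_filter.1 hd) (fun p d hd => mem_filter.2 hd)
    fun d hd he hw => ?_
  have hne := ChainA_ne hD hL hw
  refine ⟨hne, ?_, ?_⟩
  · have h1 := ChainA_ev hd hne he
    have h2 := mul_le_mul_of_nonneg_right hw.1.le (sq_nonneg (mn d : ℝ))
    have h3 : exp (-L - 1) * exp ((L + 1) / 2) ^ 2 = 1 := by
      rw [← exp_nat_mul, ← exp_add, exp_eq_one_iff]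
      push_cast
      ring
    refine (pow_le_pow_iff_left₀ (Nat.cast_nonneg _) (exp_pos _).le two_ne_zero).1 ?_
    refine le_of_mul_le_mul_left ?_ (mul_pos hD (exp_pos (-L - 1)))
    rw [mul_assoc D _ (exp _ ^ 2), h3]
    linarith
  · rw [← card_erase_add_one (mn_mem hne), ← add_assoc, Nat.even_add_one] at he
    exact he

theorem ChainA_recp {par z w : ℕ} {D L : ℝ} (hD : 0 < D) (h0 : 0 ≤ L) (hL : L + 1 ≤ 2 / 5 * log D)
    (hz : par = 1 ∨ (par = 0 ∧ (z : ℝ) ≤ D ^ (3 / 5 : ℝ))) :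
    Wp par D z w L ≤ ∑ p ∈ PR w (exp (L + 1)), Wm par D z p (L + log p) / p := by
  unfold Wm Wp
  refine ChainA_rec (fun d => ¬ Even (par + d.card)) (fun d => Even (par + d.card))
    (exp_pos _).le (fun d hd => mem_filter.1 hd) (fun p d hd => mem_filter.2 hd)
    fun d hd he hw => ?_
  have hne := ChainA_ne hD (by linarith) hw
  rw [← card_erase_add_one (mn_mem hne), ← add_assoc, Nat.even_add_one, not_not] at he
  refine ⟨hne, ?_, he⟩
  have e := Comb_pr_erase hne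
  have h1 := hw.1
  rcases (d.erase (mn d)).eq_empty_or_nonempty with h2 | h2
  · exfalso
    rw [h2] at he e
    rcases hz with rfl | ⟨-, hz⟩
    · simp at he
    rw [pr_empty, Nat.cast_one, mul_one] at e
    have h3 : (mn d : ℝ) < z := Nat.cast_lt.2 ((ChainA_mem.1 hd).1 _ (mn_mem hne)).1
    rw [rpow_def_of_pos hD] at hz
    rw [← exp_log hD, ← exp_add] at h1
    linarith [exp_le_exp.2 (show log D * (3 / 5) ≤ log D + (-L - 1) by linarith)]
  · have h3 := ChainA_ev (ChainA_erase hd hne) h2 he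
    have h4 : (mn d : ℝ) ≤ mn (d.erase (mn d)) := Nat.cast_le.2 (Comb_lt_erase _ (mn_mem h2)).le
    have h5 := mul_le_mul_of_nonneg_left (pow_le_pow_left₀ (Nat.cast_nonneg _) h4 2)
      (Nat.cast_nonneg (pr (d.erase (mn d))) : (0 : ℝ) ≤ _)
    have h6 := mul_le_mul_of_nonneg_right h1.le (Nat.cast_nonneg (mn d) : (0 : ℝ) ≤ _)
    have h7 : exp (-L - 1) * exp (L + 1) = 1 := by
      rw [← exp_add, exp_eq_one_iff]
      ring
    refine le_of_mul_le_mul_left ?_ (mul_pos hD (exp_pos (-L - 1)))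
    rw [mul_assoc D _ (exp _), h7]
    rw [e] at h6
    linarith

theorem ChainA_direct {par z w : ℕ} {D L : ℝ} :
    Wp par D z w L ≤ ∑ n ∈ (Icc 1 ⌊D * exp (-L)⌋₊).filter (fun n : ℕ =>
      D * exp (-L) * exp (-1) < n ∧ ∀ p : ℕ, p.Prime → p ∣ n → (w : ℝ) < p), 1 / (n : ℝ) := by
  unfold Wp
  rw [← sum_image (g := pr) (f := fun n : ℕ => 1 / (n : ℝ)) fun d hd e he hde =>
    pr_inj (fun p hp => ((ChainA_mem.1 (mem_filter.1 hd).1).1 p hp).2)
      (fun p hp => ((ChainA_mem.1 (mem_filter.1 he).1).1 p hp).2) hde]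
  refine sum_le_sum_of_subset_of_nonneg (fun n hn => ?_) fun _ _ _ => by positivity
  obtain ⟨d, hd, rfl⟩ := mem_image.1 hn
  obtain ⟨h1, -, h2, h3, h4⟩ := mem_filter.1 hd
  have h5 : ∀ p ∈ d, p.Prime := fun p hp => ((ChainA_mem.1 h1).1 p hp).2
  refine mem_filter.2 ⟨mem_Icc.2 ⟨pr_pos h5, Nat.le_floor h4⟩, ?_, fun p hp hpd => ?_⟩
  · rwa [mul_assoc, ← exp_add, ← sub_eq_add_neg]
  · refine Nat.cast_lt.2 (h2 p ?_)
    rw [← primeFactors_pr h5]
    exact Nat.mem_primeFactors.2 ⟨hp, hpd, (pr_pos h5).ne'⟩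

theorem ChainA_PR {w p : ℕ} {a : ℝ} (hw : 0 < w) (hp : p ∈ PR w (exp a)) :
    w < p ∧ log w < log p ∧ log p ≤ a ∧ (p : ℝ) ≤ exp a := by
  obtain ⟨h1, h2, h3⟩ := (mem_PR (Nat.cast_nonneg _) (exp_pos _).le).1 hp
  exact ⟨Nat.cast_lt.1 h2, log_lt_log (Nat.cast_pos.2 hw) h2,
    (log_le_iff_le_exp (Nat.cast_pos.2 h1.pos)).2 h3, h3⟩

theorem ChainA_empty {w : ℕ} {a : ℝ} (hw : 0 < w) (h : a < log w) (f : ℕ → ℝ) :
    ∑ p ∈ PR w (exp a), f p = 0 :=
  sum_eq_zero fun p hp => by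
    obtain ⟨-, h1, h2, -⟩ := ChainA_PR hw hp
    linarith

theorem ChainA_pos {w : ℕ} {l : ℝ} (hl : 1 ≤ l) (h : l ≤ log w) : 0 < w := by
  rcases w.eq_zero_or_pos with rfl | hw
  · rw [Nat.cast_zero, log_zero] at h
    linarith
  · exact hw

theorem ChainA_ind : ∃ E l₀ C₀ : ℝ, 0 < E ∧ 1 ≤ l₀ ∧ 0 < C₀ ∧ ∀ D : ℝ, 0 < D → 50 ≤ log D →
    ∀ par z : ℕ, (par = 1 ∨ (par = 0 ∧ (z : ℝ) ≤ D ^ (3 / 5 : ℝ))) → ∀ w : ℕ, l₀ ≤ log w →
    ∀ L : ℝ, 0 ≤ L →
    (L ≤ 3 / 5 * log D → log w ≤ (L + 1) / 2 →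
      Wm par D z w L ≤ C₀ / log D ^ 2 * Bm E L (log w)) ∧
    (L ≤ 29 / 100 * log D → Wp par D z w L ≤ C₀ / log D ^ 2 * Bp E L (log w)) := by
  obtain ⟨E, l₀, hE, hl, hK⟩ := KI
  obtain ⟨C, hC, hR⟩ := rough_window
  refine ⟨E, l₀, 100 * C, hE, hl, by positivity, fun D hD hD' par z hz w => ?_⟩
  induction' hn : ⌊D⌋₊ - w using Nat.strong_induction_on with n ih generalizing w
  intro hw L hL
  have hw0 := ChainA_pos hl hw
  have hc : 0 ≤ 100 * C / log D ^ 2 := by positivity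
  have step : ∀ {p : ℕ} {a : ℝ}, a ≤ log D → p ∈ PR w (exp a) → ⌊D⌋₊ - p < n := by
    intro p a ha hp
    obtain ⟨h1, -, -, h2⟩ := ChainA_PR hw0 hp
    have h3 : p ≤ ⌊D⌋₊ := Nat.le_floor (h2.trans ((le_log_iff_exp_le hD).1 ha))
    omega
  obtain ⟨hKa, hKb⟩ := hK w L (Nat.cast_pos.2 hw0) hw
  refine ⟨fun h1 h2 => ?_, fun h1 => ?_⟩
  · refine (ChainA_recm hD (by linarith)).trans
      (le_trans ?_ (mul_le_mul_of_nonneg_left (hKa h2) hc))
    rw [mul_sum]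
    refine sum_le_sum fun p hp => ?_
    rw [← mul_div_assoc]
    refine div_le_div_of_nonneg_right ?_ (Nat.cast_nonneg _)
    obtain ⟨-, h3, h4, -⟩ := ChainA_PR hw0 hp
    rcases le_total L (log D / 10) with h5 | h5
    · exact (ih _ (step (by linarith) hp) p rfl (by linarith) _ (by linarith)).2 (by linarith)
    · have h6 : exp 1 ≤ D * exp (-(L + log p)) := by
        rw [← exp_log hD, ← exp_add, exp_le_exp]
        linarith
      refine (ChainA_direct.trans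
        (hR p _ (by exact_mod_cast (prime_of_mem_PR hp).two_le) h6)).trans ?_
      have h7 : 0 < log p := by linarith
      have h8 : (log D / 10) ^ 2 / log p ≤ Bp E (L + log p) (log p) := by
        unfold Bp
        rw [add_sub_cancel_right]
        refine le_trans ?_ (le_add_of_nonneg_right (by positivity))
        gcongr
      refine le_trans (le_of_eq ?_) (mul_le_mul_of_nonneg_left h8 hc)
      have h9 : log D ≠ 0 := by linarith
      field_simp
      norm_num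
  · refine (ChainA_recp hD hL (by linarith) hz).trans ?_
    rcases lt_or_ge (L + 1) (log w) with h2 | h2
    · rw [ChainA_empty hw0 h2]
      exact mul_nonneg hc (Bp_nonneg hE.le (by linarith))
    refine le_trans ?_ (mul_le_mul_of_nonneg_left (hKb h2) hc)
    rw [mul_sum]
    refine sum_le_sum fun p hp => ?_
    rw [← mul_div_assoc]
    refine div_le_div_of_nonneg_right ?_ (Nat.cast_nonneg _)
    obtain ⟨-, h3, h4, -⟩ := ChainA_PR hw0 hp
    exact (ih _ (step (by linarith) hp) p rfl (by linarith) _ (by linarith)).1 (by linarith)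
      (by linarith)

theorem chain_main : ∃ l₀ C₀ D₀ : ℝ, 1 ≤ l₀ ∧ 0 < C₀ ∧ ∀ D : ℝ, D₀ ≤ D → ∀ par z : ℕ,
    (par = 1 ∨ (par = 0 ∧ (z : ℝ) ≤ D ^ (3 / 5 : ℝ))) → ∀ w : ℕ, l₀ ≤ log w → ∀ L : ℝ, 0 ≤ L →
    (L ≤ 3 / 5 * log D →
      Wm par D z w L ≤ C₀ * (L ^ 2 / log w + (L / log w + 1) ^ 2) / log D ^ 2) ∧
    (L ≤ 29 / 100 * log D →
      Wp par D z w L ≤ C₀ * (L ^ 2 / log w + (L / log w + 1) ^ 2) / log D ^ 2) := by
  obtain ⟨E, l₀, C₀, hE, hl, hC, h⟩ := ChainA_ind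
  refine ⟨l₀, C₀ * (1 + E), exp 50, hl, by positivity, fun D hD par z hz w hw L hL => ?_⟩
  have hD0 : 0 < D := (exp_pos _).trans_le hD
  have hD' : 50 ≤ log D := (le_log_iff_exp_le hD0).2 hD
  have hw0 := ChainA_pos hl hw
  have hl0 : 0 < log w := by linarith
  obtain ⟨ha, hb⟩ := h D hD0 hD' par z hz w hw L hL
  have hc : 0 ≤ C₀ / log D ^ 2 := by positivity
  have e : C₀ * (1 + E) * (L ^ 2 / log w + (L / log w + 1) ^ 2) / log D ^ 2 =
      C₀ / log D ^ 2 * ((1 + E) * (L ^ 2 / log w + (L / log w + 1) ^ 2)) := by ring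
  have q1 : 0 ≤ L ^ 2 / log w := by positivity
  have q2 : 0 ≤ L / log w := by positivity
  refine ⟨fun h1 => ?_, fun h1 => ?_⟩
  · rcases lt_or_ge ((L + 1) / 2) (log w) with h2 | h2
    · refine (ChainA_recm hD0 (by linarith)).trans ?_
      rw [ChainA_empty hw0 h2]
      positivity
    rw [e]
    refine (ha h1 h2).trans (mul_le_mul_of_nonneg_left ?_ hc)
    unfold Bm
    nlinarith [mul_nonneg hE.le q1, mul_nonneg hE.le q2, sq_nonneg (L / log w + 1)]
  · rcases lt_or_ge (L + 1) (log w) with h2 | h2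
    · refine (ChainA_recp hD0 hL (by linarith) hz).trans ?_
      rw [ChainA_empty hw0 h2]
      positivity
    rw [e]
    refine (hb h1).trans (mul_le_mul_of_nonneg_left ?_ hc)
    have h3 : (L - log w) ^ 2 / log w ≤ L ^ 2 / log w + 1 := by
      rw [div_add_one hl0.ne']
      refine div_le_div_of_nonneg_right ?_ hl0.le
      nlinarith
    unfold Bp
    rw [mul_div_assoc, ← div_pow]
    nlinarith [mul_nonneg hE.le q1, mul_nonneg hE.le q2, sq_nonneg (L / log w),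
      mul_nonneg hE.le (sq_nonneg (L / log w))]

end Vale.Agent.P013
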