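import Vale.Agent.P013.ChainA

/-!
`cb1`. Let `w₀ = ⌈exp l₀⌉₊`, `T = primes ≤ w₀`, `M₀ = pr T`. Split `d = d₁ ∪ d₂`, `d₁ = d.filter (w₀ < ·)`
(a chain by `ch_filter`), `d₂ ⊆ T`; `win D L d ↔ win D (L + log (pr d₂)) d₁`. If `L + log M₀ ≤ 29ℒ/100` the mass is at
most `∑ d₂ ⊆ T, (Wm + Wp) w₀ (L + log (pr d₂)) ≤ 2^|T| * 2 C₀ * 2 (L + log M₀ + 1)² / ℒ²`. Otherwise
`L + 1 ≥ ℒ/4` (large `D`) and the mass of a window is at most `e` (at most `D exp (-L)` sets by
`card_le_of_pr_le`, each of weight at most `exp (L + 1) / D`).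

`cb2`. If `L ≤ L₀ = 20 (l₀ + 1)` use `cb1`. Otherwise let `w = ⌊exp (L/4)⌋₊`, `log w ≥ L/4 - log 2 ≥ L/5 ≥ l₀`;
all elements of `d` exceed `w` (`mn_le`). If `L ≤ 3ℒ/5` the mass is at most `Wm 0 D z w L ≤ C₀ (5 L + 36)/ℒ²`.
If `L > 3ℒ/5`: put `t = D exp (-L)`. If `t < e` the set is empty (`pr d ≥ mn d > exp (L/4) ≥ e`); otherwise
`rough_window` gives `C / log w ≤ 5 C / L ≤ 14 C L / ℒ²`.
-/

namespace Vale.Agent.P013

open Finset Real

open Classical

theorem chainB_prime {par z : ℕ} {D : ℝ} {d : Finset ℕ} (h : d ∈ chains par D z) :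
    ∀ p ∈ d, p.Prime := fun _ hp =>
  (Nat.mem_primesBelow.1 (mem_powerset.1 (mem_filter.1 h).1 hp)).2

theorem chainB_triv {D : ℝ} (hD : 0 < D) (par z : ℕ) (L : ℝ) :
    ∑ d ∈ (chains par D z).filter (win D L), 1 / (pr d : ℝ) ≤ 3 := by
  have h1 : (((chains par D z).filter (win D L)).card : ℝ) ≤ D * exp (-L) :=
    card_le_of_pr_le (by positivity) fun d hd =>
      ⟨chainB_prime (mem_filter.1 hd).1, (mem_filter.1 hd).2.2⟩
  refine (sum_le_card_nsmul _ _ (1 / (D * exp (-L - 1))) fun d hd =>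
    one_div_le_one_div_of_le (by positivity) (mem_filter.1 hd).2.1.le).trans ?_
  rw [nsmul_eq_mul]
  refine (mul_le_mul_of_nonneg_right h1 (by positivity)).trans ?_
  rw [exp_sub, mul_one_div, mul_div_mul_left _ _ hD.ne', div_div_cancel₀ (exp_pos _).ne']
  linarith [exp_one_lt_d9]

theorem chainB_split (D : ℝ) (par z w : ℕ) (L : ℝ) :
    ∑ d ∈ (chains par D z).filter (win D L), 1 / (pr d : ℝ) ≤
      ∑ e ∈ (Nat.primesBelow (w + 1)).powerset,
        (Wm par D z w (L + log (pr e)) + Wp par D z w (L + log (pr e))) := by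
  rw [← sum_fiberwise_of_maps_to (g := fun d => d.filter fun p => ¬ w < p)
    (t := (Nat.primesBelow (w + 1)).powerset) fun d hd => mem_powerset.2 fun p hp => by
      rw [mem_filter] at hp
      exact Nat.mem_primesBelow.2 ⟨Nat.lt_succ_of_le (not_lt.1 hp.2),
        chainB_prime (mem_filter.1 hd).1 p hp.1⟩]
  refine sum_le_sum fun e he => ?_
  have he0 : (0 : ℝ) < pr e := by
    exact_mod_cast pr_pos fun p hp => (Nat.mem_primesBelow.1 (mem_powerset.1 he hp)).2
  have he1 : (1 : ℝ) ≤ pr e := by exact_mod_cast Nat.cast_pos.1 he0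
  have h1 : ∑ d ∈ (chains par D z).filter
      (fun d => (∀ p ∈ d, w < p) ∧ win D (L + log (pr e)) d), 1 / (pr d : ℝ) ≤
      Wm par D z w (L + log (pr e)) + Wp par D z w (L + log (pr e)) := by
    rw [Wm, Wp, sum_filter, sum_filter, sum_filter, ← sum_add_distrib]
    refine sum_le_sum fun d _ => ?_
    by_cases h : Even (par + d.card) <;> simp [h]
  have h2 : ∀ d ∈ ((chains par D z).filter (win D L)).filter
      fun d => (d.filter fun p => ¬ w < p) = e,
      (pr d : ℝ) = pr (d.filter fun p => w < p) * pr e := fun d hd => by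
    rw [← (mem_filter.1 hd).2, ← Nat.cast_mul, ← pr_union (disjoint_filter_filter_not _ _ _),
      filter_union_filter_not_eq]
  refine le_trans ?_ h1
  refine (sum_le_sum (g := fun d => 1 / (pr (d.filter fun p => w < p) : ℝ)) fun d hd => ?_).trans ?_
  · have h3 : (0 : ℝ) < pr (d.filter fun p => w < p) := by
      exact_mod_cast pr_pos fun p hp =>
        chainB_prime (mem_filter.1 (mem_filter.1 hd).1).1 p (mem_filter.1 hp).1
    rw [h2 d hd]
    exact one_div_le_one_div_of_le h3 (le_mul_of_one_le_right h3.le he1)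
  rw [← sum_image (g := fun d : Finset ℕ => d.filter fun p => w < p)
    (f := fun d => 1 / (pr d : ℝ)) fun d hd d' hd' h => by
      rw [← filter_union_filter_not_eq (fun p => w < p) d,
        ← filter_union_filter_not_eq (fun p => w < p) d', (mem_filter.1 hd).2,
        (mem_filter.1 hd').2]
      exact congrArg (· ∪ e) h]
  refine sum_le_sum_of_subset_of_nonneg (fun d₁ hd₁ => ?_) fun _ _ _ => by positivity
  obtain ⟨d, hd, rfl⟩ := mem_image.1 hd₁
  have h3 := h2 d hd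
  obtain ⟨h4, h5, h6⟩ := mem_filter.1 (mem_filter.1 hd).1
  refine mem_filter.2 ⟨mem_filter.2 ⟨mem_powerset.2 ((filter_subset _ _).trans
    (mem_powerset.1 (mem_filter.1 h4).1)), ch_filter (mem_filter.1 h4).2 w⟩,
    fun p hp => (mem_filter.1 hp).2, ?_, ?_⟩
  · rw [show -(L + log (pr e)) - 1 = -L - 1 - log (pr e) by ring, exp_sub, exp_log he0,
      ← mul_div_assoc, div_lt_iff₀ he0, ← h3]
    exact h5
  · rw [show -(L + log (pr e)) = -L - log (pr e) by ring, exp_sub, exp_log he0,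
      ← mul_div_assoc, le_div_iff₀ he0, ← h3]
    exact h6

theorem cb1 : ∃ C D₀ : ℝ, 0 < C ∧ ∀ D : ℝ, D₀ ≤ D → ∀ par z : ℕ,
    (par = 1 ∨ (par = 0 ∧ (z : ℝ) ≤ D ^ (3 / 5 : ℝ))) → ∀ L : ℝ, 0 ≤ L →
    ∑ d ∈ (chains par D z).filter (win D L), 1 / (pr d : ℝ) ≤ C * (L + 1) ^ 2 / log D ^ 2 := by
  obtain ⟨l₀, C₀, D₀, hl, hC, h⟩ := chain_main
  obtain ⟨w, hw⟩ : ∃ w : ℕ, l₀ ≤ log w :=
    ⟨⌈exp l₀⌉₊, (le_log_iff_exp_le ((exp_pos _).trans_le (Nat.le_ceil _))).2 (Nat.le_ceil _)⟩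
  obtain ⟨m, hm0, hm⟩ : ∃ m : ℝ, 0 ≤ m ∧ ∀ e ∈ (Nat.primesBelow (w + 1)).powerset,
      log (pr e) ≤ m := ⟨∑ e ∈ (Nat.primesBelow (w + 1)).powerset, log (pr e),
    sum_nonneg fun _ _ => log_natCast_nonneg _,
    fun e he => single_le_sum (f := fun e => log (pr e)) (fun _ _ => log_natCast_nonneg _) he⟩
  obtain ⟨N, hN⟩ : ∃ N : ℕ, N = (Nat.primesBelow (w + 1)).powerset.card := ⟨_, rfl⟩
  refine ⟨N * (4 * C₀ * (m + 1) ^ 2) + 48, max D₀ (exp (25 * m + 1)), by positivity,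
    fun D hD par z hz L hL => ?_⟩
  have hD1 := (le_max_right _ _).trans hD
  have hD0 : 0 < D := (exp_pos _).trans_le hD1
  have hD2 : 25 * m + 1 ≤ log D := (le_log_iff_exp_le hD0).2 hD1
  have hD3 : 0 < log D := by linarith
  rcases le_total (L + m) (29 / 100 * log D) with h1 | h1
  · refine (chainB_split D par z w L).trans ((sum_le_card_nsmul _ _
      (4 * C₀ * (m + 1) ^ 2 * (L + 1) ^ 2 / log D ^ 2) fun e he => ?_).trans ?_)
    · have h2 := hm e he
      have h3 := log_natCast_nonneg (pr e)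
      generalize log (pr e : ℝ) = u at h2 h3
      obtain ⟨h4, h5⟩ := h D ((le_max_left _ _).trans hD) par z hz w hw (L + u) (by linarith)
      have h6 : (L + u) ^ 2 / log w ≤ (L + u + 1) ^ 2 :=
        (div_le_self (sq_nonneg _) (by linarith)).trans (by nlinarith)
      have h7 : ((L + u) / log w + 1) ^ 2 ≤ (L + u + 1) ^ 2 := by
        have := div_le_self (show 0 ≤ L + u by linarith) (show 1 ≤ log (w : ℝ) by linarith)
        have := div_nonneg (show 0 ≤ L + u by linarith) (show 0 ≤ log (w : ℝ) by linarith)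
        gcongr
      have h8 : (L + u + 1) ^ 2 ≤ (m + 1) ^ 2 * (L + 1) ^ 2 := by
        rw [← mul_pow]
        exact pow_le_pow_left₀ (by linarith) (by nlinarith) 2
      refine (add_le_add (h4 (by linarith)) (h5 (by linarith))).trans ?_
      rw [← add_div]
      refine div_le_div_of_nonneg_right ?_ (sq_nonneg _)
      nlinarith
    · rw [← hN, nsmul_eq_mul, ← mul_div_assoc]
      refine div_le_div_of_nonneg_right ?_ (sq_nonneg _)
      nlinarith [sq_nonneg (L + 1)]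
  · refine (chainB_triv hD0 par z L).trans ?_
    rw [le_div_iff₀ (by positivity)]
    have h2 : log D ^ 2 ≤ (4 * (L + 1)) ^ 2 := pow_le_pow_left₀ hD3.le (by linarith) 2
    have h3 : 0 ≤ N * (4 * C₀ * (m + 1) ^ 2) * (L + 1) ^ 2 := by positivity
    nlinarith

theorem cb2 : ∃ C D₀ : ℝ, 0 < C ∧ ∀ D : ℝ, D₀ ≤ D → ∀ z : ℕ,
    (z : ℝ) ≤ D ^ (3 / 5 : ℝ) → ∀ L : ℝ, 0 ≤ L →
    ∑ d ∈ (chains 0 D z).filter
      (fun d => win D L d ∧ Even d.card ∧ d.Nonempty ∧ exp (L / 4) < mn d), 1 / (pr d : ℝ) ≤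
      C * (L + 1) / log D ^ 2 := by
  obtain ⟨l₀, C₀, D₀, hl, hC, h⟩ := chain_main
  obtain ⟨C₁, D₁, hC₁, h₁⟩ := cb1
  obtain ⟨C₂, hC₂, h₂⟩ := rough_window
  refine ⟨C₁ * (20 * l₀ + 1) + 36 * C₀ + 12 * C₂, max (max D₀ D₁) (exp 1), by positivity,
    fun D hD z hz L hL => ?_⟩
  have hD1 := (le_max_right _ _).trans hD
  have hD0 : 0 < D := (exp_pos _).trans_le hD1
  have hD3 : 0 < log D := one_pos.trans_le ((le_log_iff_exp_le hD0).2 hD1)
  have hD4 := (le_max_left _ _).trans hD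
  have a1 : 0 ≤ C₁ * (20 * l₀ + 1) * (L + 1) := by positivity
  have a2 : 0 ≤ C₀ * (L + 1) := by positivity
  have a3 : 0 ≤ C₂ * (L + 1) := by positivity
  rcases le_total L (20 * l₀) with h3 | h3
  · refine le_trans (sum_le_sum_of_subset_of_nonneg (fun d hd => mem_filter.2
      ⟨(mem_filter.1 hd).1, (mem_filter.1 hd).2.1⟩) fun _ _ _ => by positivity)
      ((h₁ D ((le_max_right _ _).trans hD4) 0 z (Or.inr ⟨rfl, hz⟩) L hL).trans ?_)
    refine div_le_div_of_nonneg_right ?_ (sq_nonneg _)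
    have : C₁ * (L + 1) * (L + 1) ≤ C₁ * (20 * l₀ + 1) * (L + 1) := by gcongr
    nlinarith
  have hL0 : 0 < L := by linarith
  have he : 2 ≤ exp (L / 4) := by linarith [add_one_le_exp (L / 4)]
  rcases le_total L (3 / 5 * log D) with h4 | h4
  · have hw : L / 5 ≤ log (⌊exp (L / 4)⌋₊ : ℕ) := by
      have h5 := Nat.lt_floor_add_one (exp (L / 4))
      rw [le_log_iff_exp_le (by linarith)]
      have h6 : exp (L / 4) = exp (L / 5) * exp (L / 20) := by rw [← exp_add]; congr 1; ring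
      have h7 := add_one_le_exp (L / 20)
      have h8 := add_one_le_exp (L / 5)
      nlinarith
    have hw' := Nat.floor_le (exp_pos (L / 4)).le
    generalize ⌊exp (L / 4)⌋₊ = w at hw hw'
    have hw0 : 0 < log (w : ℝ) := by linarith
    refine le_trans (sum_le_sum_of_subset_of_nonneg (fun d hd => ?_) fun _ _ _ => by positivity)
      (((h D ((le_max_left _ _).trans hD4) 0 z (Or.inr ⟨rfl, hz⟩) w (by linarith) L hL).1
        h4).trans ?_)
    · obtain ⟨b1, b2, b3, -, b4⟩ := mem_filter.1 hd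
      refine mem_filter.2 ⟨b1, by rwa [zero_add], fun p hp => ?_, b2⟩
      exact lt_of_lt_of_le (by exact_mod_cast hw'.trans_lt b4) (mn_le hp)
    · refine div_le_div_of_nonneg_right ?_ (sq_nonneg _)
      have h5 : L / log w ≤ 5 := (div_le_iff₀ hw0).2 (by linarith)
      have h6 : L ^ 2 / log w ≤ 5 * L := (div_le_iff₀ hw0).2 (by nlinarith)
      have h7 : (L / log w + 1) ^ 2 ≤ 6 ^ 2 := pow_le_pow_left₀ (by positivity) (by linarith) 2
      have h8 : C₀ * (L ^ 2 / log w + (L / log w + 1) ^ 2) ≤ C₀ * (36 * (L + 1)) :=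
        mul_le_mul_of_nonneg_left (by linarith) hC.le
      nlinarith
  rcases lt_or_ge (D * exp (-L)) (exp 1) with h5 | h5
  · rw [sum_eq_zero fun d hd => ?_]
    · positivity
    obtain ⟨b1, b2, -, b3, b4⟩ := mem_filter.1 hd
    have b5 : (mn d : ℝ) ≤ pr d := by
      exact_mod_cast Nat.le_of_dvd (pr_pos (chainB_prime b1)) (dvd_prod_of_mem _ (mn_mem b3))
    have b6 : exp 1 ≤ exp (L / 4) := exp_le_exp.2 (by linarith)
    linarith [b2.2]
  have h6 := h₂ _ _ he h5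
  rw [log_exp] at h6
  rw [← sum_image (g := pr) (f := fun n : ℕ => 1 / (n : ℝ)) fun d hd d' hd' h =>
    pr_inj (chainB_prime (mem_filter.1 hd).1) (chainB_prime (mem_filter.1 hd').1) h]
  refine le_trans (sum_le_sum_of_subset_of_nonneg (fun n hn => ?_) fun _ _ _ => by positivity)
    (h6.trans ?_)
  · obtain ⟨d, hd, rfl⟩ := mem_image.1 hn
    obtain ⟨b1, b2, -, -, b4⟩ := mem_filter.1 hd
    have b5 := chainB_prime b1
    refine mem_filter.2 ⟨mem_Icc.2 ⟨pr_pos b5, Nat.le_floor b2.2⟩, ?_, fun p hp hpd => ?_⟩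
    · rw [mul_assoc, ← exp_add]
      exact b2.1
    · have b6 : p ∈ d := by
        rw [← primeFactors_pr b5]
        exact Nat.mem_primeFactors.2 ⟨hp, hpd, (pr_pos b5).ne'⟩
      exact b4.trans_le (by exact_mod_cast mn_le b6)
  · rw [div_le_div_iff₀ (by positivity) (by positivity)]
    have h7 : log D ^ 2 ≤ (5 / 3 * L) ^ 2 := pow_le_pow_left₀ hD3.le (by linarith) 2
    have h8 : C₂ * log D ^ 2 ≤ C₂ * (12 * (L + 1) * (L / 4)) :=
      mul_le_mul_of_nonneg_left (by nlinarith) hC₂.le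
    have h9 := mul_nonneg (add_nonneg a1 (mul_nonneg (show (0 : ℝ) ≤ 36 by norm_num) a2)) hL
    nlinarith

end Vale.Agent.P013
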