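import Vale.Agent.P013.Basic

/-!
Combinatorics of the Rosser sieve. Elements of a set `d` are read in decreasing order; `p ∈ d` has
position `(d.filter (p ≤ ·)).card`, and `Ch par D d` imposes `(product of larger elements) * p^3 < D`
when `par + position` is even.

Key facts. If `q` is smaller than all elements of `d`, then for `p ∈ d` both filters are the same in
`insert q d` and in `d`; so `Ch (insert q d) ↔ Ch d ∧ (Even (par + d.card + 1) → pr d * q^3 < D)`
(`ch_insert_min`). Pairing `d ⊆ Q.erase q` with `insert q d` (`q = mn Q`,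
`Finset.powerset_insert` / `sum_powerset_insert`) gives
`lam par D Q = ∑ over d ⊆ Q.erase q with Ch d and ¬ Ch (insert q d) of (-1)^d.card`, and all these `d`
have `par + d.card + 1` even (`lam_eq`): so the sum is `(-1)^(par+1)` times their number.

`pr_lt_of_chain`: `d = ∅`: `1 < D`. Otherwise let `q = mn d`, `d' = d.erase q`. If `par + d.card` is even,
`pr d' * q^3 < D`. If odd and `d' = ∅` then `par` is even and `pr d = q < z ≤ D`. If odd and `d' ≠ ∅`,
with `q' = mn d'`, `pr (d'.erase q') * q'^3 < D` and `q < q'`.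

`sum_lam`: exchange the sums; `d ⊆ Qs z N ↔ d ⊆ primesBelow z ∧ pr d ∣ N` (`pr_dvd_iff`).

`gain_point`: if `Q = ∅` both sides vanish (members of `G` are nonempty). Otherwise `q = mn Q`; the left side
is the number of `d ⊆ Q.erase q` with `Ch 0 D d`, `¬ Ch 0 D (insert q d)`. For `a ∈ G`, `a ⊆ Q`, let
`Qa = Q.filter (· < mn a)`. If `Qa = ∅` the term is `0`. Otherwise `mn Qa = q` and the term is the number of
`e ⊆ Qa.erase q` with `Ch 1 (D / pr a) e`, `¬ Ch 1 (D / pr a) (insert q e)`. The map `(a, e) ↦ a ∪ e` is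
injective (all `a` have `k` elements and lie above `e`: if `a ∪ e = a' ∪ e'` and `x ∈ a \ a'`, `x' ∈ a' \ a`
then `x ∈ e'` gives `x < x'` and symmetrically `x' < x`), and for `e` below `a` one has
`Ch 0 D (a ∪ e) ↔ Ch 1 (D / pr a) e` given `Ch 0 D a` and `k` odd (`ch_union`).

`sieve_gain`: sum `gain_point` over `ν ∈ Icc 1 y` with `Q = Qs z (x + ν)`. Use `sum_lam` for the set of all `ν`
and for the set of `ν` with `pr a ∣ x + ν` (there `(Qs z N).filter (· < mn a) = Qs (mn a) N`, and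
`pr a ∣ N ∧ pr d ∣ N ↔ pr a * pr d ∣ N` for `d` below `a`), `cnt x y q = y / q + Fe x y q`, `abs_Fe_le`,
`card_chains_le`.
-/

namespace Vale.Agent.P013

open Finset Real

open Classical

theorem Comb_lt_erase {d : Finset ℕ} : ∀ p ∈ d.erase (mn d), mn d < p := by
  intro p hp
  rw [mem_erase] at hp
  exact lt_of_le_of_ne (mn_le hp.2) (Ne.symm hp.1)

theorem Comb_mn_insert {d : Finset ℕ} {q : ℕ} (h : ∀ p ∈ d, q < p) : mn (insert q d) = q := by
  refine le_antisymm (mn_le (mem_insert_self _ _)) ?_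
  have := mn_mem (insert_nonempty q d)
  rcases mem_insert.1 this with h1 | h1
  · exact h1.ge
  · exact (h _ h1).le

theorem ch_insert_min {par : ℕ} {D : ℝ} {d : Finset ℕ} {q : ℕ} (h : ∀ p ∈ d, q < p) :
    Ch par D (insert q d) ↔
      Ch par D d ∧ (Even (par + d.card + 1) → (pr d : ℝ) * (q : ℝ) ^ 3 < D) := by
  have hq : q ∉ d := fun hq => lt_irrefl _ (h q hq)
  have e1 : (insert q d).filter (fun r => q ≤ r) = insert q d := by
    refine filter_true_of_mem fun r hr => ?_
    rcases mem_insert.1 hr with rfl | hr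
    · exact le_rfl
    · exact (h r hr).le
  have e2 : (insert q d).filter (fun r => q < r) = d := by
    rw [filter_insert, if_neg (lt_irrefl q)]
    exact filter_true_of_mem h
  have e3 : ∀ p ∈ d, (insert q d).filter (fun r => p ≤ r) = d.filter (fun r => p ≤ r) := by
    intro p hp
    rw [filter_insert, if_neg (not_le.2 (h p hp))]
  have e4 : ∀ p ∈ d, (insert q d).filter (fun r => p < r) = d.filter (fun r => p < r) := by
    intro p hp
    rw [filter_insert, if_neg (not_lt.2 (h p hp).le)]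
  unfold Ch
  rw [forall_mem_insert, e1, e2, card_insert_of_notMem hq, ← add_assoc, and_comm]
  refine and_congr_left fun _ => forall₂_congr fun p hp => ?_
  rw [e3 p hp, e4 p hp]

/-- the elements above any bound form again a chain -/
theorem ch_filter {par : ℕ} {D : ℝ} {d : Finset ℕ} (h : Ch par D d) (w : ℕ) :
    Ch par D (d.filter fun p => w < p) := by
  intro p hp
  rw [mem_filter] at hp
  have e1 : (d.filter fun p => w < p).filter (fun r => p ≤ r) = d.filter (fun r => p ≤ r) := by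
    rw [filter_filter]
    exact filter_congr fun r _ => ⟨fun h => h.2, fun h => ⟨hp.2.trans_le h, h⟩⟩
  have e2 : (d.filter fun p => w < p).filter (fun r => p < r) = d.filter (fun r => p < r) := by
    rw [filter_filter]
    exact filter_congr fun r _ => ⟨fun h => h.2, fun h => ⟨hp.2.trans h, h⟩⟩
  rw [e1, e2]
  exact h p hp.1

theorem ch_union {D : ℝ} {a e : Finset ℕ} (ha : ∀ p ∈ a, p.Prime) (hc : Ch 0 D a)
    (hk : Odd a.card) (h : ∀ p ∈ e, ∀ q ∈ a, p < q) :
    Ch 0 D (a ∪ e) ↔ Ch 1 (D / pr a) e := by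
  have hpa : (0 : ℝ) < pr a := by exact_mod_cast pr_pos ha
  have hdis : Disjoint a e := disjoint_left.2 fun p hpa hpe => lt_irrefl _ (h p hpe p hpa)
  have key : ∀ p ∈ e, (Even (0 + ((a ∪ e).filter fun q => p ≤ q).card) →
      (pr ((a ∪ e).filter fun q => p < q) : ℝ) * (p : ℝ) ^ 3 < D) ↔
      (Even (1 + (e.filter fun q => p ≤ q).card) →
      (pr (e.filter fun q => p < q) : ℝ) * (p : ℝ) ^ 3 < D / pr a) := by
    intro p hp
    have e1 : a.filter (fun q => p ≤ q) = a := filter_true_of_mem fun q hq => (h p hp q hq).le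
    have e2 : a.filter (fun q => p < q) = a := filter_true_of_mem fun q hq => h p hp q hq
    rw [filter_union, filter_union, e1, e2,
      card_union_of_disjoint (hdis.mono_right (filter_subset _ _)),
      pr_union (hdis.mono_right (filter_subset _ _)), lt_div_iff₀ hpa]
    have e3 : Even (0 + (a.card + (e.filter fun q => p ≤ q).card)) ↔
        Even (1 + (e.filter fun q => p ≤ q).card) := by
      obtain ⟨j, hj⟩ := hk
      rw [hj, Nat.even_iff, Nat.even_iff]; omega
    rw [e3]
    push_cast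
    refine imp_congr_right fun _ => ?_
    constructor <;> intro h1 <;> linarith
  constructor
  · intro h1 p hp
    exact (key p hp).1 (h1 p (mem_union_right _ hp))
  · intro h1 p hp
    rcases mem_union.1 hp with hp | hp
    · have e1 : e.filter (fun q => p ≤ q) = ∅ :=
        filter_false_of_mem fun q hq => not_le.2 (h q hq p hp)
      have e2 : e.filter (fun q => p < q) = ∅ :=
        filter_false_of_mem fun q hq => not_lt.2 (h q hq p hp).le
      rw [filter_union, filter_union, e1, e2, union_empty, union_empty]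
      exact hc p hp
    · exact (key p hp).2 (h1 p hp)

theorem Comb_split {par : ℕ} {D : ℝ} {d : Finset ℕ} (hd : d.Nonempty) :
    Ch par D d ↔ Ch par D (d.erase (mn d)) ∧
      (Even (par + d.card) → (pr (d.erase (mn d)) : ℝ) * (mn d : ℝ) ^ 3 < D) := by
  have h1 := ch_insert_min (par := par) (D := D) (Comb_lt_erase (d := d))
  rw [insert_erase (mn_mem hd), add_assoc, card_erase_add_one (mn_mem hd)] at h1
  exact h1

theorem Comb_pr_erase {d : Finset ℕ} (hd : d.Nonempty) :
    (pr d : ℝ) = mn d * pr (d.erase (mn d)) := by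
  have h1 := pr_insert (notMem_erase (mn d) d)
  rw [insert_erase (mn_mem hd)] at h1
  exact_mod_cast h1

theorem pr_lt_of_chain {par z : ℕ} {D : ℝ} (hD : 1 < D) (hz : Odd par ∨ (z : ℝ) ≤ D)
    {d : Finset ℕ} (hd : d ∈ chains par D z) : (pr d : ℝ) < D := by
  unfold chains at hd
  rw [mem_filter, mem_powerset] at hd
  obtain ⟨hs, hc⟩ := hd
  rcases d.eq_empty_or_nonempty with rfl | hne
  · rw [pr_empty]; exact_mod_cast hD
  have hq := Nat.mem_primesBelow.1 (hs (mn_mem hne))
  have hq1 : (1 : ℝ) ≤ mn d := by exact_mod_cast hq.2.one_lt.le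
  obtain ⟨hc1, hc2⟩ := (Comb_split hne).1 hc
  have h0 : (0 : ℝ) ≤ pr (d.erase (mn d)) := Nat.cast_nonneg _
  rw [Comb_pr_erase hne]
  by_cases hev : Even (par + d.card)
  · have h1 := hc2 hev
    have h2 : (mn d : ℝ) ≤ (mn d : ℝ) ^ 3 := le_self_pow₀ hq1 (by norm_num)
    nlinarith
  have hcard := card_erase_add_one (mn_mem hne)
  rcases (d.erase (mn d)).eq_empty_or_nonempty with he | hne'
  · rw [he, pr_empty, Nat.cast_one, mul_one]
    rw [he, card_empty] at hcard
    rcases hz with hz | hz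
    · exfalso; apply hev
      rw [← hcard]
      obtain ⟨j, hj⟩ := hz
      rw [Nat.even_iff]; omega
    · have : (mn d : ℝ) < z := by exact_mod_cast hq.1
      linarith
  · obtain ⟨_, hc4⟩ := (Comb_split hne').1 hc1
    have hev' : Even (par + (d.erase (mn d)).card) := by
      rw [Nat.even_iff] at hev ⊢; omega
    have h1 := hc4 hev'
    rw [Comb_pr_erase hne']
    have h2 : (mn d : ℝ) < mn (d.erase (mn d)) := by
      exact_mod_cast Comb_lt_erase _ (mn_mem hne')
    set u : ℝ := (mn d : ℝ)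
    set v : ℝ := (mn (d.erase (mn d)) : ℝ)
    set w : ℝ := (pr ((d.erase (mn d)).erase (mn (d.erase (mn d)))) : ℝ)
    have h3 : 0 ≤ w := Nat.cast_nonneg _
    have h4 : u * v ≤ v ^ 3 := by
      have : v * v ≤ v ^ 3 := by
        have h5 : 0 ≤ v * v * (v - 1) := by
          have : 0 ≤ v - 1 := by linarith
          have : 0 ≤ v := by linarith
          positivity
        nlinarith
      nlinarith
    nlinarith

theorem Comb_prime {par z : ℕ} {D : ℝ} {d : Finset ℕ} (hd : d ∈ chains par D z) :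
    ∀ p ∈ d, p.Prime := fun _ hp =>
  (Nat.mem_primesBelow.1 (mem_powerset.1 (mem_filter.1 hd).1 hp)).2

theorem card_chains_le {par z : ℕ} {D : ℝ} (hD : 1 < D) (hz : Odd par ∨ (z : ℝ) ≤ D) :
    ((chains par D z).card : ℝ) ≤ D :=
  card_le_of_pr_le (by linarith) fun _ hd => ⟨Comb_prime hd, (pr_lt_of_chain hD hz hd).le⟩

theorem lam_empty (par : ℕ) (D : ℝ) : lam par D ∅ = 1 := by
  unfold lam
  have : (∅ : Finset ℕ).powerset.filter (Ch par D) = {∅} := by
    rw [powerset_empty]
    refine filter_true_of_mem fun d hd => ?_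
    rw [mem_singleton.1 hd]
    intro p hp
    exact absurd hp (notMem_empty p)
  rw [this, sum_singleton, card_empty, pow_zero]

theorem lam_eq (par : ℕ) (D : ℝ) {Q : Finset ℕ} (hQ : Q.Nonempty) :
    lam par D Q = (-1) ^ (par + 1) * (((Q.erase (mn Q)).powerset.filter fun d =>
      Ch par D d ∧ ¬ Ch par D (insert (mn Q) d)).card : ℝ) := by
  unfold lam
  rw [sum_filter, card_filter]
  conv_lhs => rw [← insert_erase (mn_mem hQ)]
  rw [sum_powerset_insert (notMem_erase _ _), ← sum_add_distrib]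
  push_cast
  rw [mul_sum]
  refine sum_congr rfl fun d hd => ?_
  have hlt : ∀ p ∈ d, mn Q < p := fun p hp => Comb_lt_erase p (mem_powerset.1 hd hp)
  have hq : mn Q ∉ d := fun hq => lt_irrefl _ (hlt _ hq)
  have hi := ch_insert_min (par := par) (D := D) hlt
  by_cases h1 : Ch par D d
  · by_cases h2 : Ch par D (insert (mn Q) d)
    · rw [if_pos h1, if_pos h2, if_neg (fun h => h.2 h2), card_insert_of_notMem hq, pow_succ]
      ring
    · rw [if_pos h1, if_neg h2, if_pos ⟨h1, h2⟩, add_zero, mul_one]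
      have hev : Even (par + d.card + 1) := by
        by_contra hne
        exact h2 (hi.2 ⟨h1, fun h => absurd h hne⟩)
      rcases Nat.even_or_odd d.card with h3 | h3
      · have : Even (par + 1) := by
          rw [Nat.even_iff] at hev h3 ⊢; omega
        rw [h3.neg_one_pow, this.neg_one_pow]
      · have : Odd (par + 1) := by
          rw [Nat.even_iff] at hev; rw [Nat.odd_iff] at h3 ⊢; omega
        rw [h3.neg_one_pow, this.neg_one_pow]
  · rw [if_neg h1, if_neg (fun h => h1 (hi.1 h).1), if_neg (fun h => h1 h.1)]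
    ring

theorem lam_upper (D : ℝ) (Q : Finset ℕ) : 0 ≤ lam 1 D Q := by
  rcases Q.eq_empty_or_nonempty with rfl | hQ
  · rw [lam_empty]; exact zero_le_one
  · rw [lam_eq 1 D hQ]
    positivity

theorem lam_lower (D : ℝ) {z : ℕ} {Q : Finset ℕ} (hQ : Q ⊆ Nat.primesBelow z) :
    -(((disc D z).filter fun e => e ⊆ Q ∧ mn e = mn Q).card : ℝ) ≤ lam 0 D Q := by
  rcases Q.eq_empty_or_nonempty with rfl | hne
  · rw [lam_empty]
    exact (neg_nonpos.2 (Nat.cast_nonneg _)).trans zero_le_one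
  rw [lam_eq 0 D hne, zero_add, pow_one, neg_one_mul, neg_le_neg_iff, Nat.cast_le]
  refine card_le_card_of_injOn (insert (mn Q)) (fun d hd => ?_) fun d hd e he hde => ?_
  · rw [mem_coe, mem_filter, mem_powerset] at hd
    have hlt : ∀ p ∈ d, mn Q < p := fun p hp => Comb_lt_erase p (hd.1 hp)
    have hq : mn Q ∉ d := fun hq => lt_irrefl _ (hlt _ hq)
    have hsub : insert (mn Q) d ⊆ Q :=
      insert_subset (mn_mem hne) (hd.1.trans (erase_subset _ _))
    rw [mem_coe, mem_filter]
    refine ⟨?_, hsub, Comb_mn_insert hlt⟩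
    unfold disc
    rw [mem_filter, mem_powerset, Comb_mn_insert hlt, erase_insert hq]
    exact ⟨hsub.trans hQ, insert_nonempty _ _, hd.2⟩
  · rw [mem_coe, mem_filter, mem_powerset] at hd he
    have h1 : mn Q ∉ d := fun hq => notMem_erase _ _ (hd.1 hq)
    have h2 : mn Q ∉ e := fun hq => notMem_erase _ _ (he.1 hq)
    rw [← erase_insert h1, hde, erase_insert h2]

theorem disc_spec {D : ℝ} {z : ℕ} {e : Finset ℕ} (he : e ∈ disc D z) :
    e.Nonempty ∧ Even e.card ∧ D ≤ (pr (e.erase (mn e)) : ℝ) * (mn e : ℝ) ^ 3 := by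
  unfold disc at he
  obtain ⟨_, hne, h1, h2⟩ := mem_filter.1 he
  rw [Comb_split hne, zero_add, not_and] at h2
  have h3 := h2 h1
  rw [Classical.not_imp, not_lt] at h3
  exact ⟨hne, h3⟩

theorem sum_lam (par : ℕ) (D : ℝ) (z : ℕ) (I : Finset ℕ) (f : ℕ → ℕ) :
    ∑ N ∈ I, lam par D (Qs z (f N)) =
      ∑ d ∈ chains par D z, (-1) ^ d.card * ((I.filter fun N => pr d ∣ f N).card : ℝ) := by
  have h1 : ∀ N, lam par D (Qs z N) =
      ∑ d ∈ chains par D z, if pr d ∣ N then (-1 : ℝ) ^ d.card else 0 := by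
    intro N
    unfold lam
    rw [← sum_filter]
    refine sum_congr ?_ fun _ _ => rfl
    ext d
    unfold chains Qs
    simp only [mem_filter, mem_powerset]
    constructor
    · rintro ⟨h1, h2⟩
      have h3 : d ⊆ Nat.primesBelow z := h1.trans (filter_subset _ _)
      exact ⟨⟨h3, h2⟩, (pr_dvd_iff fun p hp => (Nat.mem_primesBelow.1 (h3 hp)).2).2
        fun p hp => (mem_filter.1 (h1 hp)).2⟩
    · rintro ⟨⟨h3, h2⟩, h4⟩
      exact ⟨fun p hp => mem_filter.2 ⟨h3 hp,
        (pr_dvd_iff fun p hp => (Nat.mem_primesBelow.1 (h3 hp)).2).1 h4 p hp⟩, h2⟩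
  simp_rw [h1]
  rw [sum_comm]
  refine sum_congr rfl fun d _ => ?_
  rw [← sum_filter, sum_const, nsmul_eq_mul, mul_comm]

theorem Comb_inj {a a' e e' : Finset ℕ} (hc : a.card = a'.card) (h : ∀ p ∈ e, ∀ q ∈ a, p < q)
    (h' : ∀ p ∈ e', ∀ q ∈ a', p < q) (hu : a ∪ e = a' ∪ e') : a = a' ∧ e = e' := by
  have h1 : a = a' := by
    by_contra hne
    have h2 : ¬ a ⊆ a' := fun hs => hne (eq_of_subset_of_card_le hs hc.ge)
    have h3 : ¬ a' ⊆ a := fun hs => hne (eq_of_subset_of_card_le hs hc.le).symm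
    obtain ⟨u, hu1, hu2⟩ := not_subset.1 h2
    obtain ⟨v, hv1, hv2⟩ := not_subset.1 h3
    have h4 : u ∈ a' ∪ e' := hu ▸ mem_union_left _ hu1
    have h5 : v ∈ a ∪ e := hu.symm ▸ mem_union_left _ hv1
    have h6 := h' u ((mem_union.1 h4).resolve_left hu2) v hv1
    have h7 := h v ((mem_union.1 h5).resolve_left hv2) u hu1
    omega
  subst h1
  refine ⟨rfl, ?_⟩
  ext p
  constructor
  · intro hp
    have h4 : p ∈ a ∪ e' := hu ▸ mem_union_right _ hp
    exact (mem_union.1 h4).resolve_left fun hq => lt_irrefl _ (h p hp p hq)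
  · intro hp
    have h4 : p ∈ a ∪ e := hu.symm ▸ mem_union_right _ hp
    exact (mem_union.1 h4).resolve_left fun hq => lt_irrefl _ (h' p hp p hq)

theorem gain_point {D : ℝ} {Q : Finset ℕ} (hQ : ∀ p ∈ Q, p.Prime) {G : Finset (Finset ℕ)} {k : ℕ}
    (hk : Odd k) (hG : ∀ a ∈ G, Ch 0 D a ∧ a.card = k) :
    ∑ a ∈ G.filter (fun a => a ⊆ Q), (lam 1 (D / pr a) (Q.filter fun p => p < mn a) -
        if (Q.filter fun p => p < mn a) = ∅ then 1 else 0) ≤
      (if Q = ∅ then 1 else 0) - lam 0 D Q := by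
  have hne : ∀ a ∈ G, a.Nonempty := fun a ha => by
    rw [← card_pos, (hG a ha).2]; exact hk.pos
  rcases Q.eq_empty_or_nonempty with rfl | hQn
  · rw [if_pos rfl, lam_empty, sub_self]
    refine (sum_eq_zero fun a ha => ?_).le
    rw [mem_filter] at ha
    exact absurd (subset_empty.1 ha.2) (hne a ha.1).ne_empty
  rw [if_neg hQn.ne_empty, lam_eq 0 D hQn, zero_add, pow_one, neg_one_mul, zero_sub, neg_neg]
  let T : Finset ℕ → Finset (Finset ℕ) := fun a =>
    ((Q.filter fun p => p < mn a).erase (mn Q)).powerset.filter fun e =>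
      mn Q < mn a ∧ Ch 1 (D / pr a) e ∧ ¬ Ch 1 (D / pr a) (insert (mn Q) e)
  have h1 : ∀ a, (lam 1 (D / pr a) (Q.filter fun p => p < mn a) -
      if (Q.filter fun p => p < mn a) = ∅ then 1 else 0) = ((T a).card : ℝ) := by
    intro a
    by_cases hq : mn Q < mn a
    · have hmem : mn Q ∈ Q.filter fun p => p < mn a := mem_filter.2 ⟨mn_mem hQn, hq⟩
      have hn : (Q.filter fun p => p < mn a).Nonempty := ⟨_, hmem⟩
      have hm : mn (Q.filter fun p => p < mn a) = mn Q :=
        le_antisymm (mn_le hmem) (mn_le (mem_filter.1 (mn_mem hn)).1)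
      rw [if_neg hn.ne_empty, lam_eq 1 _ hn, hm, sub_zero]
      have : T a = ((Q.filter fun p => p < mn a).erase (mn Q)).powerset.filter fun e =>
          Ch 1 (D / pr a) e ∧ ¬ Ch 1 (D / pr a) (insert (mn Q) e) :=
        filter_congr fun e _ => by rw [and_iff_right hq]
      rw [this]; norm_num
    · have he : (Q.filter fun p => p < mn a) = ∅ :=
        filter_false_of_mem fun p hp h => hq ((mn_le hp).trans_lt h)
      have : T a = ∅ := filter_false_of_mem fun e _ h => hq h.1
      rw [this, if_pos he, he, lam_empty, sub_self, card_empty, Nat.cast_zero]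
  simp_rw [h1]
  rw [← Nat.cast_sum, Nat.cast_le, ← card_sigma]
  have hT : ∀ a e, e ∈ T a → ∀ p ∈ e, ∀ q ∈ a, p < q := by
    intro a e he p hp q hq
    have h2 := mem_powerset.1 (mem_filter.1 he).1 hp
    exact (mem_filter.1 (mem_erase.1 h2).2).2.trans_le (mn_le hq)
  refine card_le_card_of_injOn (fun s => s.1 ∪ s.2) (fun s hs => ?_) fun s hs t ht hst => ?_
  · obtain ⟨a, e⟩ := s
    rw [mem_coe, mem_sigma, mem_filter] at hs
    obtain ⟨⟨haG, haQ⟩, he⟩ := hs
    dsimp only at haG haQ he ⊢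
    have hlt := hT a e he
    obtain ⟨he1, hq, he2, he3⟩ := mem_filter.1 he
    rw [mem_powerset] at he1
    have hap : ∀ p ∈ a, p.Prime := fun p hp => hQ p (haQ hp)
    have hko : Odd a.card := (hG a haG).2 ▸ hk
    rw [mem_coe, mem_filter, mem_powerset]
    refine ⟨union_subset (fun p hp => mem_erase.2 ⟨?_, haQ hp⟩)
      (he1.trans (erase_subset_erase _ (filter_subset _ _))),
      (ch_union hap (hG a haG).1 hko hlt).2 he2, fun h => he3 ?_⟩
    · exact (hq.trans_le (mn_le hp)).ne'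
    · rw [← union_insert] at h
      refine (ch_union hap (hG a haG).1 hko fun p hp r hr => ?_).1 h
      rcases mem_insert.1 hp with rfl | hp
      · exact hq.trans_le (mn_le hr)
      · exact hlt p hp r hr
  · obtain ⟨a, e⟩ := s
    obtain ⟨a', e'⟩ := t
    rw [mem_coe, mem_sigma, mem_filter] at hs ht
    obtain ⟨rfl, rfl⟩ := Comb_inj ((hG a hs.1.1).2.trans (hG a' ht.1.1).2.symm)
      (hT a e hs.2) (hT a' e' ht.2) hst
    rfl

theorem Comb_main (x y : ℕ) {par z a : ℕ} {D : ℝ} (hD : 1 < D) (hz : Odd par ∨ (z : ℝ) ≤ D)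
    (ha : 1 ≤ a) : (y : ℝ) / a * Mm par D z - D ≤
      ∑ d ∈ chains par D z, (-1) ^ d.card * (cnt x y (a * pr d) : ℝ) := by
  have h1 : ∀ d ∈ chains par D z, (y : ℝ) / a * ((-1) ^ d.card / (pr d : ℝ)) - 1 ≤
      (-1) ^ d.card * (cnt x y (a * pr d) : ℝ) := by
    intro d hd
    have h2 := abs_le.1 (abs_Fe_le x y (q := a * pr d)
      (Nat.mul_pos ha (pr_pos (Comb_prime hd))))
    unfold Fe at h2
    have h3 : (y : ℝ) / a * ((-1) ^ d.card / (pr d : ℝ)) =
        (-1) ^ d.card * ((y : ℝ) / ((a * pr d : ℕ) : ℝ)) := by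
      push_cast
      rw [div_mul_div_comm, mul_div_assoc']
      ring
    rw [h3]
    rcases neg_one_pow_eq_or ℝ d.card with h | h <;> rw [h] <;> linarith [h2.1, h2.2]
  have h4 := sum_le_sum h1
  rw [sum_sub_distrib, ← mul_sum, sum_const, nsmul_eq_mul, mul_one] at h4
  have h5 := card_chains_le hD hz
  unfold Mm
  linarith

theorem Comb_Sv (x y a z : ℕ) :
    ∑ ν ∈ (Icc 1 y).filter (fun ν => a ∣ x + ν), (if Qs z (x + ν) = ∅ then (1 : ℝ) else 0) =
      Sv x y a z := by
  rw [← sum_filter, sum_const, nsmul_eq_mul, mul_one, filter_filter]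
  unfold Sv Qs
  congr 2
  refine filter_congr fun ν _ => ?_
  rw [filter_eq_empty_iff]

theorem sieve_gain (x y z : ℕ) {D : ℝ} (hD : 1 < D) (hz : (z : ℝ) ≤ D)
    {G : Finset (Finset ℕ)} {k : ℕ} (hk : Odd k)
    (hG : ∀ a ∈ G, a ∈ chains 0 D z ∧ a.card = k ∧ 1 < D / pr a) :
    y * Mm 0 D z - D + ∑ a ∈ G, ((y : ℝ) / pr a * Mm 1 (D / pr a) (mn a) - D / pr a -
      Sv x y (pr a) (mn a)) ≤ Sv x y 1 z := by
  have h1 := sum_le_sum fun ν (_ : ν ∈ Icc 1 y) => gain_point (D := D) (Q := Qs z (x + ν))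
    (fun p hp => (Nat.mem_primesBelow.1 (mem_filter.1 hp).1).2) (G := G) hk
    fun a ha => ⟨(mem_filter.1 (hG a ha).1).2, (hG a ha).2.1⟩
  have h2 := Comb_Sv x y 1 z
  rw [filter_true_of_mem fun ν _ => one_dvd _] at h2
  have h3 := Comb_main x y (par := 0) (a := 1) hD (Or.inr hz) le_rfl
  rw [sum_sub_distrib, h2, sum_lam 0 D z (Icc 1 y) fun ν => x + ν] at h1
  simp only [one_mul, Nat.cast_one, div_one, cnt] at h3
  have h4 : ∑ a ∈ G, ((y : ℝ) / pr a * Mm 1 (D / pr a) (mn a) - D / pr a -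
      Sv x y (pr a) (mn a)) ≤ ∑ ν ∈ Icc 1 y, ∑ a ∈ G.filter (fun a => a ⊆ Qs z (x + ν)),
        (lam 1 (D / pr a) ((Qs z (x + ν)).filter fun p => p < mn a) -
          if ((Qs z (x + ν)).filter fun p => p < mn a) = ∅ then 1 else 0) := by
    simp_rw [sum_filter (s := G)]
    rw [sum_comm]
    refine sum_le_sum fun a ha => ?_
    obtain ⟨hc, hcard, hDa⟩ := hG a ha
    have hap := Comb_prime hc
    have hsub : a ⊆ Nat.primesBelow z := mem_powerset.1 (mem_filter.1 hc).1
    have hne : a.Nonempty := by rw [← card_pos, hcard]; exact hk.pos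
    have hmz : mn a < z := (Nat.mem_primesBelow.1 (hsub (mn_mem hne))).1
    have e1 : ∀ N, (Qs z N).filter (fun p => p < mn a) = Qs (mn a) N := by
      intro N
      ext p
      simp only [Qs, mem_filter, Nat.mem_primesBelow]
      exact ⟨fun h => ⟨⟨h.2, h.1.1.2⟩, h.1.2⟩, fun h => ⟨⟨⟨h.1.1.trans hmz, h.1.2⟩, h.2⟩, h.1.1⟩⟩
    have e2 : (Icc 1 y).filter (fun ν => a ⊆ Qs z (x + ν)) =
        (Icc 1 y).filter (fun ν => pr a ∣ x + ν) := by
      refine filter_congr fun ν _ => ?_
      rw [pr_dvd_iff hap]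
      exact ⟨fun h p hp => (mem_filter.1 (h hp)).2, fun h p hp => mem_filter.2 ⟨hsub hp, h p hp⟩⟩
    simp_rw [e1]
    rw [← sum_filter, e2, sum_sub_distrib, Comb_Sv,
      sum_lam 1 (D / pr a) (mn a) _ fun ν => x + ν]
    have h5 := Comb_main x y (par := 1) (z := mn a) (a := pr a) hDa (Or.inl odd_one) (pr_pos hap)
    refine sub_le_sub_right (h5.trans (le_of_eq (sum_congr rfl fun d hd => ?_))) _
    have hdp := Comb_prime hd
    have hdis : Disjoint a d := disjoint_left.2 fun p hpa hpd =>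
      not_lt.2 (mn_le hpa) (Nat.mem_primesBelow.1 (mem_powerset.1 (mem_filter.1 hd).1 hpd)).1
    unfold cnt
    rw [filter_filter]
    congr 3
    refine filter_congr fun ν _ => ?_
    rw [← pr_union hdis, pr_dvd_iff hap, pr_dvd_iff hdp, pr_dvd_iff fun p hp =>
      (mem_union.1 hp).elim (hap p) (hdp p), forall_mem_union]
  linarith

end Vale.Agent.P013
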