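import Vale.Agent.P013.DirB
import Vale.Agent.P013.Mert

/-!
The concurrent case. `ε = 1 / 100`, `s₀, W₀` from `dirB`, `d₀ = min (1 / 10) (δ / (40 s₀))`. `Γ = α x + γ`, `P' = P^(1+η)`,
`ℒ = log y`, `N₀ = α y / ℒ²`. For `ν` counted in `Sv x y (p A) W` put `N = α ν - γ`, so `α (x + ν) = Γ + N`, `p A ∣ N`
and `Surv α W (Γ + N)`.
* `|N| ≤ N₀`: `ν` lies in an interval of length `2 y / ℒ²` and `p A ∣ x + ν`; at most `2 y / (ℒ² p A) + 1` values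
  (compare `abs_Fe_le`). In total at most `2 y / (ℒ² A) * ∑ 1 / p + P'`, with `∑ p ∈ PR P P', 1 / p ≤ M` (`mert_sq`,
  `P' ≤ P²`) and `P' ≤ y / (A w^(6/5))`.
* `N > N₀`: `N = A k p`, `N₁⁺ = max N₀ (-γ) < N ≤ N₂⁺ = α y - γ`.
* `N < -N₀`: `-N = A k p`, `N₁⁻ = max N₀ (γ - α y - 1) < -N ≤ N₂⁻ = γ - 1`.
`(p, ν) ↦ (k, p)` is injective in each of the last two cases; if `N₂ < N₁` the case is empty, otherwise `dirB`
(`W A P' ≤ 2 w A P' ≤ y / ℒ² ≤ N₀`). The lengths `N₂ - N₁` of the nonempty cases add up to at most `α y`;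
`N₂ ≤ N₁ + α y ≤ (1 + ℒ²) N₁`, so `1 + log (N₂ P' / (N₁ P)) ≤ 1 + log (1 + ℒ²) + η log P ≤ (1 + ε) η log P`
(`log P ≥ ℒ / 5`); `log W ≥ log w`; `(1 + ε)³ ≤ 1.031`. Errors: `N₂ ≤ 2 y^(1 + d₅)`, `W^s₀ ≤ 2^s₀ y^(δ / 40)`,
`P'^(1-δ) / P ≤ P^(-δ/2) ≤ y^(-δ/10)`, so they are `O(y^(1 - δ/20) / A)`. All errors are eventually below
`0.019 η y / (A ℒ) ≤ 0.019 η y / (A log w)`.
-/

namespace Vale.Agent.P013

open Finset Real Filter

open Classical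

theorem DirC_near (x y α q : ℕ) (γ : ℤ) {N₀ : ℝ} (hN : 0 ≤ N₀) (hα : 1 ≤ α) (hq : 1 ≤ q) :
    (((Icc 1 y).filter fun ν : ℕ => q ∣ x + ν ∧ |(α : ℝ) * ν - γ| ≤ N₀).card : ℝ) ≤
      2 * N₀ / (α * q) + 1 := by
  set T := (Icc 1 y).filter fun ν : ℕ => q ∣ x + ν ∧ |(α : ℝ) * ν - γ| ≤ N₀ with hT
  have hα' : (0 : ℝ) < α := by exact_mod_cast hα
  have hq' : (0 : ℝ) < q := by exact_mod_cast hq
  rcases T.eq_empty_or_nonempty with h | h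
  · rw [h]; simp only [card_empty, Nat.cast_zero]; positivity
  have h0 := mem_filter.1 (T.min'_mem h)
  set m := T.min' h
  have hd : ∀ ν ∈ T, m ≤ ν ∧ q ∣ ν - m := fun ν hν => by
    have h1 := T.min'_le ν hν
    refine ⟨h1, ?_⟩
    have := Nat.dvd_sub (mem_filter.1 hν).2.1 h0.2.1
    rwa [Nat.add_sub_add_left] at this
  have h1 : T.card ≤ (range (⌊2 * N₀ / (α * q)⌋₊ + 1)).card := by
    refine card_le_card_of_injOn (fun ν => (ν - m) / q) (fun ν hν => ?_) fun a ha b hb hab => ?_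
    · rw [mem_coe] at hν
      rw [mem_coe, mem_range, Nat.lt_succ_iff]
      refine Nat.le_floor (Nat.cast_div_le.trans ?_)
      rw [Nat.cast_sub (hd ν hν).1, div_le_div_iff₀ hq' (by positivity)]
      have h2 := abs_le.1 (mem_filter.1 hν).2.2
      have h3 := abs_le.1 h0.2.2
      have h4 : ((ν : ℝ) - m) * α ≤ 2 * N₀ := by linarith
      nlinarith
    · have h2 := Nat.div_mul_cancel (hd a ha).2
      have h3 := Nat.div_mul_cancel (hd b hb).2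
      simp only at hab
      rw [hab] at h2
      have := (hd a ha).1
      have := (hd b hb).1
      omega
  rw [card_range] at h1
  have h2 : (T.card : ℝ) ≤ (⌊2 * N₀ / (α * q)⌋₊ : ℝ) + 1 := by exact_mod_cast h1
  exact h2.trans (by linarith [Nat.floor_le (a := 2 * N₀ / (α * q)) (by positivity)])

theorem DirC_far (x y α A W : ℕ) (γ ς : ℤ) {P P' N₁ N₂ : ℝ} (hα : 1 ≤ α) (hA : 1 ≤ A)
    (hς : ς = 1 ∨ ς = -1) (hN : 0 ≤ N₁) :
    ∑ p ∈ (PR P P').filter (fun p => ((p * A : ℕ) : ℤ) ∣ α * x + γ),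
      (((Icc 1 y).filter fun ν : ℕ => (p * A ∣ x + ν ∧ ∀ r ∈ Nat.primesBelow W, ¬ r ∣ x + ν) ∧
        N₁ < ς * ((α : ℝ) * ν - γ) ∧ ς * ((α : ℝ) * ν - γ) ≤ N₂).card : ℝ) ≤
      (((Icc 1 ⌊N₂⌋₊ ×ˢ PR P P').filter fun kp : ℕ × ℕ =>
          N₁ < (A : ℝ) * kp.1 * kp.2 ∧ (A : ℝ) * kp.1 * kp.2 ≤ N₂ ∧
          Surv α W (α * x + γ + ς * A * kp.1 * kp.2)).card : ℝ) := by
  rw [← Nat.cast_sum, Nat.cast_le, ← card_sigma]
  have hς2 : ς * ς = 1 := by rcases hς with rfl | rfl <;> norm_num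
  have key : ∀ p ν : ℕ, ((p * A : ℕ) : ℤ) ∣ α * x + γ → p * A ∣ x + ν →
      N₁ < ς * ((α : ℝ) * ν - γ) →
      (A : ℤ) * ((ς * (α * ν - γ)).toNat / (A * p) : ℕ) * p = ς * (α * ν - γ) := by
    intro p ν h1 h2 h3
    have h4 : 0 ≤ ς * (α * ν - γ) := by
      have : (0 : ℝ) ≤ ς * ((α : ℝ) * ν - γ) := hN.trans h3.le
      exact_mod_cast this
    have h5 : ((A * p : ℕ) : ℤ) ∣ ς * (α * ν - γ) := by
      refine Dvd.dvd.mul_left ?_ _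
      have h6 : ((p * A : ℕ) : ℤ) ∣ α * ((x + ν : ℕ) : ℤ) :=
        Dvd.dvd.mul_left (Int.natCast_dvd_natCast.2 h2) _
      have := dvd_sub h6 h1
      rw [mul_comm A p]
      convert this using 1
      push_cast; ring
    rw [← Int.toNat_of_nonneg h4, Int.natCast_dvd_natCast] at h5
    have h7 := Nat.mul_div_cancel' h5
    conv_rhs => rw [← Int.toNat_of_nonneg h4, ← h7]
    push_cast; ring
  refine card_le_card_of_injOn (fun s => ((ς * (α * s.2 - γ)).toNat / (A * s.1), s.1))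
    (fun s hs => ?_) fun s hs t ht hst => ?_
  · obtain ⟨p, ν⟩ := s
    simp only [mem_coe, mem_sigma, mem_filter] at hs
    obtain ⟨⟨hp, hd⟩, hν, ⟨h1, h2⟩, h3, h4⟩ := hs
    have e := key p ν hd h1 h3
    set k := (ς * (α * ν - γ)).toNat / (A * p)
    have e' : (A : ℝ) * k * p = ς * ((α : ℝ) * ν - γ) := by exact_mod_cast e
    have hp1 : (1 : ℝ) ≤ p := by exact_mod_cast (prime_of_mem_PR hp).one_le
    have hA1 : (1 : ℝ) ≤ A := by exact_mod_cast hA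
    have e2 : (α : ℤ) * x + γ + ς * A * k * p = α * ((x + ν : ℕ) : ℤ) := by
      push_cast
      linear_combination ς * e + (α * ν - γ) * hς2
    simp only [mem_coe, mem_filter, mem_product, mem_Icc]
    refine ⟨⟨⟨?_, Nat.le_floor ?_⟩, hp⟩, e' ▸ h3, e' ▸ h4, ?_⟩
    · rcases Nat.eq_zero_or_pos k with h | h
      · rw [h] at e'; simp only [Nat.cast_zero, mul_zero, zero_mul] at e'; linarith
      · exact h
    · have hk : (0 : ℝ) ≤ k := Nat.cast_nonneg k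
      have : (k : ℝ) ≤ A * k * p :=
        calc (k : ℝ) = 1 * k * 1 := by ring
          _ ≤ _ := by gcongr
      linarith
    · rw [e2]
      refine ⟨Dvd.intro _ rfl, fun r hr hdv => h2 r hr ?_⟩
      push_cast at hdv
      have := (mul_dvd_mul_iff_left (by exact_mod_cast (by omega : α ≠ 0))).1 hdv
      exact_mod_cast this
  · obtain ⟨p, ν⟩ := s
    obtain ⟨p', ν'⟩ := t
    simp only [mem_coe, mem_sigma, mem_filter] at hs ht
    simp only [Prod.mk.injEq] at hst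
    obtain ⟨h1, rfl⟩ := hst
    have e1 := key p ν hs.1.2 hs.2.2.1.1 hs.2.2.2.1
    have e2 := key p ν' ht.1.2 ht.2.2.1.1 ht.2.2.2.1
    rw [h1, e2] at e1
    have e3 : (α : ℤ) * ν = α * ν' := by
      linear_combination (-ς) * e1 + (α * ν' - α * ν) * hς2
    have e4 : (ν : ℤ) = ν' := mul_left_cancel₀ (by exact_mod_cast (by omega : α ≠ 0)) e3
    have e5 : ν = ν' := by exact_mod_cast e4
    rw [e5]

theorem DirC_split (x y α q W : ℕ) (γ : ℤ) (N₀ : ℝ) (hα : 1 ≤ α) :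
    (Sv x y q W : ℝ) ≤
      (((Icc 1 y).filter fun ν : ℕ => q ∣ x + ν ∧ |(α : ℝ) * ν - γ| ≤ N₀).card : ℝ) +
      (((Icc 1 y).filter fun ν : ℕ => (q ∣ x + ν ∧ ∀ r ∈ Nat.primesBelow W, ¬ r ∣ x + ν) ∧
        max N₀ (-γ) < (1 : ℤ) * ((α : ℝ) * ν - γ) ∧
          (1 : ℤ) * ((α : ℝ) * ν - γ) ≤ α * y - γ).card : ℝ) +
      (((Icc 1 y).filter fun ν : ℕ => (q ∣ x + ν ∧ ∀ r ∈ Nat.primesBelow W, ¬ r ∣ x + ν) ∧
        max N₀ (γ - α * y - 1) < (-1 : ℤ) * ((α : ℝ) * ν - γ) ∧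
          (-1 : ℤ) * ((α : ℝ) * ν - γ) ≤ γ - 1).card : ℝ) := by
  rw [← Nat.cast_add, ← Nat.cast_add, Nat.cast_le]
  refine le_trans (card_le_card ?_) ((card_union_le _ _).trans
    (Nat.add_le_add_right (card_union_le _ _) _))
  intro ν hν
  simp only [mem_filter, mem_union, max_lt_iff, Int.cast_one, Int.cast_neg] at hν ⊢
  have h1 : (1 : ℝ) ≤ ν := by exact_mod_cast (mem_Icc.1 hν.1).1
  have h2 : (ν : ℝ) ≤ y := by exact_mod_cast (mem_Icc.1 hν.1).2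
  have h3 : (1 : ℝ) ≤ α := by exact_mod_cast hα
  have h4 : (1 : ℝ) ≤ α * ν := one_le_mul_of_one_le_of_one_le h3 h1
  have h5 : (α : ℝ) * ν ≤ α * y := by gcongr
  by_cases hn : |(α : ℝ) * ν - γ| ≤ N₀
  · exact Or.inl (Or.inl ⟨hν.1, hν.2.1, hn⟩)
  rcases lt_abs.1 (not_le.1 hn) with h | h
  · exact Or.inl (Or.inr ⟨hν.1, hν.2, ⟨by linarith, by linarith⟩, by linarith⟩)
  · exact Or.inr ⟨hν.1, hν.2, ⟨by linarith, by linarith⟩, by linarith⟩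

theorem DirC_log {L P η N₁ N₂ a : ℝ} (hL : 1 ≤ log L) (hL0 : 0 < L) (hη : 0 < η) (hP : 1 < P)
    (h1 : 2000 / η * log L ≤ L) (h2 : L / 5 ≤ log P) (ha : 0 < a) (h3 : a / L ^ 2 ≤ N₁)
    (h4 : N₁ ≤ N₂) (h5 : N₂ ≤ N₁ + a) :
    1 + log (N₂ * P ^ (1 + η) / (N₁ * P)) ≤ (1 + 1 / 100) * η * log P := by
  have hN : 0 < N₁ := lt_of_lt_of_le (by positivity) h3
  have hN2 : 0 < N₂ := hN.trans_le h4
  have hP0 : 0 < P := by linarith
  have hL1 : 1 ≤ L := by linarith [log_le_sub_one_of_pos hL0]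
  have e1 : N₂ * P ^ (1 + η) / (N₁ * P) = N₂ / N₁ * P ^ η := by
    rw [rpow_add hP0, rpow_one]; field_simp
  have e2 : N₂ / N₁ ≤ 2 * L ^ 2 := by
    rw [div_le_iff₀ hN]
    rw [div_le_iff₀ (by positivity)] at h3
    have : N₁ ≤ N₁ * L ^ 2 := le_mul_of_one_le_right hN.le (one_le_pow₀ hL1)
    linarith
  have e3 : log (N₂ / N₁) ≤ 1 + 2 * log L := by
    refine (log_le_log (by positivity) e2).trans ?_
    rw [log_mul (by norm_num) (by positivity), log_pow]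
    have := log_two_lt_d9
    push_cast; linarith
  rw [e1, log_mul (by positivity) (by positivity), log_rpow hP0]
  rw [div_mul_eq_mul_div, div_le_iff₀ hη] at h1
  nlinarith [mul_le_mul_of_nonneg_left h2 hη.le]

theorem DirC_one {c lP lw lW α A η N₁ N₂ G E E' : ℝ} (hP : 1 ≤ lP) (hw : 0 < lw) (hW : lw ≤ lW)
    (hα : 0 < α) (hA : 0 < A) (hη : 0 < η) (hN : N₁ ≤ N₂) (hG : G ≤ (1 + 1 / 100) * η * lP)
    (hE : E ≤ E') (hE' : 0 ≤ E')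
    (h : c * lP ≤ (1 + 1 / 100) ^ 2 * (N₂ - N₁) / (α * A * lW) * G + E) :
    c ≤ 1031 / 1000 * η * (N₂ - N₁) / (α * A * lw) + E' := by
  have h0 : 0 ≤ N₂ - N₁ := sub_nonneg.2 hN
  have hW0 : 0 < lW := hw.trans_le hW
  have h1 : (1 + 1 / 100) ^ 2 * (N₂ - N₁) / (α * A * lW) * G ≤
      (1031 / 1000 * η * (N₂ - N₁) / (α * A * lw)) * lP := by
    calc _ ≤ (1 + 1 / 100) ^ 2 * (N₂ - N₁) / (α * A * lW) * ((1 + 1 / 100) * η * lP) := by gcongr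
      _ ≤ (1 + 1 / 100) ^ 2 * (N₂ - N₁) / (α * A * lw) * ((1 + 1 / 100) * η * lP) := by gcongr
      _ = (1 + 1 / 100) ^ 3 * (η * (N₂ - N₁) / (α * A * lw) * lP) := by ring
      _ ≤ 1031 / 1000 * (η * (N₂ - N₁) / (α * A * lw) * lP) := by gcongr; norm_num
      _ = _ := by ring
  have h2 : E' ≤ E' * lP := le_mul_of_one_le_right hE' hP
  refine le_of_mul_le_mul_right ?_ (by linarith : 0 < lP)
  rw [add_mul]; linarith

theorem DirC_err {y A P W C δ η d₅ s₀ N₂ : ℝ} (hy : 1 ≤ y) (hA : 0 < A) (hδ0 : 0 < δ)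
    (hδ : δ ≤ 1 / 4) (hη0 : 0 < η) (hη : η ≤ δ / 2) (hd : d₅ ≤ δ / 40) (hP : y ^ (1 / 5 : ℝ) ≤ P)
    (hW0 : 0 ≤ W) (hW : W ^ s₀ ≤ 2 ^ s₀ * y ^ (δ / 40)) (hN0 : 0 ≤ N₂)
    (hN : N₂ ≤ 2 * y ^ (1 + d₅)) :
    N₂ / (A * P) * (W ^ s₀ * (2 * C * (P ^ (1 + η)) ^ (1 - δ))) ≤
      4 * |C| * 2 ^ s₀ / y ^ (δ / 20) * (y / A) := by
  have hy0 : 0 < y := by linarith
  have hP1 : 1 ≤ P := (one_le_rpow hy (by norm_num)).trans hP
  have hP0 : 0 < P := by linarith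
  have e1 : (P ^ (1 + η)) ^ (1 - δ) ≤ P * y ^ (-(δ / 10)) := by
    rw [← rpow_mul hP0.le]
    calc P ^ ((1 + η) * (1 - δ)) ≤ P ^ (1 + -(δ / 2)) :=
          rpow_le_rpow_of_exponent_le hP1 (by nlinarith)
      _ = P * P ^ (-(δ / 2)) := by rw [rpow_add hP0, rpow_one]
      _ ≤ P * (y ^ (1 / 5 : ℝ)) ^ (-(δ / 2)) :=
          mul_le_mul_of_nonneg_left (rpow_le_rpow_of_nonpos (by positivity) hP (by linarith)) hP0.le
      _ = _ := by rw [← rpow_mul hy0.le]; congr 2; ring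
  have e2 : N₂ ≤ 2 * (y * y ^ (δ / 40)) := by
    refine hN.trans ?_
    rw [rpow_add hy0, rpow_one]
    gcongr
  have e3 : y ^ (δ / 40) * y ^ (δ / 40) * y ^ (-(δ / 10)) ≤ (y ^ (δ / 20))⁻¹ := by
    rw [← rpow_add hy0, ← rpow_add hy0, ← rpow_neg hy0.le]
    exact rpow_le_rpow_of_exponent_le hy (by linarith)
  calc N₂ / (A * P) * (W ^ s₀ * (2 * C * (P ^ (1 + η)) ^ (1 - δ)))
      ≤ N₂ / (A * P) * (W ^ s₀ * (2 * |C| * (P ^ (1 + η)) ^ (1 - δ))) := by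
        gcongr; exact le_abs_self C
    _ ≤ 2 * (y * y ^ (δ / 40)) / (A * P) *
        (2 ^ s₀ * y ^ (δ / 40) * (2 * |C| * (P * y ^ (-(δ / 10))))) := by gcongr
    _ = 4 * |C| * 2 ^ s₀ * (y ^ (δ / 40) * y ^ (δ / 40) * y ^ (-(δ / 10))) * (y / A) := by
        field_simp; ring
    _ ≤ 4 * |C| * 2 ^ s₀ * (y ^ (δ / 20))⁻¹ * (y / A) := by gcongr
    _ = _ := by rw [div_eq_mul_inv (4 * |C| * 2 ^ s₀)]

theorem DirC_card_PR {P P' : ℝ} (h : 0 ≤ P') : ((PR P P').card : ℝ) ≤ P' := by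
  have h1 : (PR P P').card ≤ ⌊P'⌋₊ := by
    refine (card_filter_le _ _).trans ?_
    rw [Nat.card_Ioc]; omega
  exact (Nat.cast_le.2 h1).trans (Nat.floor_le h)

theorem DirC_near_sum {M : ℝ} (hM : ∀ a : ℝ, 1 ≤ a → ∑ p ∈ PR a (a ^ 2), 1 / (p : ℝ) ≤ M)
    (x y α A : ℕ) (γ : ℤ) {P η N₀ : ℝ} (hN : 0 ≤ N₀) (hα : 1 ≤ α) (hA : 1 ≤ A) (hP : 1 ≤ P)
    (hη : η ≤ 1) :
    ∑ p ∈ (PR P (P ^ (1 + η))).filter (fun p => ((p * A : ℕ) : ℤ) ∣ α * x + γ),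
      (((Icc 1 y).filter fun ν : ℕ => p * A ∣ x + ν ∧ |(α : ℝ) * ν - γ| ≤ N₀).card : ℝ) ≤
      2 * N₀ / (α * A) * M + P ^ (1 + η) := by
  have hP0 : 0 ≤ P := by linarith
  have h1 : PR P (P ^ (1 + η)) ⊆ PR P (P ^ 2) := fun p hp => by
    rw [mem_PR hP0 (by positivity)] at hp ⊢
    refine ⟨hp.1, hp.2.1, hp.2.2.trans ?_⟩
    rw [← rpow_natCast]
    exact rpow_le_rpow_of_exponent_le hP (by push_cast; linarith)
  calc _ ≤ ∑ p ∈ PR P (P ^ (1 + η)),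
        (((Icc 1 y).filter fun ν : ℕ => p * A ∣ x + ν ∧ |(α : ℝ) * ν - γ| ≤ N₀).card : ℝ) :=
        sum_le_sum_of_subset_of_nonneg (filter_subset _ _) fun _ _ _ => Nat.cast_nonneg _
    _ ≤ ∑ p ∈ PR P (P ^ (1 + η)), (2 * N₀ / (α * A) * (1 / (p : ℝ)) + 1) :=
        sum_le_sum fun p hp => (DirC_near x y α (p * A) γ hN hα
          (Nat.mul_pos (prime_of_mem_PR hp).pos hA)).trans (le_of_eq (by push_cast; ring))
    _ = 2 * N₀ / (α * A) * ∑ p ∈ PR P (P ^ (1 + η)), 1 / (p : ℝ) + (PR P (P ^ (1 + η))).card := by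
        rw [sum_add_distrib, ← mul_sum]; simp
    _ ≤ _ := by
        refine add_le_add (mul_le_mul_of_nonneg_left (le_trans ?_ (hM P hP)) (by positivity))
          (DirC_card_PR (by positivity))
        exact sum_le_sum_of_subset_of_nonneg h1 fun _ _ _ => by positivity

theorem DirC_num1 {y P w W α d d₅ δ s₀ : ℝ} (hy1 : 1 < y) (hs₀ : 0 < s₀) (hδ : δ ≤ 1 / 4)
    (hd1 : d ≤ 1 / 10) (hd2 : d * s₀ ≤ δ / 40) (hd5a : d₅ ≤ d / 2) (hd5b : d₅ ≤ δ / 40)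
    (e2 : 2 ≤ y ^ (1 / 10 : ℝ)) (e3 : 2 ^ s₀ ≤ y ^ (1 / 10 : ℝ)) (hP : y ^ (1 / 5 : ℝ) ≤ P)
    (hw1 : y ^ (d / 2) ≤ w) (hw2 : w ≤ y ^ d) (hwW : w < W) (hW2 : W ≤ 2 * w) (hα : 1 ≤ α)
    (hα2 : α ≤ y ^ d₅) :
    W ^ s₀ ≤ 2 ^ s₀ * y ^ (δ / 40) ∧ α < W ∧ W ≤ P ∧ α * W ^ s₀ ≤ P := by
  have hy0 : 0 < y := by linarith
  have hw0 : 0 < w := lt_of_lt_of_le (by positivity) hw1
  have hW0 : 0 < W := hw0.trans hwW
  have hy5 : y ^ (1 / 10 : ℝ) * y ^ (1 / 10 : ℝ) = y ^ (1 / 5 : ℝ) := by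
    rw [← rpow_add hy0]; norm_num
  have hWs : W ^ s₀ ≤ 2 ^ s₀ * y ^ (δ / 40) := by
    calc W ^ s₀ ≤ (2 * y ^ d) ^ s₀ := rpow_le_rpow hW0.le (by linarith) hs₀.le
      _ = 2 ^ s₀ * y ^ (d * s₀) := by rw [mul_rpow (by norm_num) (by positivity), rpow_mul hy0.le]
      _ ≤ _ := mul_le_mul_of_nonneg_left (rpow_le_rpow_of_exponent_le hy1.le hd2) (by positivity)
  refine ⟨hWs, ?_, ?_, ?_⟩
  · have : y ^ d₅ ≤ y ^ (d / 2) := rpow_le_rpow_of_exponent_le hy1.le hd5a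
    linarith
  · have h1 : y ^ d ≤ y ^ (1 / 10 : ℝ) := rpow_le_rpow_of_exponent_le hy1.le hd1
    have h2 := mul_le_mul_of_nonneg_right e2 (by positivity : 0 ≤ y ^ (1 / 10 : ℝ))
    linarith
  · calc α * W ^ s₀ ≤ y ^ d₅ * (y ^ (1 / 10 : ℝ) * y ^ (δ / 40)) :=
          mul_le_mul hα2 (hWs.trans (mul_le_mul_of_nonneg_right e3 (by positivity)))
            (by positivity) (by positivity)
      _ = y ^ (d₅ + (1 / 10 + δ / 40)) := by rw [rpow_add hy0, rpow_add hy0]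
      _ ≤ y ^ (1 / 5 : ℝ) := rpow_le_rpow_of_exponent_le hy1.le (by linarith)
      _ ≤ P := hP

theorem DirC_num2 {y Q w W α A d : ℝ} (hy1 : 1 < y) (hd : 0 < d) (hQ : 0 < Q)
    (e4 : 2 * log y ^ 2 ≤ y ^ (d / 10)) (hw1 : y ^ (d / 2) ≤ w) (hW2 : W ≤ 2 * w) (hα : 1 ≤ α)
    (hA : 1 ≤ A) (hwA : w ^ (6 / 5 : ℝ) ≤ y / (A * Q)) :
    W * (A * Q) ≤ α * y / log y ^ 2 ∧ Q ≤ y / (A * y ^ (d / 2)) := by
  have hy0 : 0 < y := by linarith
  have hA0 : 0 < A := by linarith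
  have hl := log_pos hy1
  have hw : 1 < w := (one_lt_rpow hy1 (half_pos hd)).trans_le hw1
  have hw0 : 0 < w := by linarith
  have hAP : w ^ (6 / 5 : ℝ) * (A * Q) ≤ y := by rwa [le_div_iff₀ (by positivity)] at hwA
  have hw65 : w ^ (6 / 5 : ℝ) = w * w ^ (1 / 5 : ℝ) := by
    rw [show (6 / 5 : ℝ) = 1 + 1 / 5 by norm_num, rpow_add hw0, rpow_one]
  have hw15 : y ^ (d / 10) ≤ w ^ (1 / 5 : ℝ) := by
    rw [show d / 10 = d / 2 * (1 / 5) by ring, rpow_mul hy0.le]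
    exact rpow_le_rpow (by positivity) hw1 (by norm_num)
  constructor
  · rw [le_div_iff₀ (by positivity)]
    calc W * (A * Q) * log y ^ 2 ≤ 2 * w * (A * Q) * log y ^ 2 := by gcongr
      _ = w * (2 * log y ^ 2) * (A * Q) := by ring
      _ ≤ w * w ^ (1 / 5 : ℝ) * (A * Q) := by gcongr; exact e4.trans hw15
      _ ≤ y := by rw [← hw65]; exact hAP
      _ ≤ α * y := le_mul_of_one_le_left hy0.le hα
  · rw [le_div_iff₀ (by positivity)]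
    have : y ^ (d / 2) ≤ w ^ (6 / 5 : ℝ) := by
      refine hw1.trans ?_
      simpa using rpow_le_rpow_of_exponent_le hw.le (by norm_num : (1 : ℝ) ≤ 6 / 5)
    calc Q * (A * y ^ (d / 2)) ≤ Q * (A * w ^ (6 / 5 : ℝ)) := by gcongr
      _ = _ := by ring
      _ ≤ y := hAP

theorem DirC_len {N₀ γ a : ℝ} (hN : 0 < N₀) (ha : 0 ≤ a) :
    max 0 (a - γ - max N₀ (-γ)) + max 0 (γ - 1 - max N₀ (γ - a - 1)) ≤ a := by
  have m1 := le_max_left N₀ (-γ)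
  have m2 := le_max_right N₀ (-γ)
  have m3 := le_max_left N₀ (γ - a - 1)
  have m4 := le_max_right N₀ (γ - a - 1)
  rcases max_cases (0 : ℝ) (a - γ - max N₀ (-γ)) with h1 | h1 <;>
    rcases max_cases (0 : ℝ) (γ - 1 - max N₀ (γ - a - 1)) with h2 | h2 <;>
    rw [h1.1, h2.1] <;> linarith

theorem DirC_logs {y P w d : ℝ} (hy1 : 1 < y) (hd : 0 < d) (hd1 : d ≤ 1 / 10)
    (hP : y ^ (1 / 5 : ℝ) ≤ P) (hw1 : y ^ (d / 2) ≤ w) (hw2 : w ≤ y ^ d) :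
    1 < w ∧ 1 < P ∧ log y / 5 ≤ log P ∧ log w ≤ log y := by
  have hy0 : 0 < y := by linarith
  have hw : 1 < w := (one_lt_rpow hy1 (half_pos hd)).trans_le hw1
  refine ⟨hw, (one_lt_rpow hy1 (by norm_num)).trans_le hP, ?_, ?_⟩
  · have := log_le_log (by positivity) hP
    rw [log_rpow hy0] at this
    linarith
  · have := log_le_log (by positivity) hw2
    rw [log_rpow hy0] at this
    nlinarith [log_pos hy1]

theorem DirC_fin {y A L lw η α l₁ l₂ M t₁ t₂ K Q S₀ S₁ S₂ : ℝ} (hy : 0 < y) (hA : 0 < A)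
    (hw : 0 < lw) (hL : lw ≤ L) (hη : 0 < η) (hα : 0 < α) (hl : l₁ + l₂ ≤ α * y)
    (ht₁ : 0 < t₁) (ht₂ : 0 < t₂) (h1 : 400 * M / η ≤ L) (h2 : 200 / η * L ≤ t₁)
    (h3 : 400 * K / η * L ≤ t₂) (hQ : Q ≤ y / (A * t₁))
    (h0 : S₀ ≤ 2 * (α * y / L ^ 2) / (α * A) * M + Q)
    (hS₁ : S₁ ≤ 1031 / 1000 * η * l₁ / (α * A * lw) + K / t₂ * (y / A))
    (hS₂ : S₂ ≤ 1031 / 1000 * η * l₂ / (α * A * lw) + K / t₂ * (y / A)) :
    S₀ + S₁ + S₂ ≤ 21 / 20 * η * y / (A * lw) := by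
  have hL0 : 0 < L := hw.trans_le hL
  set B := η * y / (A * lw) with hB
  have hB' : η / L * (y / A) ≤ B := by
    rw [hB, show η * y / (A * lw) = η / lw * (y / A) by field_simp]; gcongr
  have hyA : 0 < y / A := by positivity
  have a1 : 2 * (α * y / L ^ 2) / (α * A) * M ≤ 1 / 200 * (η / L * (y / A)) := by
    rw [show 2 * (α * y / L ^ 2) / (α * A) * M = 2 * M / L ^ 2 * (y / A) by field_simp, ← mul_assoc]
    refine mul_le_mul_of_nonneg_right ?_ hyA.le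
    rw [div_le_iff₀ hη] at h1
    rw [div_le_iff₀ (by positivity), show 1 / 200 * (η / L) * L ^ 2 = L * η / 200 by field_simp]
    linarith
  have a2 : y / (A * t₁) ≤ 1 / 200 * (η / L * (y / A)) := by
    rw [show y / (A * t₁) = 1 / t₁ * (y / A) by field_simp, ← mul_assoc]
    refine mul_le_mul_of_nonneg_right ?_ hyA.le
    rw [show 1 / 200 * (η / L) = 1 / (200 / η * L) by field_simp]
    exact one_div_le_one_div_of_le (by positivity) h2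
  have a3 : K / t₂ * (y / A) ≤ 1 / 400 * (η / L * (y / A)) := by
    rw [← mul_assoc]
    refine mul_le_mul_of_nonneg_right ?_ hyA.le
    rw [div_le_iff₀ ht₂]
    calc K = 1 / 400 * (η / L) * (400 * K / η * L) := by field_simp
      _ ≤ _ := by gcongr
  have a4 : 1031 / 1000 * η * l₁ / (α * A * lw) + 1031 / 1000 * η * l₂ / (α * A * lw) ≤
      1031 / 1000 * B := by
    calc _ = 1031 / 1000 * η * (l₁ + l₂) / (α * A * lw) := by ring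
      _ ≤ 1031 / 1000 * η * (α * y) / (α * A * lw) := by gcongr
      _ = _ := by rw [hB]; field_simp
  have hB0 : 0 ≤ B := by positivity
  rw [show 21 / 20 * η * y / (A * lw) = 21 / 20 * B by rw [hB]; ring]
  linarith

theorem direct {δ C : ℝ} (hδ0 : 0 < δ) (hδ : δ ≤ 1 / 4) (h : PA δ C) :
    ∃ d₀ : ℝ, 0 < d₀ ∧ ∀ d d₅ η : ℝ, 0 < d → d ≤ d₀ → 0 ≤ d₅ → d₅ ≤ d / 2 → d₅ ≤ δ / 40 →
      0 < η → η ≤ δ / 2 → ∀ᶠ y : ℕ in atTop, ∀ (x α A W : ℕ) (γ : ℤ) (P w : ℝ),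
      (y : ℝ) ^ (1 / 5 : ℝ) ≤ P → (y : ℝ) ^ (d / 2) ≤ w → w ≤ (y : ℝ) ^ d → w < W →
      (W : ℝ) ≤ 2 * w → 1 ≤ α → (α : ℝ) ≤ (y : ℝ) ^ d₅ → |(γ : ℝ)| ≤ (y : ℝ) ^ (1 + d₅) →
      Int.gcd α γ = 1 → 1 ≤ A → (∀ r ∈ Nat.primesBelow W, ¬ r ∣ A) →
      w ^ (6 / 5 : ℝ) ≤ y / (A * P ^ (1 + η)) →
      ∑ p ∈ (PR P (P ^ (1 + η))).filter (fun p => ((p * A : ℕ) : ℤ) ∣ α * x + γ),
        (Sv x y (p * A) W : ℝ) ≤ 21 / 20 * η * y / (A * log w) := by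
  obtain ⟨s₀, W₀, hs₀, hB⟩ := dirB hδ h (ε := 1 / 100) (by norm_num)
  obtain ⟨M, hM0, hM⟩ := mert_sq
  refine ⟨min (1 / 10) (δ / (40 * s₀)), by positivity, fun d d₅ η hd hdd hd5 hd5a hd5b hη hηδ => ?_⟩
  have hd1 : d ≤ 1 / 10 := hdd.trans (min_le_left _ _)
  have hd2 : d * s₀ ≤ δ / 40 := by
    have := hdd.trans (min_le_right _ _)
    rw [le_div_iff₀ (by positivity)] at this
    linarith
  filter_upwards [ev_log_pow_le W₀ 0 (half_pos hd), ev_log_pow_le 2 0 (ε := 1 / 10) (by norm_num),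
    ev_log_pow_le (2 ^ s₀) 0 (ε := 1 / 10) (by norm_num),
    ev_log_pow_le 2 2 (ε := d / 10) (by positivity), ev_loglog_pow_le (2000 / η) 1 one_pos,
    ev_le_loglog 1, ev_le_log 5, ev_le_log (400 * M / η), ev_log_pow_le (200 / η) 1 (half_pos hd),
    ev_log_pow_le (400 * (4 * |C| * 2 ^ s₀) / η) 1 (ε := δ / 20) (by positivity),
    eventually_gt_atTop 1] with y e1 e2 e3 e4 e5 e6 e7 e8 e9 e10 e11
  intro x α A W γ P w hP hw1 hw2 hwW hW2 hα hα2 hγ hg hA hAr hwA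
  simp only [pow_zero, mul_one, pow_one, rpow_one] at e1 e2 e3 e5 e9 e10
  have hy1 : (1 : ℝ) < y := by exact_mod_cast e11
  have hy0 : (0 : ℝ) < y := by linarith
  have hα1 : (1 : ℝ) ≤ α := by exact_mod_cast hα
  have hA1 : (1 : ℝ) ≤ A := by exact_mod_cast hA
  obtain ⟨hw, hP1, hlP, hlw⟩ := DirC_logs hy1 hd hd1 hP hw1 hw2
  have hP' : 0 < P ^ (1 + η) := by positivity
  obtain ⟨hWs, c2', c3, c5⟩ := DirC_num1 hy1 hs₀ hδ hd1 hd2 hd5a hd5b e2 e3 hP hw1 hw2 hwW hW2 hα1 hα2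
  have c2 : α < W := by exact_mod_cast c2'
  have c4 : P ≤ P ^ (1 + η) := by
    simpa using rpow_le_rpow_of_exponent_le hP1.le (le_add_of_nonneg_right hη.le : (1 : ℝ) ≤ 1 + η)
  obtain ⟨c6, hQ⟩ := DirC_num2 hy1 hd hP' e4 hw1 hW2 hα1 hA1 hwA
  have c1 : W₀ ≤ W := (e1.trans hw1).trans hwW.le
  have hl5 : 0 < log (y : ℝ) := log_pos hy1
  have hlP1 : 1 ≤ log P := le_trans (by linarith only [e7]) hlP
  have hα0 : (0 : ℝ) < α := zero_lt_one.trans_le hα1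
  have hA0 : (0 : ℝ) < A := zero_lt_one.trans_le hA1
  have hg' : Int.gcd α (α * x + γ) = 1 := by rw [add_comm, Int.gcd_add_mul_left_right]; exact hg
  set N₀ : ℝ := α * y / log y ^ 2 with hN₀
  have hN0 : 0 < N₀ := by positivity
  have far : ∀ (ς : ℤ) (N₁ N₂ : ℝ), (ς = 1 ∨ ς = -1) → N₀ ≤ N₁ → N₂ ≤ N₁ + α * y →
      N₂ ≤ 2 * (y : ℝ) ^ (1 + d₅) →
      ∑ p ∈ (PR P (P ^ (1 + η))).filter (fun p => ((p * A : ℕ) : ℤ) ∣ α * x + γ),
      (((Icc 1 y).filter fun ν : ℕ => (p * A ∣ x + ν ∧ ∀ r ∈ Nat.primesBelow W, ¬ r ∣ x + ν) ∧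
        N₁ < ς * ((α : ℝ) * ν - γ) ∧ ς * ((α : ℝ) * ν - γ) ≤ N₂).card : ℝ) ≤
      1031 / 1000 * η * max 0 (N₂ - N₁) / (α * A * log w) +
        4 * |C| * 2 ^ s₀ / (y : ℝ) ^ (δ / 20) * (y / A) := by
    intro ς N₁ N₂ hς h1 h2 h3
    have hlw0 := log_pos hw
    rcases le_or_gt N₁ N₂ with h4 | h4
    · rw [max_eq_right (sub_nonneg.2 h4)]
      refine (DirC_far x y α A W γ ς hα hA hς (hN0.le.trans h1)).trans ?_
      exact DirC_one hlP1 hlw0 (log_le_log (zero_lt_one.trans hw) hwW.le) hα0 hA0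
        hη h4 (DirC_log e6 hl5 hη hP1 e5 hlP (mul_pos hα0 hy0) h1 h4 h2)
        (DirC_err hy1.le hA0 hδ0 hδ hη hηδ hd5b hP (Nat.cast_nonneg _) hWs
          ((hN0.le.trans h1).trans h4) h3)
        (by positivity) (hB α W A _ ς P _ N₁ N₂ c1 hα c2 hg' hA hAr hς c3 c4 c5
          (c6.trans h1) h4)
    · refine le_trans (le_of_eq (sum_eq_zero fun p _ => ?_)) (by positivity)
      rw [filter_eq_empty_iff.2 fun ν _ hν => by linarith only [hν.2.1, hν.2.2, h4]]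
      simp
  have hαy : (α : ℝ) * y ≤ y ^ (1 + d₅) := by
    rw [rpow_add hy0, rpow_one, mul_comm]; exact mul_le_mul_of_nonneg_left hα2 hy0.le
  have hγ' := abs_le.1 hγ
  have hyd : (0 : ℝ) ≤ y ^ (1 + d₅) := by positivity
  refine (sum_le_sum fun p _ => DirC_split x y α (p * A) W γ N₀ hα).trans ?_
  rw [sum_add_distrib, sum_add_distrib]
  exact DirC_fin hy0 hA0 (log_pos hw) hlw hη hα0 (DirC_len hN0 (mul_pos hα0 hy0).le) (by positivity)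
    (by positivity) e8 e9 e10 hQ
    (DirC_near_sum hM x y α A γ hN0.le hα hA hP1.le (by linarith only [hηδ, hδ]))
    (far 1 _ _ (Or.inl rfl) (le_max_left _ _) (by linarith only [le_max_right N₀ (-γ)])
      (by linarith only [hαy, hγ'.1]))
    (far (-1) _ _ (Or.inr rfl) (le_max_left _ _)
      (by linarith only [le_max_right N₀ (γ - α * y - 1)]) (by linarith only [hγ'.2, hyd]))

end Vale.Agent.P013
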