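import Vale.Agent.P013.Basic

/-!
Consequences of `PA δ C` for `q = 1` (take `a = 0` or `1`; every `n` is congruent modulo `1`;
`Chebyshev.psi_eq_sum_Icc`). `theta_pa`: `Chebyshev.abs_psi_sub_theta_le_sqrt_mul_log` and
`√X log X ≤ 4 X^(3/4) ≤ 4 X^(1-δ)`.
`pi_lower`: `θ X ≤ π ⌊X⌋ * log X` (`Chebyshev.theta_le_pi_mul_log'`), `X^(1-δ) ≤ X / (δ log X)`, and at most one prime
(`p = X`) is lost; `1 ≤ C X / log X ^ 2`.
`short_count`: `θ (t e^(1/L)) - θ t ≥ t / L - C' (e t)^(1-δ) - C' t^(1-δ) ≥ t / (2 L)` when `8 C' L ≤ t^δ`, and each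
prime in the range has `log p ≤ log t + 1`.
`pi_upper`: `Chebyshev.pi_le_log4_mul_div` (unconditional).
-/

namespace Vale.Agent.P013

open Finset Real

theorem PACor_log_le {X : ℝ} (hX : 0 < X) : log X ≤ 2 * √X := by
  have := Real.log_le_rpow_div hX.le (show (0 : ℝ) < 1 / 2 by norm_num)
  rw [← Real.sqrt_eq_rpow] at this
  linarith

theorem psi_pa {δ C : ℝ} (h : PA δ C) {X : ℝ} (hX : 1 ≤ X) :
    |Chebyshev.psi X - X| ≤ C * X ^ (1 - δ) := by
  have h1 := h 1 0 X le_rfl (Nat.coprime_one_right 0) (by simpa using hX)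
  simp only [Nat.modEq_one, filter_true, Nat.totient_one, Nat.cast_one, div_one] at h1
  rwa [Chebyshev.psi, ← Finset.Icc_add_one_left_eq_Ioc]

theorem theta_pa {δ C : ℝ} (hδ : δ ≤ 1 / 4) (h : PA δ C) : ∃ C' : ℝ, 0 < C' ∧ ∀ X : ℝ, 1 ≤ X →
    |Chebyshev.theta X - X| ≤ C' * X ^ (1 - δ) := by
  refine ⟨|C| + 8, by positivity, fun X hX => ?_⟩
  have h1 := psi_pa h hX
  have h2 := Chebyshev.abs_psi_sub_theta_le_sqrt_mul_log hX
  have hX0 : 0 < X := by linarith
  have h3 := Real.log_le_rpow_div hX0.le (show (0 : ℝ) < 1 / 4 by norm_num)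
  have h4 : √X * X ^ (1 / 4 : ℝ) ≤ X ^ (1 - δ) := by
    rw [Real.sqrt_eq_rpow, ← Real.rpow_add hX0]
    exact Real.rpow_le_rpow_of_exponent_le hX (by linarith)
  have h5 := mul_le_mul_of_nonneg_left h3 (Real.sqrt_nonneg X)
  have h6 := mul_le_mul_of_nonneg_right (le_abs_self C) (Real.rpow_nonneg hX0.le (1 - δ))
  have h7 := abs_le.1 h1
  have h8 := abs_le.1 h2
  rw [abs_le]
  constructor <;> linarith [h7.1, h7.2, h8.1, h8.2]

theorem pi_lower {δ C : ℝ} (hδ0 : 0 < δ) (hδ : δ ≤ 1 / 4) (h : PA δ C) :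
    ∃ C' : ℝ, 0 < C' ∧ ∀ X : ℝ, 2 ≤ X →
      X / log X - C' * X / log X ^ 2 ≤ (((Ico 1 ⌈X⌉₊).filter Nat.Prime).card : ℝ) := by
  obtain ⟨C', hC', h1⟩ := theta_pa hδ h
  refine ⟨C' / δ + 4, by positivity, fun X hX => ?_⟩
  have hX0 : 0 < X := by linarith
  have hl : 0 < log X := Real.log_pos (by linarith)
  have h2 := (abs_le.1 (h1 X (by linarith))).1
  have h3 := Chebyshev.theta_le_pi_mul_log' X
  have h4 : (Nat.primeCounting ⌊X⌋₊ : ℝ) ≤ ((Ico 1 ⌈X⌉₊).filter Nat.Prime).card + 1 := by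
    rw [← Nat.primesLE_card_eq_primeCounting]
    have : Nat.primesLE ⌊X⌋₊ ⊆ insert ⌊X⌋₊ ((Ico 1 ⌈X⌉₊).filter Nat.Prime) := fun p hp => by
      obtain ⟨p1, p2⟩ := Nat.mem_primesLE.1 hp
      have := Nat.floor_le_ceil X
      have := p2.one_le
      rw [mem_insert, mem_filter, mem_Ico]
      by_cases p3 : p = ⌊X⌋₊
      · exact Or.inl p3
      · exact Or.inr ⟨⟨this, by omega⟩, p2⟩
    exact_mod_cast (card_le_card this).trans (card_insert_le _ _)
  have h5 : X ^ (1 - δ) ≤ X / (δ * log X) := by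
    rw [Real.rpow_sub hX0, Real.rpow_one]
    refine div_le_div_of_nonneg_left hX0.le (by positivity) ?_
    have := Real.log_le_rpow_div hX0.le hδ0
    rwa [le_div_iff₀ hδ0, mul_comm] at this
  have h6 : log X ^ 2 ≤ 4 * X := by
    have := PACor_log_le hX0
    nlinarith [Real.mul_self_sqrt hX0.le]
  have h7 : 1 ≤ 4 * X / log X ^ 2 := by rwa [one_le_div (by positivity)]
  have h8 : (X - C' * (X / (δ * log X))) / log X ≤ ((Ico 1 ⌈X⌉₊).filter Nat.Prime).card + 1 := by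
    rw [div_le_iff₀ hl]
    have := mul_le_mul_of_nonneg_left h5 hC'.le
    have := mul_le_mul_of_nonneg_right h4 hl.le
    linarith
  have h9 : X / log X - (C' / δ + 4) * X / log X ^ 2 =
      (X - C' * (X / (δ * log X))) / log X - 4 * X / log X ^ 2 := by
    field_simp
    ring
  linarith

theorem short_count {δ C : ℝ} (hδ0 : 0 < δ) (hδ : δ ≤ 1 / 4) (h : PA δ C) :
    ∃ C' : ℝ, 0 < C' ∧ ∀ t L : ℝ, 1 ≤ t → 1 ≤ L → C' * L ≤ t ^ δ →
      t / (2 * L * (log t + 1)) ≤ ((PR t (t * exp (1 / L))).card : ℝ) := by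
  have _ := hδ0
  obtain ⟨C', hC', h1⟩ := theta_pa hδ h
  refine ⟨8 * C', by positivity, fun t L ht hL hC => ?_⟩
  have ht0 : 0 < t := by linarith
  have hL0 : 0 < L := by linarith
  have hlt : 0 ≤ log t := Real.log_nonneg ht
  have e0 : 1 / L ≤ 1 := by rw [div_le_one hL0]; exact hL
  have e1 : 1 / L + 1 ≤ exp (1 / L) := Real.add_one_le_exp _
  have e2 : exp (1 / L) ≤ 3 := (Real.exp_le_exp.2 e0).trans (by linarith [Real.exp_one_lt_d9])
  have e3 : 1 ≤ exp (1 / L) := Real.one_le_exp (by positivity)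
  have e4 : t ≤ t * exp (1 / L) := le_mul_of_one_le_right ht0.le e3
  have s1 : Chebyshev.theta (t * exp (1 / L)) = Chebyshev.theta t +
      ∑ p ∈ PR t (t * exp (1 / L)), log p := by
    unfold Chebyshev.theta PR
    rw [sum_filter, sum_filter, sum_filter,
      sum_Ioc_consecutive _ (Nat.zero_le _) (Nat.floor_mono e4)]
  have s2 : ∑ p ∈ PR t (t * exp (1 / L)), log p ≤
      (PR t (t * exp (1 / L))).card * (log t + 1) := by
    rw [← nsmul_eq_mul]
    refine sum_le_card_nsmul _ _ _ fun p hp => ?_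
    obtain ⟨-, p1, p2⟩ := (mem_PR ht0.le (by linarith)).1 hp
    have := Real.log_le_log (by linarith) p2
    rw [Real.log_mul ht0.ne' (by linarith), Real.log_exp] at this
    linarith
  have h2 := (abs_le.1 (h1 _ (ht.trans e4))).1
  have h3 := (abs_le.1 (h1 t ht)).2
  have h4 : (t * exp (1 / L)) ^ (1 - δ) ≤ t ^ (1 - δ) * 3 := by
    rw [Real.mul_rpow ht0.le (by linarith)]
    refine mul_le_mul_of_nonneg_left (le_trans ?_ e2) (Real.rpow_nonneg ht0.le _)
    exact Real.rpow_le_self_of_one_le e3 (by linarith)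
  have h5 : 4 * (C' * t ^ (1 - δ)) ≤ t / (2 * L) := by
    have hp := Real.rpow_pos_of_pos ht0 δ
    rw [Real.rpow_sub ht0, Real.rpow_one, le_div_iff₀ (by positivity)]
    calc _ = t / t ^ δ * (8 * C' * L) := by ring
      _ ≤ t / t ^ δ * t ^ δ := mul_le_mul_of_nonneg_left hC (by positivity)
      _ = t := div_mul_cancel₀ _ hp.ne'
  have h6 := mul_le_mul_of_nonneg_left h4 hC'.le
  have h7 := mul_le_mul_of_nonneg_left e1 ht0.le
  have h8 : t * (1 / L + 1) = 2 * (t / (2 * L)) + t := by field_simp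
  rw [← div_div, div_le_iff₀ (by linarith)]
  linarith

theorem pi_upper : ∃ C : ℝ, 0 < C ∧ ∀ X : ℝ, 2 ≤ X → ((PR 1 X).card : ℝ) ≤ C * X / log X := by
  refine ⟨2 * log 4 + 2, by positivity, fun X hX => ?_⟩
  have hX0 : 0 < X := by linarith
  have hl : 0 < log X := Real.log_pos (by linarith)
  have h1 := Chebyshev.pi_le_log4_mul_div (x := X) (by linarith)
  have h2 : ((PR 1 X).card : ℝ) ≤ Nat.primeCounting ⌊X⌋₊ := by
    rw [← Nat.primesLE_card_eq_primeCounting]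
    exact_mod_cast card_le_card fun p hp =>
      Nat.mem_primesLE.2 ⟨(mem_Ioc.1 (mem_filter.1 hp).1).2, (mem_filter.1 hp).2⟩
  have h3 : √X ≤ 2 * X / log X := by
    rw [le_div_iff₀ hl]
    have := mul_le_mul_of_nonneg_left (PACor_log_le hX0) (Real.sqrt_nonneg X)
    nlinarith [Real.mul_self_sqrt hX0.le]
  rw [Real.log_sqrt hX0.le] at h1
  have h4 : (2 * log 4 + 2) * X / log X = log 4 * X / (log X / 2) + 2 * X / log X := by
    field_simp
  linarith

end Vale.Agent.P013
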