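import Vale.Agent.P013.ChainB
import Vale.Agent.P013.PACor
import Vale.Agent.P013.Mert

/-!
Counting the discarded sets. `e ∈ disc D z` with `pr e < D` has even size `≥ 2` (`disc_spec`). Let `q = mn e`,
`p = mn (e.erase q)`, `d = (e.erase q).erase p`; then `q < p <` all elements of `d`, `d` is a chain of even size
(`ch_insert_min`), `D ≤ pr d * p * q^3`, `pr d * p * q < D`, and `e ↦ (d, p, q)` is injective.
* `d = ∅`: pairs `q < p < z` with `p q < D`. For `p ≤ √D`: at most `π(√D)^2 ≤ 4 C² D / ℒ²` (`pi_upper`). For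
  `√D < p < z`: `q ≤ D / p`, `D / p ≥ D^(2/5)`, at most `C (D / p) / (2ℒ/5)` values, and by `mert_sum`
  `∑ p ∈ PR √D z, 1 / p ≤ log (log z / log √D) + 2 C / ℒ ≤ (log (z² / D) + 2 C) / ℒ`
  (`log u ≤ u - 1`, `log z - ℒ / 2 = log (z² / D) / 2`).
* `d ≠ ∅`: `m = mn d`, `m² pr d < D` (chain condition at `m`, even position), `D ≤ pr d * p * q^3 < pr d * m^4`.
  With `k = ⌊log (D / pr d)⌋₊ ≤ ℒ`: `win D k d`, `exp (k / 4) < m`, `log m ≥ max (log 2) (k / 4) ≥ (k + 1) / 6`. The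
  pairs `(p, q)` number at most `(C m / log m)² ≤ 36 C² (D / pr d) / (k + 1)²`. By `cb2` the total is at most
  `∑ k ≤ ℒ, 36 C² D / (k + 1)² * C' (k + 1) / ℒ² ≤ 36 C² C' D (1 + log (ℒ + 1)) / ℒ²`.
For large `D`, `log log D ≥ 1`, and `log (z² / D) ≥ 0`.
-/

namespace Vale.Agent.P013

open Finset Real

theorem ModelB_dec {D : ℝ} {z : ℕ} {e : Finset ℕ} (he : e ∈ disc D z) (hD : (pr e : ℝ) < D) :
    ∃ (d : Finset ℕ) (p q : ℕ), e = insert q (insert p d) ∧ q.Prime ∧ p.Prime ∧ q < p ∧ p < z ∧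
      (∀ r ∈ d, p < r) ∧ d ∈ chains 0 D z ∧ Even d.card ∧
      D ≤ (pr d : ℝ) * p * (q : ℝ) ^ 3 ∧ (pr d : ℝ) * p * q < D := by
  classical
  obtain ⟨hne, hev, h1⟩ := disc_spec he
  unfold disc at he
  obtain ⟨h2, -, h3, -⟩ := mem_filter.1 he
  rw [mem_powerset] at h2
  have c1 := card_erase_add_one (mn_mem hne)
  have hne' : (e.erase (mn e)).Nonempty := by
    rw [← card_pos]
    obtain ⟨k, hk⟩ := hev
    omega
  have c2 := card_erase_add_one (mn_mem hne')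
  have c3 := Nat.mem_primesBelow.1 (h2 (mn_mem hne))
  have c4 := Nat.mem_primesBelow.1 (h2 (erase_subset _ _ (mn_mem hne')))
  have c5 := Comb_pr_erase hne
  have c6 := Comb_pr_erase hne'
  refine ⟨(e.erase (mn e)).erase (mn (e.erase (mn e))), mn (e.erase (mn e)), mn e, ?_, c3.2, c4.2,
    Comb_lt_erase _ (mn_mem hne'), c4.1, Comb_lt_erase, ?_, ?_, ?_, ?_⟩
  · rw [insert_erase (mn_mem hne'), insert_erase (mn_mem hne)]
  · exact mem_filter.2 ⟨mem_powerset.2 (((erase_subset _ _).trans (erase_subset _ _)).trans h2),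
      ((Comb_split hne').1 h3).1⟩
  · obtain ⟨k, hk⟩ := hev
    exact ⟨k - 1, by omega⟩
  · rw [c6] at h1
    linarith
  · rw [c5, c6] at hD
    linarith

open Classical in
/-- the nonempty tails -/
noncomputable def ModelB_G (D : ℝ) (z : ℕ) : Finset (Finset ℕ) :=
  (chains 0 D z).filter fun d => Even d.card ∧ d.Nonempty ∧ D < (pr d : ℝ) * (mn d : ℝ) ^ 4

theorem ModelB_split {D : ℝ} (hD : 0 ≤ D) (z : ℕ) :
    ((disc D z).filter fun e => (pr e : ℝ) < D).card ≤ (PR 1 √D).card ^ 2 +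
      ∑ p ∈ PR √D z, (PR 1 (D / p)).card + ∑ d ∈ ModelB_G D z, (PR 1 (mn d)).card ^ 2 := by
  classical
  have h : ((disc D z).filter fun e => (pr e : ℝ) < D) ⊆
      ((PR 1 √D ×ˢ PR 1 √D).image fun t => insert t.2 (insert t.1 ∅)) ∪
      ((PR √D z).biUnion fun p => (PR 1 (D / p)).image fun q => insert q (insert p ∅)) ∪
      ((ModelB_G D z).biUnion fun d =>
        (PR 1 (mn d) ×ˢ PR 1 (mn d)).image fun t => insert t.2 (insert t.1 d)) := by
    intro e he
    obtain ⟨d, p, q, rfl, hq, hp, hqp, hpz, hd, hc, hev, h1, h2⟩ :=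
      ModelB_dec (mem_filter.1 he).1 (mem_filter.1 he).2
    have hq1 : (1 : ℝ) < q := by exact_mod_cast hq.one_lt
    have hp1 : (1 : ℝ) < p := by exact_mod_cast hp.one_lt
    have hqp' : (q : ℝ) < p := by exact_mod_cast hqp
    rcases d.eq_empty_or_nonempty with rfl | hne
    · refine mem_union_left _ ?_
      rcases le_or_gt (p : ℝ) √D with h3 | h3
      · exact mem_union_left _ (mem_image.2 ⟨(p, q), mem_product.2
          ⟨(mem_PR zero_le_one (sqrt_nonneg _)).2 ⟨hp, hp1, h3⟩,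
          (mem_PR zero_le_one (sqrt_nonneg _)).2 ⟨hq, hq1, hqp'.le.trans h3⟩⟩, rfl⟩)
      · refine mem_union_right _ (mem_biUnion.2 ⟨p, (mem_PR (sqrt_nonneg _) (Nat.cast_nonneg _)).2
          ⟨hp, h3, by exact_mod_cast hpz.le⟩, mem_image.2 ⟨q, (mem_PR zero_le_one
          (by positivity)).2 ⟨hq, hq1, ?_⟩, rfl⟩⟩)
        rw [pr_empty] at h2
        rw [le_div_iff₀ (by linarith)]
        push_cast at h2
        linarith
    · have hm : (p : ℝ) < mn d := by exact_mod_cast hd _ (mn_mem hne)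
      have h0 : (0 : ℝ) < pr d := by exact_mod_cast pr_pos (Comb_prime hc)
      refine mem_union_right _ (mem_biUnion.2 ⟨d, mem_filter.2 ⟨hc, hev, hne, h1.trans_lt ?_⟩,
        mem_image.2 ⟨(p, q), mem_product.2
          ⟨(mem_PR zero_le_one (Nat.cast_nonneg _)).2 ⟨hp, hp1, hm.le⟩,
          (mem_PR zero_le_one (Nat.cast_nonneg _)).2 ⟨hq, hq1, by linarith⟩⟩, rfl⟩⟩)
      have hm' : (q : ℝ) < mn d := by linarith
      rw [mul_assoc, pow_succ' (mn d : ℝ) 3]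
      gcongr
  refine (card_le_card h).trans ((card_union_le _ _).trans (add_le_add
    ((card_union_le _ _).trans (add_le_add ?_ ?_)) ?_))
  · exact card_image_le.trans (by rw [card_product, sq])
  · exact card_biUnion_le.trans (sum_le_sum fun _ _ => card_image_le)
  · exact card_biUnion_le.trans (sum_le_sum fun _ _ =>
      card_image_le.trans (by rw [card_product, sq]))

theorem ModelB_mid {C C' D : ℝ} {z : ℕ} (hC0 : 0 < C)
    (hC : ∀ X : ℝ, 2 ≤ X → ((PR 1 X).card : ℝ) ≤ C * X / log X)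
    (hC' : ∀ u v : ℝ, 2 ≤ u → u ≤ v →
      |∑ p ∈ PR u v, 1 / (p : ℝ) - log (log v / log u)| ≤ C' / log u)
    (hD0 : 0 < D) (hD : 5 ≤ log D) (hz : √D ≤ z) (hz' : (z : ℝ) ≤ D ^ (3 / 5 : ℝ)) :
    ∑ p ∈ PR √D z, ((PR 1 (D / p)).card : ℝ) ≤
      5 / 2 * C * D * (log ((z : ℝ) ^ 2 / D) + 2 * C') / log D ^ 2 := by
  have hs : 0 < √D := sqrt_pos.2 hD0
  have hz0 : (0 : ℝ) < z := by linarith
  have a1 : log √D = log D / 2 := log_sqrt hD0.le
  have a2 : 2 ≤ √D := by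
    have := log_le_sub_one_of_pos hs
    linarith
  have a3 : ∀ p ∈ PR √D z, ((PR 1 (D / p)).card : ℝ) ≤ 5 / 2 * C * D / log D * (1 / p) := by
    intro p hp
    obtain ⟨-, b1, b2⟩ := (mem_PR hs.le hz0.le).1 hp
    have b0 : (0 : ℝ) < p := by linarith
    have b3 : log p ≤ 3 / 5 * log D := by
      rw [← log_rpow hD0]
      exact log_le_log b0 (b2.trans hz')
    have b4 : 2 / 5 * log D ≤ log (D / p) := by
      rw [log_div hD0.ne' b0.ne']
      linarith
    have b5 : 2 ≤ D / p := by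
      have := log_le_sub_one_of_pos (show 0 < D / p by positivity)
      linarith
    refine (hC _ b5).trans ((div_le_div_of_nonneg_left (by positivity) (by positivity) b4).trans_eq
      ?_)
    field_simp
  have a4 := (abs_le.1 (hC' _ _ a2 hz)).2
  have a5 := log_le_sub_one_of_pos (show 0 < log z / log √D from
    div_pos (log_pos (by linarith)) (log_pos (by linarith)))
  have a6 : ∑ p ∈ PR √D z, 1 / (p : ℝ) ≤ (log ((z : ℝ) ^ 2 / D) + 2 * C') / log D := by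
    have e : (log ((z : ℝ) ^ 2 / D) + 2 * C') / log D = log z / log √D - 1 + C' / log √D := by
      rw [a1, log_div (by positivity) hD0.ne', log_pow]
      field_simp
      push_cast
      ring
    linarith
  refine (sum_le_sum a3).trans ?_
  rw [← mul_sum]
  refine (mul_le_mul_of_nonneg_left a6 (by positivity)).trans_eq ?_
  field_simp

open Classical in
theorem ModelB_pt {C D : ℝ} {z : ℕ}
    (hC : ∀ X : ℝ, 2 ≤ X → ((PR 1 X).card : ℝ) ≤ C * X / log X) {d : Finset ℕ}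
    (hd : d ∈ ModelB_G D z) {k : ℕ} (hk : ⌊log (D / pr d)⌋₊ = k) :
    (k : ℝ) ≤ log D ∧ d ∈ (chains 0 D z).filter
      (fun d => win D k d ∧ Even d.card ∧ d.Nonempty ∧ exp ((k : ℝ) / 4) < mn d) ∧
    ((PR 1 (mn d)).card : ℝ) ^ 2 ≤ 36 * C ^ 2 * D / (k + 1) ^ 2 * (1 / pr d) := by
  obtain ⟨hc, hev, hne, h1⟩ := mem_filter.1 hd
  have h0 : (1 : ℝ) ≤ pr d := by exact_mod_cast pr_pos (Comb_prime hc)
  have hm : (2 : ℝ) ≤ mn d := by exact_mod_cast (Comb_prime hc _ (mn_mem hne)).two_le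
  have h2 := ((Comb_split hne).1 (mem_filter.1 hc).2).2 (by simpa using hev)
  have h3 : (mn d : ℝ) ^ 2 < D / pr d := by
    rw [lt_div_iff₀ (by linarith), Comb_pr_erase hne]
    linarith
  have h4 : 1 ≤ D / pr d := by nlinarith
  have hD0 : 0 < D := by
    have := (one_le_div (by linarith)).1 h4
    linarith
  have h5 : (k : ℝ) ≤ log (D / pr d) := hk ▸ Nat.floor_le (log_nonneg h4)
  have h6 : log (D / pr d) < k + 1 := hk ▸ Nat.lt_floor_add_one _
  have h7 : exp k ≤ D / pr d := (le_log_iff_exp_le (by linarith)).1 h5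
  have h8 : D / pr d < exp (k + 1) := (log_lt_iff_lt_exp (by linarith)).1 h6
  have h9 : exp ((k : ℝ) / 4) < mn d := by
    refine lt_of_pow_lt_pow_left₀ 4 (by linarith) ?_
    rw [← exp_nat_mul, show ((4 : ℕ) : ℝ) * ((k : ℝ) / 4) = k by push_cast; ring]
    refine h7.trans_lt ?_
    rw [div_lt_iff₀ (by linarith)]
    linarith
  refine ⟨h5.trans (log_le_log (by linarith) (div_le_self hD0.le h0)),
    mem_filter.2 ⟨hc, ⟨?_, ?_⟩, hev, hne, h9⟩, ?_⟩
  · rw [show -(k : ℝ) - 1 = -(k + 1) by ring, exp_neg, ← div_eq_mul_inv,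
      div_lt_iff₀ (exp_pos _), mul_comm]
    exact (div_lt_iff₀ (by linarith)).1 h8
  · rw [exp_neg, ← div_eq_mul_inv, le_div_iff₀ (exp_pos _), mul_comm]
    exact (le_div_iff₀ (by linarith)).1 h7
  · have b1 : (k : ℝ) / 4 < log (mn d) := (lt_log_iff_exp_lt (by linarith)).2 h9
    have b2 : log 2 ≤ log (mn d) := log_le_log two_pos hm
    have b3 : ((k : ℝ) + 1) / 6 ≤ log (mn d) := by linarith [log_two_gt_d9]
    refine (pow_le_pow_left₀ (Nat.cast_nonneg _) (hC _ hm) 2).trans ?_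
    rw [div_pow, mul_pow]
    calc _ ≤ C ^ 2 * (D / pr d) / (((k : ℝ) + 1) / 6) ^ 2 := by gcongr
      _ = _ := by
        field_simp
        ring

open Classical in
theorem ModelB_tail {C C' D : ℝ} {z : ℕ} (hC0 : 0 < C')
    (hC : ∀ X : ℝ, 2 ≤ X → ((PR 1 X).card : ℝ) ≤ C * X / log X)
    (hC' : ∀ L : ℝ, 0 ≤ L → ∑ d ∈ (chains 0 D z).filter
      (fun d => win D L d ∧ Even d.card ∧ d.Nonempty ∧ exp (L / 4) < mn d), 1 / (pr d : ℝ) ≤
      C' * (L + 1) / log D ^ 2) (hD0 : 0 < D) (hD : 2 ≤ log D) (hD' : 1 ≤ log (log D)) :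
    ∑ d ∈ ModelB_G D z, ((PR 1 (mn d)).card : ℝ) ^ 2 ≤
      108 * C ^ 2 * C' * D * log (log D) / log D ^ 2 := by
  have h1 : ∀ d ∈ ModelB_G D z, ⌊log (D / pr d)⌋₊ ∈ range (⌊log D⌋₊ + 1) := fun d hd =>
    mem_range.2 (Nat.lt_succ_of_le (Nat.le_floor (ModelB_pt hC hd rfl).1))
  rw [← sum_fiberwise_of_maps_to h1]
  have h2 : ∀ k ∈ range (⌊log D⌋₊ + 1),
      ∑ d ∈ (ModelB_G D z).filter (fun d => ⌊log (D / pr d)⌋₊ = k),
        ((PR 1 (mn d)).card : ℝ) ^ 2 ≤ 36 * C ^ 2 * C' * D / log D ^ 2 * ((k : ℝ) + 1)⁻¹ := by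
    intro k _
    refine (sum_le_sum fun d hd =>
      (ModelB_pt hC (mem_filter.1 hd).1 (mem_filter.1 hd).2).2.2).trans ?_
    rw [← mul_sum]
    refine (mul_le_mul_of_nonneg_left ((sum_le_sum_of_subset_of_nonneg (fun d hd =>
      (ModelB_pt hC (mem_filter.1 hd).1 (mem_filter.1 hd).2).2.1) fun _ _ _ => by
        positivity).trans (hC' k (Nat.cast_nonneg _))) (by positivity)).trans_eq ?_
    field_simp
  refine (sum_le_sum h2).trans ?_
  rw [← mul_sum]
  have h3 := harmonic_le_one_add_log (⌊log D⌋₊ + 1)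
  simp only [harmonic] at h3
  push_cast at h3
  have h4 : log ((⌊log D⌋₊ : ℝ) + 1) ≤ 2 * log (log D) := by
    rw [show 2 * log (log D) = log (log D ^ 2) by simp]
    refine log_le_log (by positivity) ?_
    nlinarith [Nat.floor_le (show 0 ≤ log D by linarith)]
  refine (mul_le_mul_of_nonneg_left (h3.trans (show _ ≤ 3 * log (log D) by linarith))
    (by positivity)).trans_eq ?_
  ring

theorem disc_count : ∃ C D₀ : ℝ, 0 < C ∧ ∀ D : ℝ, D₀ ≤ D → ∀ z : ℕ, √D ≤ z →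
    (z : ℝ) ≤ D ^ (3 / 5 : ℝ) →
    (((disc D z).filter fun e => (pr e : ℝ) < D).card : ℝ) ≤
      C * D * (log (log D) + log ((z : ℝ) ^ 2 / D)) / log D ^ 2 := by
  obtain ⟨C, hC0, hC⟩ := pi_upper
  obtain ⟨C1, hC1, h1⟩ := mert_sum
  obtain ⟨C2, D2, hC2, h2⟩ := cb2
  refine ⟨4 * C ^ 2 + 5 / 2 * C * (1 + 2 * C1) + 108 * C ^ 2 * C2, max D2 (exp 5),
    by positivity, fun D hD z hz hz' => ?_⟩
  have hD3 : exp 5 ≤ D := (le_max_right _ _).trans hD
  have hD0 : 0 < D := (exp_pos _).trans_le hD3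
  have a1 : 5 ≤ log D := (le_log_iff_exp_le hD0).2 hD3
  have a3 : 1 ≤ log (log D) := (le_log_iff_exp_le (by linarith)).2 (by linarith [exp_one_lt_d9])
  have a4 : 0 ≤ log ((z : ℝ) ^ 2 / D) :=
    log_nonneg ((one_le_div hD0).2 ((sqrt_le_left (Nat.cast_nonneg _)).1 hz))
  have b0 : (((disc D z).filter fun e => (pr e : ℝ) < D).card : ℝ) ≤ ((PR 1 √D).card : ℝ) ^ 2 +
      ∑ p ∈ PR √D z, ((PR 1 (D / p)).card : ℝ) +
      ∑ d ∈ ModelB_G D z, ((PR 1 (mn d)).card : ℝ) ^ 2 := by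
    exact_mod_cast ModelB_split hD0.le z
  have b1 : ((PR 1 √D).card : ℝ) ^ 2 ≤ 4 * C ^ 2 * D / log D ^ 2 := by
    have c1 : log √D = log D / 2 := log_sqrt hD0.le
    have c2 : 2 ≤ √D := by
      have := log_le_sub_one_of_pos (sqrt_pos.2 hD0)
      linarith
    refine (pow_le_pow_left₀ (Nat.cast_nonneg _) (hC _ c2) 2).trans_eq ?_
    rw [c1, div_pow, mul_pow, sq_sqrt hD0.le]
    field_simp
    ring
  have b2 := ModelB_mid hC0 hC h1 hD0 a1 hz hz'
  have b3 := ModelB_tail hC2 hC (h2 D ((le_max_left _ _).trans hD) z hz') hD0 (by linarith) a3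
  refine b0.trans ((add_le_add (add_le_add b1 b2) b3).trans ?_)
  rw [← add_div, ← add_div]
  refine div_le_div_of_nonneg_right ?_ (by positivity)
  set l := log (log D)
  set t := log ((z : ℝ) ^ 2 / D)
  have c1 : 4 * C ^ 2 * D ≤ 4 * C ^ 2 * D * (l + t) :=
    le_mul_of_one_le_right (by positivity) (by linarith)
  have c2 : 5 / 2 * C * D * (t + 2 * C1) ≤ 5 / 2 * C * D * ((1 + 2 * C1) * (l + t)) :=
    mul_le_mul_of_nonneg_left (by nlinarith) (by positivity)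
  have c3 : 108 * C ^ 2 * C2 * D * l ≤ 108 * C ^ 2 * C2 * D * (l + t) :=
    mul_le_mul_of_nonneg_left (by linarith) (by positivity)
  linarith

end Vale.Agent.P013
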