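import Vale.Agent.P013.ModelA
import Vale.Agent.P013.ModelB

/-!
Evaluation of the Rosser main terms on the parity sequences. By `sum_lam` (with `f = id`) and `model_err`, for
`I = {1 ≤ N < D : λ N = σ}`: `|∑ N ∈ I, lam par D (Qs z N) - (D / 2) Mm par D z| ≤ C D / ℒ²`.

`mod_lower`: `σ = 1`. By `lam_lower`, `lam 0 D Q ≥ - card {e ∈ disc, e ⊆ Q, mn e = mn Q}`, `Q = Qs z N`. For such
`e`, `N = pr e * N'`, `q = mn e`; every prime factor of `N'` is `≥ q` (it is `≥ z > q` or in `Q`);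
`N' < D / pr e ≤ q²` by `disc_spec`; `λ (pr e) = 1` as `e` has even size, so `Ω N'` is even; if `N' ≠ 1` then
`Ω N' ≥ 2` and `N' ≥ q²`, impossible. So `N = pr e`, and the sum over `N` of these cardinalities is at most the
number of `e ∈ disc D z` with `pr e < D`: `disc_count`.

`mod_upper`: `σ = -1`, `lam 1 X Q ≥ 0` (`lam_upper`), and for a prime `N` with `w ≤ N < X`, `Qs w N = ∅` and
`lam = 1`. By `pi_lower` there are at least `X / log X - C X / log X ^ 2 - w` of them, `w ≤ X^(4/5) ≤ X / log X ^ 2`.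
-/

namespace Vale.Agent.P013

open Finset Real

theorem ModelC_err (par z : ℕ) (D E : ℝ) (I : Finset ℕ)
    (h : ∑ d ∈ chains par D z, |((I.filter fun N => pr d ∣ N).card : ℝ) - D / (2 * pr d)| ≤ E) :
    ∑ N ∈ I, lam par D (Qs z N) - E ≤ D / 2 * Mm par D z := by
  have h1 := sum_lam par D z I id
  simp only [id] at h1
  rw [h1, Mm, mul_sum, sub_le_comm, ← sum_sub_distrib]
  refine le_trans (sum_le_sum fun d _ => ?_) h
  rw [show (-1) ^ d.card * ((I.filter fun N => pr d ∣ N).card : ℝ) -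
      D / 2 * ((-1) ^ d.card / (pr d : ℝ)) = (-1) ^ d.card *
      (((I.filter fun N => pr d ∣ N).card : ℝ) - D / (2 * pr d)) by ring]
  refine (le_abs_self _).trans ?_
  rw [abs_mul, abs_pow, abs_neg, abs_one, one_pow, one_mul]

theorem ModelC_omega {e : Finset ℕ} (he : ∀ p ∈ e, p.Prime) :
    ArithmeticFunction.cardFactors (pr e) = e.card := by
  induction e using Finset.induction_on with
  | empty => simp [pr]
  | insert p d hp ih =>
    have h1 : ∀ q ∈ d, q.Prime := fun q hq => he q (mem_insert_of_mem hq)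
    have h2 := he p (mem_insert_self _ _)
    rw [pr_insert hp, ArithmeticFunction.cardFactors_mul h2.ne_zero (pr_pos h1).ne', ih h1,
      ArithmeticFunction.cardFactors_apply_prime h2, card_insert_of_notMem hp, add_comm]

theorem ModelC_eq {D : ℝ} {z N : ℕ} {e : Finset ℕ} (hN : N ≠ 0) (hND : (N : ℝ) < D)
    (hl : ArithmeticFunction.liouville N = 1) (he : e ∈ disc D z) (h1 : e ⊆ Qs z N)
    (h2 : mn e = mn (Qs z N)) : pr e = N := by
  obtain ⟨hne, hev, hD⟩ := disc_spec he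
  have hp : ∀ p ∈ e, p.Prime := fun p hp =>
    Nat.prime_of_mem_primesBelow (mem_filter.1 (h1 hp)).1
  obtain ⟨M, rfl⟩ : pr e ∣ N := (pr_dvd_iff hp).2 fun p hp => (mem_filter.1 (h1 hp)).2
  have hM : M ≠ 0 := right_ne_zero_of_mul hN
  by_contra h3
  have hM1 : M ≠ 1 := fun h => h3 (by rw [h, mul_one])
  have hq := Nat.mem_primesBelow.1 (mem_filter.1 (h1 (mn_mem hne))).1
  have h4 : Even (ArithmeticFunction.cardFactors M) := by
    rw [ArithmeticFunction.liouville_apply hN, neg_one_pow_eq_one_iff_even (by norm_num),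
      ArithmeticFunction.cardFactors_mul (pr_pos hp).ne' hM, ModelC_omega hp] at hl
    exact (Nat.even_add.1 hl).1 hev
  have h5 : ArithmeticFunction.cardFactors M ≠ 0 := by
    rw [ne_eq, ArithmeticFunction.cardFactors_eq_zero_iff_eq_zero_or_one]
    tauto
  have h6 : 2 ≤ ArithmeticFunction.cardFactors M := by
    obtain ⟨k, hk⟩ := h4
    omega
  have h7 : mn e ^ M.primeFactorsList.length ≤ M.primeFactorsList.prod := by
    refine List.pow_card_le_prod _ _ fun r hr => ?_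
    obtain ⟨a1, a2⟩ := (Nat.mem_primeFactorsList hM).1 hr
    rcases lt_or_ge r z with a3 | a3
    · rw [h2]
      exact mn_le (mem_filter.2 ⟨Nat.mem_primesBelow.2 ⟨a3, a1⟩, a2.mul_left _⟩)
    · exact hq.1.le.trans a3
  rw [Nat.prod_primeFactorsList hM] at h7
  have h8 : mn e ^ 2 ≤ M := (Nat.pow_le_pow_right hq.2.pos h6).trans h7
  have h9 : (mn e : ℝ) ^ 2 ≤ M := by exact_mod_cast h8
  have h10 := Comb_pr_erase hne
  have h11 : (pr e : ℝ) * (mn e : ℝ) ^ 2 ≤ pr e * M :=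
    mul_le_mul_of_nonneg_left h9 (Nat.cast_nonneg _)
  push_cast at hND
  rw [h10] at h11 hND
  nlinarith

theorem mod_lower {δ C : ℝ} (hδ0 : 0 < δ) (hδ : δ ≤ 1 / 4) (h : PA δ C) :
    ∃ C' D₀ : ℝ, 0 < C' ∧ ∀ D : ℝ, D₀ ≤ D → ∀ z : ℕ, √D ≤ z → (z : ℝ) ≤ D ^ (3 / 5 : ℝ) →
      -(C' * (log (log D) + log ((z : ℝ) ^ 2 / D)) / log D ^ 2) ≤ Mm 0 D z := by
  classical
  obtain ⟨C1, D1, hC1, h1⟩ := model_err hδ0 hδ h
  obtain ⟨C2, D2, hC2, h2⟩ := disc_count
  refine ⟨2 * (C1 + C2), max (max D1 D2) (exp (exp 1)), by positivity, fun D hD z hz hz' => ?_⟩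
  have hD1 : D1 ≤ D := ((le_max_left _ _).trans (le_max_left _ _)).trans hD
  have hD2 : D2 ≤ D := ((le_max_right _ _).trans (le_max_left _ _)).trans hD
  have hD3 : exp (exp 1) ≤ D := (le_max_right _ _).trans hD
  have hD0 : 0 < D := (exp_pos _).trans_le hD3
  have a1 : exp 1 ≤ log D := (le_log_iff_exp_le hD0).2 hD3
  have a2 : 0 < log D := (exp_pos _).trans_le a1
  have a3 : 1 ≤ log (log D) := (le_log_iff_exp_le a2).2 a1
  have a4 : 0 ≤ log ((z : ℝ) ^ 2 / D) :=
    log_nonneg ((one_le_div hD0).2 ((sqrt_le_left (Nat.cast_nonneg _)).1 hz))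
  have b1 := ModelC_err 0 z D _ _ (h1 D hD1 0 z (Or.inr ⟨rfl, hz'⟩) 1 (Or.inl rfl))
  have b2 := h2 D hD2 z hz hz'
  set I := (Ico 1 ⌈D⌉₊).filter fun N => ArithmeticFunction.liouville N = 1 with hI
  set E := (disc D z).filter fun e => (pr e : ℝ) < D with hE
  have b3 : -(E.card : ℝ) ≤ ∑ N ∈ I, lam 0 D (Qs z N) := by
    have c1 : ∑ N ∈ I, (E.filter fun e => pr e = N).card ≤ E.card := by
      rw [sum_card_fiberwise_eq_card_filter]
      exact card_filter_le _ _
    have c2 : ∑ N ∈ I, ((E.filter fun e => pr e = N).card : ℝ) ≤ E.card := by exact_mod_cast c1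
    refine (neg_le_neg c2).trans ?_
    rw [← sum_neg_distrib]
    refine sum_le_sum fun N hN => le_trans ?_ (lam_lower D (filter_subset _ _))
    rw [neg_le_neg_iff, Nat.cast_le]
    refine card_le_card fun e he => ?_
    obtain ⟨c3, c4, c5⟩ := mem_filter.1 he
    obtain ⟨c6, c7⟩ := mem_filter.1 hN
    obtain ⟨c8, c9⟩ := mem_Ico.1 c6
    have c10 := Nat.lt_ceil.1 c9
    have c11 := ModelC_eq (by omega) c10 c7 c3 c4 c5
    exact mem_filter.2 ⟨mem_filter.2 ⟨c3, by rw [c11]; exact c10⟩, c11⟩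
  set T := log (log D) + log ((z : ℝ) ^ 2 / D)
  have hT : 1 ≤ T := by linarith
  have b4 : C1 * D / log D ^ 2 ≤ C1 * D * T / log D ^ 2 :=
    div_le_div_of_nonneg_right (le_mul_of_one_le_right (by positivity) hT) (by positivity)
  refine le_of_mul_le_mul_left ?_ (half_pos hD0)
  have e : D / 2 * -(2 * (C1 + C2) * T / log D ^ 2) =
      -(C2 * D * T / log D ^ 2) - C1 * D * T / log D ^ 2 := by ring
  linarith

theorem mod_upper {δ C : ℝ} (hδ0 : 0 < δ) (hδ : δ ≤ 1 / 4) (h : PA δ C) :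
    ∃ C' X₀ : ℝ, 0 < C' ∧ ∀ X : ℝ, X₀ ≤ X → ∀ w : ℕ, (w : ℝ) ≤ X ^ (4 / 5 : ℝ) →
      2 / log X - C' / log X ^ 2 ≤ Mm 1 X w := by
  classical
  obtain ⟨C1, D1, hC1, h1⟩ := model_err hδ0 hδ h
  obtain ⟨C2, hC2, h2⟩ := pi_lower hδ0 hδ h
  obtain ⟨D3, h3⟩ := Filter.eventually_atTop.1
    (ev_log_pow_le_real 1 2 (ε := 1 / 5) (by norm_num))
  refine ⟨2 * (C1 + C2 + 1), max (max D1 D3) 2, by positivity, fun X hX w hw => ?_⟩
  have hD1 : D1 ≤ X := ((le_max_left _ _).trans (le_max_left _ _)).trans hX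
  have hD3 : D3 ≤ X := ((le_max_right _ _).trans (le_max_left _ _)).trans hX
  have hX2 : 2 ≤ X := (le_max_right _ _).trans hX
  have hX0 : 0 < X := by linarith
  have a1 : 0 < log X := log_pos (by linarith)
  have b1 := ModelC_err 1 w X _ _ (h1 X hD1 1 w (Or.inl rfl) (-1) (Or.inr rfl))
  have b2 := h2 X hX2
  set I := (Ico 1 ⌈X⌉₊).filter fun N => ArithmeticFunction.liouville N = -1 with hI
  set P := (Ico 1 ⌈X⌉₊).filter Nat.Prime with hP
  have b3 : ((P \ range w).card : ℝ) ≤ ∑ N ∈ I, lam 1 X (Qs w N) := by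
    have c1 : P \ range w ⊆ I := by
      intro N hN
      obtain ⟨c2, c3⟩ := mem_filter.1 (mem_sdiff.1 hN).1
      refine mem_filter.2 ⟨c2, ?_⟩
      rw [ArithmeticFunction.liouville_apply c3.ne_zero,
        ArithmeticFunction.cardFactors_apply_prime c3, pow_one]
    refine le_trans ?_ (sum_le_sum_of_subset_of_nonneg c1 fun N _ _ => lam_upper X _)
    rw [card_eq_sum_ones]
    push_cast
    refine le_of_eq (sum_congr rfl fun N hN => ?_)
    obtain ⟨c2, c3⟩ := mem_sdiff.1 hN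
    have c4 : Qs w N = ∅ := by
      refine filter_eq_empty_iff.2 fun p hp hpN => c3 (mem_range.2 ?_)
      obtain ⟨c5, c6⟩ := Nat.mem_primesBelow.1 hp
      rwa [← (Nat.prime_dvd_prime_iff_eq c6 (mem_filter.1 c2).2).1 hpN]
    rw [c4, lam_empty]
  have b4 : (P.card : ℝ) ≤ (P \ range w).card + w := by
    have := le_card_sdiff (range w) P
    rw [card_range] at this
    exact_mod_cast (by omega : P.card ≤ (P \ range w).card + w)
  have b5 : (w : ℝ) ≤ X / log X ^ 2 := by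
    rw [le_div_iff₀ (by positivity)]
    have c1 := h3 X hD3
    rw [one_mul] at c1
    refine (mul_le_mul hw c1 (by positivity) (by positivity)).trans_eq ?_
    rw [← rpow_add hX0]
    norm_num
  refine le_of_mul_le_mul_left ?_ (half_pos hX0)
  have e : X / 2 * (2 / log X - 2 * (C1 + C2 + 1) / log X ^ 2) =
      X / log X - C1 * X / log X ^ 2 - C2 * X / log X ^ 2 - X / log X ^ 2 := by ring
  linarith

end Vale.Agent.P013
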