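import Vale.Agent.P013.Basic

/-!
Summing the structured remainders over a family. `R a = √(D / pr a) * T`, `m = pr a * pr (b₁ ∪ b₂)`. For `c ∈ Cs L J`,
`∏ ro (c i) ≥ V₀` (some `p ∈ J 0` has `p ≤ ro (bx p) = ro (c 0)`), so `1 ≤ m ≤ pr a * R² / ∏ ro (c i) ≤ D T² / V₀ ≤ y`
(`pr_union_le`, `pr_le_sg`). `|Phi| ≤ NN` always (`abs_Fe_le`). As `pr a ∣ m`, `m` is not rich; so either `|Phi| < κ NN`, or
`m ∈ BadM`, or `m U < y`. Main part: `|Sm L W R| ≤ R` (`card_le_of_pr_le`), so the number of `(b₁, b₂)` is at most `R² / ∏ ro (c i)`, and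
`∑ c, NN (Bx c) / ∏ ro (c i) = ∏ i, ∑ c ∈ image, |box| / ro c ≤ ∏ i, ∑ p ∈ J i, 1 / p` (`Finset.prod_univ_sum`, `le_ro_bx`,
`sum_fiberwise_of_maps_to`). Exceptional part: for fixed `c` and `m` the triples `(a, b₁, b₂)` inject into `(divisors m)³` by `pr`
(`pr_inj`); there are at most `Z + y / U` exceptional `m`; `∑ c, NN (Bx c) = ∏ |J i|`.
-/

namespace Vale.Agent.P013

open Finset Real

theorem selerr_cnt {S : Finset (Finset ℕ)} (h : ∀ d ∈ S, ∀ p ∈ d, p.Prime) {m : ℕ} (hm : m ≠ 0) :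
    ∑ d ∈ S, (if pr d ∣ m then (1 : ℝ) else 0) ≤ m.divisors.card := by
  rw [sum_boole, Nat.cast_le]
  refine card_le_card_of_injOn pr (fun d hd => ?_) fun d hd d' hd' e => ?_
  · exact mem_coe.2 (Nat.mem_divisors.2 ⟨(mem_filter.1 (mem_coe.1 hd)).2, hm⟩)
  · exact pr_inj (h d (mem_filter.1 (mem_coe.1 hd)).1) (h d' (mem_filter.1 (mem_coe.1 hd')).1) e

theorem selerr_triple {G : Finset (Finset ℕ)} {S₁ S₂ : Finset ℕ → Finset (Finset ℕ)}
    (hG : ∀ a ∈ G, ∀ p ∈ a, p.Prime) (h₁ : ∀ a, ∀ d ∈ S₁ a, ∀ p ∈ d, p.Prime)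
    (h₂ : ∀ a, ∀ d ∈ S₂ a, ∀ p ∈ d, p.Prime) {m : ℕ} (hm : m ≠ 0) :
    ∑ a ∈ G, ∑ b₁ ∈ S₁ a, ∑ b₂ ∈ S₂ a, (if pr a * pr (b₁ ∪ b₂) = m then (1 : ℝ) else 0) ≤
      (m.divisors.card : ℝ) ^ 3 := by
  have hi : ∀ d : Finset ℕ, (0 : ℝ) ≤ if pr d ∣ m then 1 else 0 := fun d => by
    split_ifs <;> norm_num
  have k1 : ∀ a b₁ b₂ : Finset ℕ, (if pr a * pr (b₁ ∪ b₂) = m then (1 : ℝ) else 0) ≤
      (if pr a ∣ m then 1 else 0) * ((if pr b₁ ∣ m then 1 else 0) *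
        (if pr b₂ ∣ m then 1 else 0)) := by
    intro a b₁ b₂
    by_cases h : pr a * pr (b₁ ∪ b₂) = m
    · have d1 : pr b₁ ∣ pr (b₁ ∪ b₂) := prod_dvd_prod_of_subset _ _ _ subset_union_left
      have d2 : pr b₂ ∣ pr (b₁ ∪ b₂) := prod_dvd_prod_of_subset _ _ _ subset_union_right
      rw [if_pos h, if_pos (h ▸ dvd_mul_right _ _), if_pos (h ▸ d1.mul_left _),
        if_pos (h ▸ d2.mul_left _)]
      norm_num
    · rw [if_neg h]
      exact mul_nonneg (hi _) (mul_nonneg (hi _) (hi _))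
  calc _ ≤ ∑ a ∈ G, (if pr a ∣ m then (1 : ℝ) else 0) *
        ((m.divisors.card : ℝ) * m.divisors.card) := by
        refine sum_le_sum fun a _ => ?_
        refine (sum_le_sum fun b₁ _ => sum_le_sum fun b₂ _ => k1 a b₁ b₂).trans ?_
        simp only [← mul_sum]
        rw [← sum_mul]
        refine mul_le_mul_of_nonneg_left ?_ (hi a)
        exact mul_le_mul (selerr_cnt (h₁ a) hm) (selerr_cnt (h₂ a) hm)
          (sum_nonneg fun d _ => hi d) (Nat.cast_nonneg _)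
    _ ≤ (m.divisors.card : ℝ) * ((m.divisors.card : ℝ) * m.divisors.card) := by
        rw [← sum_mul]
        exact mul_le_mul_of_nonneg_right (selerr_cnt hG hm) (by positivity)
    _ = _ := by ring

theorem selerr_sm {L W : ℕ} {R : ℝ} {d : Finset ℕ} (h : d ∈ Sm L W R) :
    (∀ p ∈ d, p.Prime) ∧ sg L d ≤ R := by
  obtain ⟨h1, h2⟩ := mem_filter.1 h
  exact ⟨fun p hp => Nat.prime_of_mem_primesBelow (mem_powerset.1 h1 hp), h2⟩

theorem selerr_card_sm {L : ℕ} (hL : 1 ≤ L) (W : ℕ) {R : ℝ} (hR : 0 ≤ R) :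
    ((Sm L W R).card : ℝ) ≤ R :=
  card_le_of_pr_le hR fun _ hd =>
    ⟨(selerr_sm hd).1, (pr_le_sg hL (selerr_sm hd).1).trans (selerr_sm hd).2⟩

theorem selerr_phi {r : ℕ} (x y : ℕ) {m : ℕ} (hm : 1 ≤ m) {B : Fin r → Finset ℕ}
    (hB : ∀ i, ∀ p ∈ B i, 1 ≤ p) : |Phi x y m B| ≤ NN B := by
  refine (abs_sum_le_sum_abs _ _).trans ((sum_le_card_nsmul _ _ 1 fun p hp => ?_).trans ?_)
  · refine abs_Fe_le x y (Nat.mul_pos hm (prod_pos fun i _ => ?_))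
    exact hB i _ (Fintype.mem_piFinset.1 hp i)
  · rw [nsmul_eq_mul, mul_one, Fintype.card_piFinset, NN, Nat.cast_prod]

theorem selerr_NN_nonneg {r : ℕ} (B : Fin r → Finset ℕ) : 0 ≤ NN B :=
  prod_nonneg fun _ _ => Nat.cast_nonneg _

theorem selerr_sum_NN {r : ℕ} (L : ℕ) (J : Fin r → Finset ℕ) :
    ∑ c ∈ Cs L J, NN (Bx L J c) = NN J := by
  have e := prod_univ_sum (fun i => (J i).image (bx L))
    fun i k => ((((J i).filter fun p => bx L p = k).card : ℕ) : ℝ)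
  refine e.symm.trans (prod_congr rfl fun i _ => ?_)
  rw [card_eq_sum_card_image (bx L) (J i), Nat.cast_sum]

theorem selerr_sum_div {r L : ℕ} (hL : 1 ≤ L) {J : Fin r → Finset ℕ}
    (hJ : ∀ i, ∀ p ∈ J i, 1 ≤ p) :
    ∑ c ∈ Cs L J, NN (Bx L J c) / ∏ i, ro L (c i) ≤ ∏ i, ∑ p ∈ J i, 1 / (p : ℝ) := by
  have e := prod_univ_sum (fun i => (J i).image (bx L))
    fun i k => ((((J i).filter fun p => bx L p = k).card : ℕ) : ℝ) / ro L k
  have e2 : ∑ c ∈ Cs L J, NN (Bx L J c) / ∏ i, ro L (c i) =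
      ∑ c ∈ Cs L J, ∏ i, ((((J i).filter fun p => bx L p = c i).card : ℕ) : ℝ) / ro L (c i) :=
    sum_congr rfl fun c _ => by rw [prod_div_distrib]; rfl
  rw [e2]
  refine (le_of_eq e.symm).trans (prod_le_prod (fun i _ => sum_nonneg fun k _ =>
    div_nonneg (Nat.cast_nonneg _) (ro_pos _ _).le) fun i _ => ?_)
  have e3 := sum_comp (s := J i) (fun k => 1 / ro L k) (bx L)
  simp only [nsmul_eq_mul, mul_one_div] at e3
  rw [← e3]
  refine sum_le_sum fun p hp => ?_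
  have h1 : (0 : ℝ) < p := by exact_mod_cast hJ i p hp
  exact one_div_le_one_div_of_le h1 (le_ro_bx hL (hJ i p hp))

theorem selerr_small (y : ℕ) {U : ℝ} (hU : 0 < U) :
    (((Icc 1 y).filter fun m : ℕ => (m : ℝ) * U < y).card : ℝ) ≤ y / U := by
  have h : ((Icc 1 y).filter fun m : ℕ => (m : ℝ) * U < y) ⊆ Icc 1 ⌊(y : ℝ) / U⌋₊ := by
    intro m hm
    obtain ⟨h1, h2⟩ := mem_filter.1 hm
    exact mem_Icc.2 ⟨(mem_Icc.1 h1).1, Nat.le_floor ((le_div_iff₀ hU).2 h2.le)⟩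
  have h2 := card_le_card h
  rw [Nat.card_Icc, Nat.add_sub_cancel] at h2
  exact (Nat.cast_le.2 h2).trans (Nat.floor_le (by positivity))

/-- the bound for one tuple of boxes -/
theorem selerr_one {r : ℕ} (x y : ℕ) {L W : ℕ} {B : Fin r → Finset ℕ}
    {G : Finset (Finset ℕ)} {D T κ e Z U τ ρ P : ℝ} (hL : 1 ≤ L)
    (hB : ∀ i, ∀ p ∈ B i, 1 ≤ p) (hP : 0 < P)
    (hD : 0 < D) (hT : 1 ≤ T) (hκ : 0 ≤ κ) (he : 0 ≤ e) (hU : 0 < U)
    (hG : ∀ a ∈ G, ∀ p ∈ a, p.Prime) (hDT : D * T ^ 2 ≤ y * P)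
    (hτ : ∀ m ∈ Icc 1 y, (m.divisors.card : ℝ) ≤ τ)
    (hR : ∀ a ∈ G, ∀ m ∈ Icc 1 y, pr a ∣ m → ¬ Rich x y ρ m)
    (hZ : ((BadM x y B U κ ρ).card : ℝ) ≤ Z) :
    ∑ a ∈ G, ∑ b₁ ∈ Sm L W (√(D / pr a) * T / P), ∑ b₂ ∈ Sm L W (√(D / pr a) * T),
        (|Phi x y (pr a * pr (b₁ ∪ b₂)) B| + e * NN B) ≤
      (κ + e) * (D * T ^ 2) * (∑ a ∈ G, 1 / (pr a : ℝ)) * (NN B / P) +
        (Z + y / U) * τ ^ 3 * NN B := by
  classical
  have hN := selerr_NN_nonneg B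
  have hy : 1 ≤ y := by
    rcases Nat.eq_zero_or_pos y with rfl | h
    · have : 0 < D * T ^ 2 := by positivity
      simp only [Nat.cast_zero, zero_mul] at hDT
      linarith
    · exact h
  have hτ0 : 0 ≤ τ := (Nat.cast_nonneg _).trans (hτ 1 (mem_Icc.2 ⟨le_rfl, hy⟩))
  obtain ⟨E, hE⟩ : ∃ E : Finset ℕ,
      E = BadM x y B U κ ρ ∪ (Icc 1 y).filter fun m : ℕ => (m : ℝ) * U < y := ⟨_, rfl⟩
  have hE1 : ∀ m ∈ E, m ∈ Icc 1 y := by
    intro m hm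
    rw [hE, mem_union] at hm
    rcases hm with h | h
    · exact (mem_filter.1 h).1
    · exact (mem_filter.1 h).1
  have hE2 : (E.card : ℝ) ≤ Z + y / U := by
    have := (Nat.cast_le (α := ℝ)).2 (card_union_le (BadM x y B U κ ρ)
      ((Icc 1 y).filter fun m : ℕ => (m : ℝ) * U < y))
    rw [← hE, Nat.cast_add] at this
    linarith [selerr_small y hU]
  have hsq : ∀ a ∈ G, pr a * ((√(D / pr a) * T / P) * (√(D / pr a) * T)) = D * T ^ 2 / P := by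
    intro a ha
    have h0 : (0 : ℝ) < pr a := by exact_mod_cast pr_pos (hG a ha)
    have h1 : √(D / pr a) * √(D / pr a) = D / pr a := Real.mul_self_sqrt (by positivity)
    calc _ = pr a * (√(D / pr a) * √(D / pr a)) * T ^ 2 / P := by ring
      _ = _ := by rw [h1]; field_simp
  have key : ∀ a ∈ G, ∀ b₁ ∈ Sm L W (√(D / pr a) * T / P), ∀ b₂ ∈ Sm L W (√(D / pr a) * T),
      |Phi x y (pr a * pr (b₁ ∪ b₂)) B| + e * NN B ≤
        (κ + e) * NN B + NN B * ∑ m ∈ E, if pr a * pr (b₁ ∪ b₂) = m then (1 : ℝ) else 0 := by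
    intro a ha b₁ h₁ b₂ h₂
    obtain ⟨p₁, s₁⟩ := selerr_sm h₁
    obtain ⟨p₂, s₂⟩ := selerr_sm h₂
    have hm1 : 1 ≤ pr a * pr (b₁ ∪ b₂) := Nat.mul_pos (pr_pos (hG a ha))
      (pr_pos fun p hp => (mem_union.1 hp).elim (p₁ p) (p₂ p))
    have hm2 : pr a * pr (b₁ ∪ b₂) ≤ y := by
      have a1 : (pr (b₁ ∪ b₂) : ℝ) ≤ pr b₁ * pr b₂ := by exact_mod_cast pr_union_le p₁
      have a2 := mul_le_mul ((pr_le_sg hL p₁).trans s₁) ((pr_le_sg hL p₂).trans s₂)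
        (Nat.cast_nonneg _) (by positivity)
      have a3 := mul_le_mul_of_nonneg_left (a1.trans a2) (Nat.cast_nonneg (α := ℝ) (pr a))
      rw [hsq a ha] at a3
      have a4 : D * T ^ 2 / P ≤ y := (div_le_iff₀ hP).2 hDT
      exact_mod_cast a3.trans a4
    have hm := mem_Icc.2 ⟨hm1, hm2⟩
    rw [sum_ite_eq]
    split_ifs with h
    · have := selerr_phi x y hm1 hB
      nlinarith [mul_nonneg hκ hN]
    · rw [hE, mem_union, not_or, mem_filter, BadM, mem_filter] at h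
      have a1 : (y : ℝ) ≤ ((pr a * pr (b₁ ∪ b₂) : ℕ) : ℝ) * U := not_lt.1 fun h' => h.2 ⟨hm, h'⟩
      have a2 : |Phi x y (pr a * pr (b₁ ∪ b₂)) B| < κ * NN B :=
        not_le.1 fun h' => h.1 ⟨hm, a1, h', hR a ha _ hm (dvd_mul_right _ _)⟩
      linarith
  refine (sum_le_sum fun a ha => sum_le_sum fun b₁ h₁ => sum_le_sum fun b₂ h₂ =>
    key a ha b₁ h₁ b₂ h₂).trans ?_
  simp only [sum_add_distrib]
  refine add_le_add ?_ ?_
  · rw [mul_sum, sum_mul]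
    refine sum_le_sum fun a ha => ?_
    have h0 : (0 : ℝ) < pr a := by exact_mod_cast pr_pos (hG a ha)
    rw [sum_const, sum_const, nsmul_eq_mul, nsmul_eq_mul, ← mul_assoc]
    have a1 := mul_le_mul (selerr_card_sm hL W (R := √(D / pr a) * T / P) (by positivity))
      (selerr_card_sm hL W (R := √(D / pr a) * T) (by positivity)) (Nat.cast_nonneg _)
      (by positivity)
    have a2 : √(D / pr a) * T / P * (√(D / pr a) * T) = D * T ^ 2 / P / pr a := by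
      rw [← hsq a ha, mul_div_cancel_left₀ _ h0.ne']
    rw [a2] at a1
    refine (mul_le_mul_of_nonneg_right a1 (by positivity)).trans (le_of_eq ?_)
    ring
  · simp only [← mul_sum]
    rw [mul_comm _ (NN B)]
    refine mul_le_mul_of_nonneg_left ?_ hN
    have e1 : ∑ a ∈ G, ∑ b₁ ∈ Sm L W (√(D / pr a) * T / P), ∑ b₂ ∈ Sm L W (√(D / pr a) * T),
        ∑ m ∈ E, (if pr a * pr (b₁ ∪ b₂) = m then (1 : ℝ) else 0) =
        ∑ m ∈ E, ∑ a ∈ G, ∑ b₁ ∈ Sm L W (√(D / pr a) * T / P), ∑ b₂ ∈ Sm L W (√(D / pr a) * T),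
        (if pr a * pr (b₁ ∪ b₂) = m then (1 : ℝ) else 0) := by
      rw [sum_comm (s := E)]
      refine sum_congr rfl fun a _ => ?_
      rw [sum_comm (s := E)]
      refine sum_congr rfl fun b₁ _ => ?_
      rw [sum_comm (s := E)]
    rw [e1]
    refine (sum_le_card_nsmul _ _ (τ ^ 3) fun m hm => ?_).trans ?_
    · have hm' := hE1 m hm
      refine (selerr_triple hG (fun a d hd => (selerr_sm hd).1) (fun a d hd => (selerr_sm hd).1)
        (by have := (mem_Icc.1 hm').1; omega)).trans ?_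
      exact pow_le_pow_left₀ (Nat.cast_nonneg _) (hτ m hm') 3
    · rw [nsmul_eq_mul]
      exact mul_le_mul_of_nonneg_right hE2 (by positivity)

theorem sel_err {r : ℕ} (hr : 1 ≤ r) (x y : ℕ) {L W : ℕ} {J : Fin r → Finset ℕ}
    {G : Finset (Finset ℕ)} {D T κ e Z U τ ρ V₀ : ℝ} (hL : 1 ≤ L)
    (hJ : ∀ i, J i ⊆ Nat.primesBelow W) (hV : ∀ i, ∀ p ∈ J i, V₀ ≤ (p : ℝ)) (hV0 : 0 < V₀)
    (hD : 0 < D) (hT : 1 ≤ T) (hκ : 0 ≤ κ) (he : 0 ≤ e) (hU : 0 < U) (hZ0 : 0 ≤ Z)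
    (hG : ∀ a ∈ G, ∀ p ∈ a, p.Prime) (hDT : D * T ^ 2 ≤ y * V₀)
    (hτ : ∀ m ∈ Icc 1 y, (m.divisors.card : ℝ) ≤ τ)
    (hR : ∀ a ∈ G, ∀ m ∈ Icc 1 y, pr a ∣ m → ¬ Rich x y ρ m)
    (hZ : ∀ c ∈ Cs L J, ((BadM x y (Bx L J c) U κ ρ).card : ℝ) ≤ Z) :
    ∑ a ∈ G, ErrS x y (pr a) L W J (√(D / pr a) * T) e ≤
      (κ + e) * (D * T ^ 2) * (∑ a ∈ G, 1 / (pr a : ℝ)) * ∏ i, ∑ p ∈ J i, 1 / (p : ℝ) +
        (Z + y / U) * τ ^ 3 * NN J := by
  have hJ1 : ∀ i, ∀ p ∈ J i, 1 ≤ p := fun i p hp =>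
    (Nat.prime_of_mem_primesBelow (hJ i hp)).one_le
  have hP : ∀ c ∈ Cs L J, V₀ ≤ ∏ i, ro L (c i) := by
    intro c hc
    obtain ⟨p, hp, e⟩ := mem_image.1 (Fintype.mem_piFinset.1 hc ⟨0, hr⟩)
    have a1 := (hV _ p hp).trans (le_ro_bx hL (hJ1 _ p hp))
    rw [e] at a1
    rw [← mul_prod_erase univ _ (mem_univ (⟨0, hr⟩ : Fin r))]
    refine a1.trans (le_mul_of_one_le_right (ro_pos _ _).le ?_)
    exact (prod_const_one (s := univ.erase (⟨0, hr⟩ : Fin r))).symm.trans_le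
      (prod_le_prod (fun _ _ => zero_le_one) fun i _ => one_le_ro _ _)
  unfold ErrS
  rw [sum_comm]
  refine (sum_le_sum fun c hc => selerr_one (B := Bx L J c) x y hL
    (fun i p hp => hJ1 i p (mem_filter.1 hp).1) (hV0.trans_le (hP c hc)) hD hT hκ he hU hG
    (hDT.trans (mul_le_mul_of_nonneg_left (hP c hc) (Nat.cast_nonneg _))) hτ hR (hZ c hc)).trans ?_
  rw [sum_add_distrib, ← mul_sum, ← mul_sum, selerr_sum_NN]
  refine add_le_add_left (mul_le_mul_of_nonneg_left (selerr_sum_div hL hJ1) ?_) _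
  exact mul_nonneg (by positivity) (sum_nonneg fun a _ => by positivity)

end Vale.Agent.P013
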