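import Vale.Agent.P013.FP
import Vale.Agent.P013.PACor

/-!
Numerical application of `fingerprint`. `ℒ = log y`, `L = ⌈ℒ⌉₊ ≤ 2 ℒ`, `v = vv c₀ K₀ K y` (strictly increasing, `v 0 ≥ c₀ log ℒ`,
`v 0 ≤ (c₀ + 1) log ℒ`, `v (j + 1) ≤ K₀ K^j (c₀ + 1) log ℒ`), `c₁ = 14 B + 24 + ⌈2 / δ⌉₊`.
Boxes: for `p ≥ 2`, `c ≥ 1`: `bx L p = c ↔ exp ((c - 1) / L) < p ≤ exp (c / L)`. For `p ∈ JJ _ v i`, `c = bx L p` satisfies
`L v i < c ≤ L v (i + 1)` (integers), so the box `{q ∈ JJ _ v i : bx L q = c}` equals `PR t (t exp (1 / L))`, `t = exp ((c - 1) / L) ≥ exp (v 0) ≥ ℒ^c₀`.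
As `t^δ ≥ ℒ² ≥ C' L`, `short_count` gives at least `t / (2 L (log t + 1)) ≥ √t / (4 L) ≥ ℒ^(c₀ / 2 - 2)` primes.
Apply `fingerprint` with `P = exp ((c 0 - 1) / L) ≤ exp (v 1)` (`exp (1 / L) ≤ 2`), `V = exp (v (j + 1))`, `s = ⌈√ℒ⌉₊`, `κ = 1 / ℒ^B`,
`Λ₁ = 32 ℒ^(2 B + 2)`: `s^j ≥ ℒ^(j / 2) ≥ exp (v 1) ≥ P`, `P / |B 0| ≤ 2 L (log P + 1)` and `log P, log V = O(log ℒ)`, so the bracket in `hΛ` is
at most `1 + O(ℒ (log ℒ)^4) ≤ ℒ²`. `θ = 1 / (65536 ℒ^(7 B + 4))`, `θ |B 0| ≥ ℒ² ≥ 4 log (6 y²)`. For `hρ`: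
`V^(j s) = exp (O(√ℒ log ℒ)) ≤ y^(δ₃ / 2)`, `U + 2 ≤ 3 y^δ₃`, and powers of `ℒ` are below `y^(δ₃ / 2)` (`ev_log_pow_le`, `ev_loglog_pow_le`).
-/

namespace Vale.Agent.P013

open Finset Real Filter

theorem JJ_disjoint {r : ℕ} {v : ℕ → ℕ} (hv : ∀ i, v i ≤ v (i + 1)) (i i' : Fin r) (h : i ≠ i') :
    Disjoint (JJ r v i) (JJ r v i') := by
  have hm := monotone_nat_of_le_succ hv
  have key : ∀ a b : Fin r, a < b → Disjoint (JJ r v a) (JJ r v b) := by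
    intro a b hab
    rw [Finset.disjoint_left]
    intro p h1 h2
    rw [JJ, mem_PR (exp_pos _).le (exp_pos _).le] at h1 h2
    have h3 : (v (a + 1) : ℝ) ≤ v b := by exact_mod_cast hm (Nat.succ_le_of_lt hab)
    exact absurd (h1.2.2.trans (exp_le_exp.2 h3)) (not_le.2 h2.2.1)
  rcases lt_or_gt_of_ne h with h | h
  · exact key _ _ h
  · exact (key _ _ h).symm

theorem selfp_box {L a b c p : ℕ} (hL : 1 ≤ L) (hp : p ∈ PR (exp a) (exp b)) (hc : bx L p = c) :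
    ((PR (exp a) (exp b)).filter fun q => bx L q = c) =
        PR (exp (((c : ℝ) - 1) / L)) (exp (((c : ℝ) - 1) / L) * exp (1 / (L : ℝ))) ∧
      exp a ≤ exp (((c : ℝ) - 1) / L) ∧ exp (((c : ℝ) - 1) / L) * exp (1 / (L : ℝ)) ≤ exp b := by
  have hL' : (0 : ℝ) < L := by exact_mod_cast hL
  rw [mem_PR (exp_pos _).le (exp_pos _).le] at hp
  have hp0 : (0 : ℝ) < p := by exact_mod_cast hp.1.pos
  have h1 : L * a < c := by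
    have h2 : (a : ℝ) < log p := (lt_log_iff_exp_lt hp0).2 hp.2.1
    have h3 : (L : ℝ) * log p ≤ c := hc ▸ Nat.le_ceil _
    have h4 : (L : ℝ) * a < c := (mul_lt_mul_of_pos_left h2 hL').trans_le h3
    exact_mod_cast h4
  have h2 : c ≤ L * b := by
    rw [← hc, bx, Nat.ceil_le]
    push_cast
    exact mul_le_mul_of_nonneg_left ((log_le_iff_le_exp hp0).2 hp.2.2) hL'.le
  have e : exp (((c : ℝ) - 1) / L) * exp (1 / (L : ℝ)) = exp ((c : ℝ) / L) := by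
    rw [← exp_add]; congr 1; ring
  have h3 : exp a ≤ exp (((c : ℝ) - 1) / L) := by
    rw [exp_le_exp, le_div_iff₀ hL']
    have : ((L * a + 1 : ℕ) : ℝ) ≤ c := by exact_mod_cast h1
    push_cast at this
    linarith
  have h4 : exp ((c : ℝ) / L) ≤ exp b := by
    rw [exp_le_exp, div_le_iff₀ hL']
    have : (c : ℝ) ≤ ((L * b : ℕ) : ℝ) := by exact_mod_cast h2
    push_cast at this
    linarith
  rw [e]
  refine ⟨?_, h3, h4⟩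
  ext q
  rw [mem_filter, mem_PR (exp_pos _).le (exp_pos _).le, mem_PR (exp_pos _).le (exp_pos _).le]
  have hc0 : c ≠ 0 := by omega
  have k : q.Prime → (bx L q = c ↔ exp (((c : ℝ) - 1) / L) < q ∧ (q : ℝ) ≤ exp ((c : ℝ) / L)) := by
    intro hq
    have hq0 : (0 : ℝ) < q := by exact_mod_cast hq.pos
    rw [bx, Nat.ceil_eq_iff hc0, ← lt_log_iff_exp_lt hq0, ← log_le_iff_le_exp hq0,
      div_lt_iff₀ hL', le_div_iff₀ hL', Nat.cast_sub (Nat.one_le_iff_ne_zero.2 hc0), Nat.cast_one,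
      mul_comm]
  constructor
  · rintro ⟨h5, h6⟩
    exact ⟨h5.1, (k h5.1).1 h6⟩
  · rintro ⟨h5, h6⟩
    exact ⟨⟨h5, h3.trans_lt h6.1, h6.2.trans h4⟩, (k h5).2 h6⟩

theorem selfp_low {ℒ L t : ℝ} {n : ℕ} (h8 : 8 ≤ ℒ) (hL : 0 < L) (hL2 : L ≤ 2 * ℒ)
    (ht : ℒ ^ (2 * (n + 2)) ≤ t) : ℒ ^ n ≤ t / (2 * L * (log t + 1)) := by
  have h1 : 1 ≤ t := (one_le_pow₀ (by linarith)).trans ht
  have hs : 0 < √t := sqrt_pos.2 (by linarith)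
  have hl : 0 ≤ log t := log_nonneg h1
  have h2 : log t + 1 ≤ 2 * √t := by
    have a1 := log_le_sub_one_of_pos hs
    rw [log_sqrt (by linarith)] at a1
    linarith
  have h3 : ℒ ^ (n + 2) ≤ √t := by
    apply le_sqrt_of_sq_le
    rwa [← pow_mul, mul_comm]
  have hn : 0 < ℒ ^ n := by positivity
  rw [le_div_iff₀ (by positivity)]
  calc ℒ ^ n * (2 * L * (log t + 1)) ≤ ℒ ^ n * (2 * (2 * ℒ) * (2 * √t)) := by gcongr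
    _ = ℒ ^ n * (8 * ℒ) * √t := by ring
    _ ≤ ℒ ^ n * (ℒ * ℒ) * √t := by gcongr
    _ = ℒ ^ (n + 2) * √t := by ring
    _ ≤ √t * √t := by gcongr
    _ = t := mul_self_sqrt (by linarith)

theorem selfp_Lam {ℒ ℓ L P M N A S : ℝ} (j B : ℕ) (h16 : 16 ≤ ℒ) (hℓ : 1 ≤ ℓ) (hL : 0 < L)
    (hL2 : L ≤ 2 * ℒ) (hP : 1 ≤ P) (hS : P ≤ S) (hPA : log P ≤ A * ℓ) (hM0 : 0 ≤ M)
    (hM : M ≤ A * ℓ) (hA : 0 ≤ A) (hN : P / (2 * L * (log P + 1)) ≤ N)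
    (hev : 16 * (j + 2) * (A + 1) ^ 4 * ℓ ^ 4 ≤ ℒ) :
    32 / (1 / ℒ ^ B) ^ 2 * (P / S + P * (1 + log P) ^ 2 * (2 * log (2 * P * exp M ^ j)) / N) ≤
      32 * ℒ ^ (2 * B + 2) := by
  have hl : 0 ≤ log P := log_nonneg hP
  have hN0 : 0 < N := lt_of_lt_of_le (by positivity) hN
  have h1 : P / S ≤ 1 := div_le_one_of_le₀ hS (by linarith)
  have h2 : P / N ≤ 2 * L * (log P + 1) := by
    rw [div_le_iff₀ (by positivity)] at hN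
    rw [div_le_iff₀ hN0]
    linarith
  have h3 : log P + 1 ≤ (A + 1) * ℓ := by linarith
  have e1 : log (2 * P * exp M ^ j) = log 2 + log P + j * M := by
    rw [log_mul (by positivity) (by positivity), log_mul (by positivity) (by positivity), log_pow,
      log_exp]
  have hl2 : 0 ≤ log 2 := log_nonneg one_le_two
  have h4 : log (2 * P * exp M ^ j) ≤ (j + 2) * ((A + 1) * ℓ) := by
    have a1 : log 2 ≤ 1 := by have := log_two_lt_d9; linarith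
    have a2 : (j : ℝ) * M ≤ j * ((A + 1) * ℓ) := by
      refine mul_le_mul_of_nonneg_left ?_ (Nat.cast_nonneg _)
      linarith
    have a3 : 0 ≤ (A + 1) * ℓ := by positivity
    rw [e1]
    linarith
  have h5 : 0 ≤ log (2 * P * exp M ^ j) := by rw [e1]; positivity
  have h6 : P * (1 + log P) ^ 2 * (2 * log (2 * P * exp M ^ j)) / N ≤ ℒ ^ 2 / 2 := by
    calc P * (1 + log P) ^ 2 * (2 * log (2 * P * exp M ^ j)) / N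
        = P / N * ((log P + 1) ^ 2 * (2 * log (2 * P * exp M ^ j))) := by ring
      _ ≤ 2 * L * (log P + 1) * ((log P + 1) ^ 2 * (2 * log (2 * P * exp M ^ j))) := by gcongr
      _ ≤ 2 * (2 * ℒ) * ((A + 1) * ℓ) * (((A + 1) * ℓ) ^ 2 * (2 * ((j + 2) * ((A + 1) * ℓ)))) := by
        gcongr
      _ = ℒ / 2 * (16 * (j + 2) * (A + 1) ^ 4 * ℓ ^ 4) := by ring
      _ ≤ ℒ / 2 * ℒ := by gcongr
      _ = ℒ ^ 2 / 2 := by ring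
  have h7 : P / S + P * (1 + log P) ^ 2 * (2 * log (2 * P * exp M ^ j)) / N ≤ ℒ ^ 2 := by
    nlinarith
  have e2 : 32 / (1 / ℒ ^ B) ^ 2 = 32 * ℒ ^ (2 * B) := by
    have : ℒ ≠ 0 := by linarith
    field_simp
    ring
  rw [e2]
  calc _ ≤ 32 * ℒ ^ (2 * B) * ℒ ^ 2 := by gcongr
    _ = _ := by ring

theorem selfp_th {ℒ : ℝ} (B : ℕ) (h : 0 < ℒ) :
    (1 / ℒ ^ B / 4) ^ 3 / (32 * ℒ ^ (2 * B + 2)) ^ 2 = 1 / (65536 * ℒ ^ (7 * B + 4)) := by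
  field_simp
  ring

theorem selfp_theta {y N : ℝ} (B : ℕ) (hy : 0 < y) (h16 : 16 ≤ log y)
    (hN : log y ^ (7 * B + 10) ≤ N) :
    4 * log (6 * y ^ 2) ≤ (1 / log y ^ B / 4) ^ 3 / (32 * log y ^ (2 * B + 2)) ^ 2 * N := by
  rw [selfp_th B (by linarith), log_mul (by norm_num) (by positivity), log_pow]
  have a1 : log 6 ≤ 5 := by have := log_le_sub_one_of_pos (show (0 : ℝ) < 6 by norm_num); linarith
  generalize log y = ℒ at *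
  have h0 : 0 < ℒ := by linarith
  have a2 : (16 : ℝ) ^ 5 ≤ ℒ ^ 5 := by gcongr
  calc 4 * (log 6 + ((2 : ℕ) : ℝ) * ℒ) ≤ 12 * ℒ := by push_cast; linarith
    _ ≤ ℒ ^ 5 / 65536 * ℒ := by
      refine mul_le_mul_of_nonneg_right ?_ h0.le
      linarith
    _ = 1 / (65536 * ℒ ^ (7 * B + 4)) * ℒ ^ (7 * B + 10) := by field_simp; ring
    _ ≤ _ := by gcongr

theorem selfp_rho {y ℒ W δ : ℝ} (B : ℕ) (hy : 1 ≤ y) (hℒ : 0 < ℒ) (hδ0 : 0 < δ) (hδ : δ ≤ 1 / 50)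
    (hW0 : 0 < W) (hW : W ≤ y ^ (δ / 2)) (hev : 3145728 * ℒ ^ (8 * B + 4) ≤ y ^ (δ / 2)) :
    y ^ (1 - 3 * δ) + 1 ≤ (1 / ℒ ^ B / 4) ^ 3 / (32 * ℒ ^ (2 * B + 2)) ^ 2 / 2 *
      (1 / ℒ ^ B / 4 * y ^ (1 - δ) / ((y ^ δ + 2) * W)) := by
  have hy0 : 0 < y := by linarith
  have a1 : 1 ≤ y ^ (1 - 3 * δ) := one_le_rpow hy (by linarith)
  have a2 : 1 ≤ y ^ δ := one_le_rpow hy hδ0.le
  have e1 : y ^ (1 - δ) = y ^ (1 - 3 * δ) * y ^ δ * y ^ (δ / 2) * y ^ (δ / 2) := by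
    rw [← rpow_add hy0, ← rpow_add hy0, ← rpow_add hy0]; congr 1; ring
  have e2 : (1 / ℒ ^ B / 4) ^ 3 / (32 * ℒ ^ (2 * B + 2)) ^ 2 / 2 *
      (1 / ℒ ^ B / 4 * y ^ (1 - δ) / ((y ^ δ + 2) * W)) =
      y ^ (1 - δ) / (524288 * ℒ ^ (8 * B + 4) * ((y ^ δ + 2) * W)) := by
    rw [selfp_th B hℒ]
    field_simp
    ring
  rw [e2, le_div_iff₀ (by positivity), e1]
  calc (y ^ (1 - 3 * δ) + 1) * (524288 * ℒ ^ (8 * B + 4) * ((y ^ δ + 2) * W))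
      ≤ (2 * y ^ (1 - 3 * δ)) * (524288 * ℒ ^ (8 * B + 4) * ((3 * y ^ δ) * y ^ (δ / 2))) := by
        gcongr <;> linarith
    _ = y ^ (1 - 3 * δ) * y ^ δ * (3145728 * ℒ ^ (8 * B + 4)) * y ^ (δ / 2) := by ring
    _ ≤ _ := by gcongr

theorem selfp_vv_mono {c₀ K₀ K : ℕ} (y : ℕ) (h₀ : 2 ≤ K₀) (h : 2 ≤ K) (i : ℕ) :
    vv c₀ K₀ K y i ≤ vv c₀ K₀ K y (i + 1) := by
  cases i with
  | zero =>
    simp only [vv, pow_zero, mul_one]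
    exact Nat.le_mul_of_pos_left _ (by omega)
  | succ i =>
    simp only [vv]
    exact Nat.mul_le_mul_right _ (Nat.mul_le_mul_left _ (Nat.pow_le_pow_right (by omega) (by omega)))

theorem selfp_boxes {δ C' ℒ : ℝ} {B c₀ L r : ℕ} {v : ℕ → ℕ} (hδ0 : 0 < δ) (hC' : 0 < C')
    (hsc : ∀ t L : ℝ, 1 ≤ t → 1 ≤ L → C' * L ≤ t ^ δ →
      t / (2 * L * (log t + 1)) ≤ ((PR t (t * exp (1 / L))).card : ℝ))
    (hc : 14 * B + 24 + ⌈2 / δ⌉₊ ≤ c₀) (h16 : 16 ≤ ℒ) (hC2 : 2 * C' ≤ ℒ) (hL1 : ℒ ≤ L)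
    (hL2 : (L : ℝ) ≤ 2 * ℒ) (hm : Monotone v) (w3 : ℒ ^ c₀ ≤ exp (v 0)) (i : Fin r) (c : ℕ)
    (hp : ∃ p ∈ JJ r v i, bx L p = c) : ∃ t : ℝ,
      ((JJ r v i).filter fun q => bx L q = c) = PR t (t * exp (1 / (L : ℝ))) ∧
      ℒ ^ c₀ ≤ t ∧ t ≤ exp (v (i + 1)) ∧
      t / (2 * L * (log t + 1)) ≤ ((PR t (t * exp (1 / (L : ℝ)))).card : ℝ) ∧
      ℒ ^ (7 * B + 10) ≤ ((PR t (t * exp (1 / (L : ℝ)))).card : ℝ) := by
  obtain ⟨p, hp, hpc⟩ := hp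
  have hℒ0 : 0 < ℒ := by linarith
  have hℒ1 : 1 ≤ ℒ := by linarith
  have hL0 : 1 ≤ L := by
    have : (1 : ℝ) ≤ L := by linarith
    exact_mod_cast this
  obtain ⟨b1, b2, b3⟩ := selfp_box hL0 hp hpc
  set t := exp (((c : ℝ) - 1) / L) with ht
  have t0 : 0 < t := exp_pos _
  have t1 : ℒ ^ c₀ ≤ t :=
    w3.trans ((exp_le_exp.2 (by exact_mod_cast hm (Nat.zero_le _))).trans b2)
  have t2 : C' * L ≤ t ^ δ := by
    have a1 : (2 : ℝ) ≤ c₀ * δ := by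
      have a2 : 2 / δ ≤ (c₀ : ℝ) :=
        (Nat.le_ceil _).trans (by exact_mod_cast (Nat.le_add_left _ _).trans hc)
      rwa [div_le_iff₀ hδ0] at a2
    calc C' * L ≤ C' * (2 * ℒ) := by gcongr
      _ = 2 * C' * ℒ := by ring
      _ ≤ ℒ * ℒ := by gcongr
      _ = ℒ ^ (2 : ℝ) := by rw [rpow_two, sq]
      _ ≤ ℒ ^ (c₀ * δ) := rpow_le_rpow_of_exponent_le hℒ1 a1
      _ = (ℒ ^ c₀) ^ δ := by rw [rpow_mul hℒ0.le, rpow_natCast]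
      _ ≤ t ^ δ := rpow_le_rpow (by positivity) t1 hδ0.le
  have t3 := hsc t L ((one_le_pow₀ hℒ1).trans t1) (by linarith) t2
  refine ⟨t, b1, t1, le_trans ?_ b3, t3, le_trans ?_ t3⟩
  · exact le_mul_of_one_le_right t0.le (one_le_exp (by positivity))
  · exact selfp_low (by linarith) (by linarith) hL2
      ((pow_le_pow_right₀ hℒ1 (by omega)).trans t1)

theorem selfp_s {ℒ : ℝ} (h16 : 16 ≤ ℒ) : √ℒ ≤ (⌈√ℒ⌉₊ : ℝ) ∧ (⌈√ℒ⌉₊ : ℝ) ≤ 2 * √ℒ ∧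
    1 ≤ ⌈√ℒ⌉₊ ∧ (⌈√ℒ⌉₊ : ℝ) ≤ ℒ := by
  have hsq : 4 ≤ √ℒ := le_sqrt_of_sq_le (by linarith)
  have hsq2 : √ℒ * √ℒ = ℒ := mul_self_sqrt (by linarith)
  have s1 : √ℒ ≤ (⌈√ℒ⌉₊ : ℝ) := Nat.le_ceil _
  have s2 : (⌈√ℒ⌉₊ : ℝ) ≤ 2 * √ℒ := by
    have := Nat.ceil_lt_add_one (sqrt_nonneg ℒ)
    linarith
  refine ⟨s1, s2, ?_, by nlinarith⟩
  have : (1 : ℝ) ≤ (⌈√ℒ⌉₊ : ℝ) := by linarith
  exact_mod_cast this

theorem selfp_main {δ₃ A P : ℝ} {B L j x y : ℕ} {v : ℕ → ℕ} {c : Fin (j + 1) → ℕ}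
    (h3 : 0 < δ₃) (h3' : δ₃ ≤ 1 / 50) (hy : (1 : ℝ) ≤ y) (h16 : 16 ≤ log y)
    (hℓ : 1 ≤ log (log y)) (hL1 : log y ≤ L) (hL2 : (L : ℝ) ≤ 2 * log y)
    (hv : ∀ i, v i ≤ v (i + 1)) (hA0 : 0 ≤ A) (w4 : (v (j + 1) : ℝ) ≤ A * log (log y))
    (w5 : (v 1 : ℝ) ≤ j * (log (log y) / 2))
    (e1 : 16 * (j + 2) * (A + 1) ^ 4 * log (log y) ^ 4 ≤ log y)
    (e2 : 4 * A * j / δ₃ * log (log y) ≤ √(log y))
    (e3 : 3145728 * log y ^ (8 * B + 4) ≤ (y : ℝ) ^ (δ₃ / 2))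
    (hcard : ∀ i, log y ^ (7 * B + 10) ≤ ((Bx L (JJ (j + 1) v) c i).card : ℝ))
    (p1 : Bx L (JJ (j + 1) v) c 0 = PR P (P * exp (1 / (L : ℝ)))) (p2 : log y ^ (B + 1) ≤ P)
    (p3 : P ≤ exp (v 1))
    (p4 : P / (2 * L * (log P + 1)) ≤ ((Bx L (JJ (j + 1) v) c 0).card : ℝ)) :
    ((BadM x y (Bx L (JJ (j + 1) v) c) ((y : ℝ) ^ δ₃) (1 / log y ^ B)
      ((y : ℝ) ^ (1 - 3 * δ₃))).card : ℝ) ≤ (y : ℝ) ^ (1 - δ₃) := by
  have hm := monotone_nat_of_le_succ hv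
  have hθ := selfp_theta B (by linarith : (0 : ℝ) < y) h16 (hcard 0)
  have hyp : ∀ a : ℝ, (y : ℝ) ^ a = exp (log y * a) := rpow_def_of_pos (by linarith)
  generalize log (y : ℝ) = ℒ at *
  have hℒ0 : 0 < ℒ := by linarith
  have hℒ1 : 1 ≤ ℒ := by linarith
  have hℒe : exp (log ℒ) = ℒ := exp_log hℒ0
  generalize log ℒ = ℓ at *
  have hsub : ∀ i, Bx L (JJ (j + 1) v) c i ⊆ JJ (j + 1) v i := fun i => filter_subset _ _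
  have hP1 : 1 ≤ P := (one_le_pow₀ hℒ1).trans p2
  obtain ⟨s1, s2, s3, s4⟩ := selfp_s h16
  refine fingerprint x y ⌈√ℒ⌉₊ _ (P := P) (V := exp (v (j + 1))) (Λ₁ := 32 * ℒ ^ (2 * B + 2))
    (fun i p hp => prime_of_mem_PR (hsub i hp))
    (fun i i' hi => (JJ_disjoint hv i i' hi).mono (hsub i) (hsub i')) ?_ ?_ ?_
    (one_le_exp (Nat.cast_nonneg _)) s3 ?_ (by positivity) ?_ ?_ (by positivity) (by positivity)
    ?_ hθ ?_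
  · rw [← card_pos]
    have : (0 : ℝ) < (Bx L (JJ (j + 1) v) c 0).card := lt_of_lt_of_le (by positivity) (hcard 0)
    exact_mod_cast this
  · intro p hp
    rw [p1, mem_PR (by linarith) (by positivity)] at hp
    refine ⟨hp.2.1.le, hp.2.2.trans ?_⟩
    have a1 : exp (1 / (L : ℝ)) ≤ 2 := by
      rw [← le_log_iff_exp_le two_pos]
      have a2 := log_two_gt_d9
      have a3 : 1 / (L : ℝ) ≤ 1 / 2 := one_div_le_one_div_of_le two_pos (by linarith)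
      linarith
    rw [mul_comm]
    gcongr
  · intro i p hp
    have hp' := hsub _ hp
    rw [JJ, mem_PR (exp_pos _).le (exp_pos _).le, Fin.val_succ] at hp'
    have hi := i.2
    refine ⟨p3.trans_lt (lt_of_le_of_lt (exp_le_exp.2 ?_) hp'.2.1),
      hp'.2.2.trans (exp_le_exp.2 ?_)⟩
    · exact_mod_cast hm (by omega)
    · exact_mod_cast hm (by omega)
  · intro i
    have a1 : ℒ ≤ ℒ ^ (7 * B + 10) := le_self_pow₀ hℒ1 (by omega)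
    exact_mod_cast s4.trans (a1.trans (hcard i.succ))
  · exact div_le_one_of_le₀ (one_le_pow₀ hℒ1) (by positivity)
  · rw [one_div_mul_eq_div, le_div_iff₀ (by positivity)]
    calc 8 * ℒ ^ B ≤ ℒ * ℒ ^ B := by gcongr; linarith
      _ = ℒ ^ (B + 1) := by ring
      _ ≤ P := p2
  · have a1 : (v 1 : ℝ) ≤ v (j + 1) := by exact_mod_cast hm (by omega)
    refine selfp_Lam j B h16 hℓ (by linarith) hL2 hP1 ?_ ?_ (Nat.cast_nonneg _) w4 hA0 p4 e1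
    · have a2 : √ℒ = exp (ℓ / 2) := by rw [exp_half, hℒe]
      calc P ≤ exp (j * (ℓ / 2)) := p3.trans (exp_le_exp.2 w5)
        _ = √ℒ ^ j := by rw [a2, exp_nat_mul]
        _ ≤ _ := by gcongr
    · exact ((log_le_iff_le_exp (by linarith)).2 p3).trans (a1.trans w4)
  · refine selfp_rho B hy hℒ0 h3 h3' (by positivity) ?_ e3
    rw [← exp_nat_mul, hyp, exp_le_exp]
    rw [div_mul_eq_mul_div, div_le_iff₀ h3] at e2
    push_cast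
    calc (j : ℝ) * ⌈√ℒ⌉₊ * v (j + 1) ≤ j * (2 * √ℒ) * (A * ℓ) := by gcongr
      _ = 4 * A * j * ℓ * (√ℒ / 2) := by ring
      _ ≤ √ℒ * δ₃ * (√ℒ / 2) := by gcongr
      _ = √ℒ * √ℒ * (δ₃ / 2) := by ring
      _ = _ := by rw [mul_self_sqrt hℒ0.le]

theorem sel_fp {δ C : ℝ} (hδ0 : 0 < δ) (hδ : δ ≤ 1 / 4) (h : PA δ C) (B : ℕ) {δ₃ : ℝ}
    (h3 : 0 < δ₃) (h3' : δ₃ ≤ 1 / 50) : ∃ c₁ : ℕ, ∀ c₀ K₀ K j : ℕ, c₁ ≤ c₀ → 2 ≤ K₀ → 2 ≤ K →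
    2 * K₀ * (c₀ + 1) ≤ j → ∀ᶠ y : ℕ in atTop,
      (∀ i, ∀ p ∈ JJ (j + 1) (vv c₀ K₀ K y) i, log y ^ (B + 2) ≤
        (((JJ (j + 1) (vv c₀ K₀ K y) i).filter fun q =>
          bx ⌈log y⌉₊ q = bx ⌈log y⌉₊ p).card : ℝ)) ∧
      ∀ x : ℕ, ∀ c ∈ Cs ⌈log y⌉₊ (JJ (j + 1) (vv c₀ K₀ K y)),
        ((BadM x y (Bx ⌈log y⌉₊ (JJ (j + 1) (vv c₀ K₀ K y)) c) ((y : ℝ) ^ δ₃) (1 / log y ^ B)
          ((y : ℝ) ^ (1 - 3 * δ₃))).card : ℝ) ≤ (y : ℝ) ^ (1 - δ₃) := by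
  obtain ⟨C', hC', hsc⟩ := short_count hδ0 hδ h
  refine ⟨14 * B + 24 + ⌈2 / δ⌉₊, fun c₀ K₀ K j hc hK₀ hK hj => ?_⟩
  set A : ℝ := K₀ * K ^ j * (c₀ + 1) with hA
  have hA0 : 0 ≤ A := by positivity
  filter_upwards [ev_le_log 16, ev_le_log (2 * C'), ev_le_loglog 1,
    ev_loglog_pow_le (16 * (j + 2) * (A + 1) ^ 4) 4 one_pos,
    ev_loglog_pow_le (4 * A * j / δ₃) 1 one_half_pos,
    ev_log_pow_le 3145728 (8 * B + 4) (half_pos h3), eventually_ge_atTop 1]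
    with y h16 hC2 hℓ e1 e2 e3 hy1
  have hy : (1 : ℝ) ≤ y := by exact_mod_cast hy1
  have hv := selfp_vv_mono (c₀ := c₀) y hK₀ hK
  have hm := monotone_nat_of_le_succ hv
  have v0 : vv c₀ K₀ K y 0 = ⌈(c₀ : ℝ) * log (log y)⌉₊ := rfl
  have v1 : ∀ i, vv c₀ K₀ K y (i + 1) = K₀ * K ^ i * vv c₀ K₀ K y 0 := fun _ => rfl
  generalize vv c₀ K₀ K y = v at *
  rw [rpow_one] at e1
  rw [pow_one, ← sqrt_eq_rpow] at e2
  have hℒ0 : 0 < log (y : ℝ) := by linarith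
  have hℒ1 : 1 ≤ log (y : ℝ) := by linarith
  have hL1 : log (y : ℝ) ≤ ⌈log (y : ℝ)⌉₊ := Nat.le_ceil _
  have hL2 : (⌈log (y : ℝ)⌉₊ : ℝ) ≤ 2 * log y := by
    have := Nat.ceil_lt_add_one hℒ0.le
    linarith
  generalize ⌈log (y : ℝ)⌉₊ = L at *
  have w1 : (c₀ : ℝ) * log (log y) ≤ v 0 := by rw [v0]; exact Nat.le_ceil _
  have w2 : (v 0 : ℝ) ≤ (c₀ + 1) * log (log y) := by
    have := Nat.ceil_lt_add_one (show 0 ≤ (c₀ : ℝ) * log (log y) by positivity)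
    rw [v0]
    linarith
  have w3 : log y ^ c₀ ≤ exp (v 0) := by
    rw [← exp_log hℒ0, ← exp_nat_mul]; exact exp_le_exp.2 w1
  have w4 : (v (j + 1) : ℝ) ≤ A * log (log y) := by
    rw [v1, hA]
    push_cast
    rw [mul_assoc _ ((c₀ : ℝ) + 1)]
    gcongr
  have w5 : (v 1 : ℝ) ≤ j * (log (log y) / 2) := by
    have a3 : (2 * K₀ * (c₀ + 1) : ℝ) ≤ j := by exact_mod_cast hj
    rw [v1 0]
    push_cast
    calc (K₀ : ℝ) * K ^ 0 * v 0 ≤ K₀ * K ^ 0 * ((c₀ + 1) * log (log y)) := by gcongr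
      _ = 2 * K₀ * (c₀ + 1) * (log (log y) / 2) := by ring
      _ ≤ _ := by gcongr
  have box := selfp_boxes (r := j + 1) hδ0 hC' hsc hc h16 hC2 hL1 hL2 hm w3
  refine ⟨fun i p hp => ?_, fun x c hc' => ?_⟩
  · obtain ⟨t, b1, -, -, -, b5⟩ := box i _ ⟨p, hp, rfl⟩
    rw [b1]
    exact (pow_le_pow_right₀ hℒ1 (by omega)).trans b5
  have box' := fun i => box i (c i) (mem_image.1 (Fintype.mem_piFinset.1 hc' i))
  obtain ⟨P, p1, p2, p3, p4, -⟩ := box' 0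
  rw [← p1] at p4
  refine selfp_main h3 h3' hy h16 hℓ hL1 hL2 hv hA0 w4 w5 e1 e2 e3 (fun i => ?_) p1
    ((pow_le_pow_right₀ hℒ1 (by omega)).trans p2) p3 p4
  obtain ⟨t, b1, -, -, -, b5⟩ := box' i
  rwa [← b1] at b5

end Vale.Agent.P013
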