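import Vale.Agent.P013.HallCor

/-!
Lower bound for `GG`. `Cl` is the constant of `lack_count`. Let `t₁ = R' / e²`, `t₂ = R / e²`. For `1 ≤ n ≤ t₂`, `d = n.primeFactors` is
a set of primes `≤ n ≤ R < W`, `|d| ≤ log n / log 2 ≤ 2 L` and `sg L d ≤ pr d * exp (|d| / L) ≤ n e²` (`ro_bx_le`,
`Nat.prod_primeFactors_dvd`). So `d ∈ DD` if `n ≤ t₁`, or if `n` has a prime factor in every block. By `sum_inv_le_fw`
(`Finset.sum_fiberwise_of_maps_to`), `GG ≥ ∑ n ≤ t₂, 1 / n - ∑ i, ∑ n ∈ Ioc ⌊t₁⌋₊ ⌊t₂⌋₊ with no prime factor in block i, 1 / n`.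
The first sum is `≥ log t₂ = log R - 2`. By `lack_count` (`exp (v (i + 1)) ≤ exp (v r) ≤ t₁ ≤ u`) and `log_sum` with `h` the indicator,
the `i`-th sum is at most `Cl * v i / v (i + 1) * (1 + log (R / R'))`.
-/

namespace Vale.Agent.P013

open Finset Real

theorem selG_sg_le {L n : ℕ} (hL : 1 ≤ L) (hn : 1 ≤ n) (h : log n ≤ L) :
    sg L n.primeFactors ≤ n * exp 2 := by
  have hL' : (0 : ℝ) < L := by exact_mod_cast hL
  have hp : ∀ p ∈ n.primeFactors, p.Prime := fun p hp => Nat.prime_of_mem_primeFactors hp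
  have h1 : (pr n.primeFactors : ℝ) ≤ n := by
    exact_mod_cast Nat.le_of_dvd hn (Nat.prod_primeFactors_dvd n)
  have h2 : (2 : ℝ) ^ n.primeFactors.card ≤ pr n.primeFactors := by
    rw [pr_cast, ← prod_const]
    exact prod_le_prod (fun _ _ => by norm_num) fun p h => by exact_mod_cast (hp p h).two_le
  have h3 : (n.primeFactors.card : ℝ) * log 2 ≤ L := by
    rw [← log_pow]
    exact (log_le_log (by positivity) (h2.trans h1)).trans h
  have h4 : (n.primeFactors.card : ℝ) * (1 / L) ≤ 2 := by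
    rw [mul_one_div, div_le_iff₀ hL']
    have := log_two_gt_d9
    have h0 : (0 : ℝ) ≤ n.primeFactors.card := Nat.cast_nonneg _
    nlinarith
  calc sg L n.primeFactors ≤ ∏ p ∈ n.primeFactors, ((p : ℝ) * exp (1 / (L : ℝ))) :=
        prod_le_prod (fun p _ => (ro_pos _ _).le) fun p h => ro_bx_le hL (hp p h).one_le
    _ = pr n.primeFactors * exp (n.primeFactors.card * (1 / L)) := by
        rw [prod_mul_distrib, prod_const, pr_cast, exp_nat_mul]
    _ ≤ n * exp 2 := by gcongr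

theorem GG_lower : ∃ Cl : ℝ, 0 < Cl ∧ ∀ (r L W : ℕ) (v : ℕ → ℕ) (R' R : ℝ), 1 ≤ L →
    (∀ i, 1 ≤ v i ∧ v i ≤ v (i + 1)) →
    Cl * ∑ i ∈ range r, (v i : ℝ) / v (i + 1) ≤ 1 / 2 → exp (v r) ≤ R' / exp 2 → R' ≤ R →
    R < W → log R ≤ L →
    log R' - 4 + log (R / R') / 2 ≤ GG (DD L W (JJ r v) R' R) := by
  classical
  obtain ⟨Cl, hCl, hlack⟩ := lack_count
  refine ⟨Cl, hCl, fun r L W v R' R hL hv hsum hR' hR hW hlog => ?_⟩
  have he2 : 0 < exp 2 := exp_pos 2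
  have he2' : 1 ≤ exp 2 := one_le_exp (by norm_num)
  set t₁ := R' / exp 2 with ht₁
  set t₂ := R / exp 2 with ht₂
  have h1 : 1 ≤ t₁ := (one_le_exp (Nat.cast_nonneg _)).trans hR'
  have h12 : t₁ ≤ t₂ := by rw [ht₁, ht₂]; gcongr
  have hR'0 : 0 < R' := by
    have : 0 < t₁ := by linarith
    exact (div_pos_iff_of_pos_right he2).1 this
  have hR0 : 0 < R := by linarith
  have ht₂R : t₂ ≤ R := div_le_self hR0.le he2'
  have hmono : Monotone v := monotone_nat_of_le_succ fun i => (hv i).2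
  set 𝒟 := DD L W (JJ r v) R' R with h𝒟
  have hp : ∀ d ∈ 𝒟, ∀ p ∈ d, p.Prime := fun d hd p h =>
    (Nat.mem_primesBelow.1 (mem_powerset.1 (mem_filter.1 hd).1 h)).2
  have hA : ∑ n ∈ (Icc 1 ⌊t₂⌋₊).filter (fun n => n.primeFactors ∈ 𝒟), 1 / (n : ℝ) ≤ GG 𝒟 := by
    rw [← sum_fiberwise_of_maps_to (t := 𝒟) (g := Nat.primeFactors)
      fun n hn => (mem_filter.1 hn).2]
    refine sum_le_sum fun d hd => le_trans ?_ (sum_inv_le_fw (hp d hd) ⌊t₂⌋₊)
    refine sum_le_sum_of_subset_of_nonneg (fun n hn => ?_) fun n _ _ => by positivity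
    simp only [mem_filter] at hn ⊢
    exact ⟨hn.1.1, hn.2⟩
  let h : ℕ → ℕ → ℝ := fun i n => if ∀ p ∈ PR (exp (v i)) (exp (v (i + 1))), ¬ p ∣ n then 1 else 0
  have h0 : ∀ i n, 0 ≤ h i n := fun i n => by simp only [h]; split_ifs <;> norm_num
  have hB : ∀ i ∈ range r, ∑ k ∈ Ioc ⌊t₁⌋₊ ⌊t₂⌋₊, h i k / k ≤
      Cl * ((v i : ℝ) / v (i + 1)) * (1 + log (R / R')) := by
    intro i hi
    have e : t₂ / t₁ = R / R' := by rw [ht₁, ht₂]; field_simp
    rw [← e]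
    refine log_sum (h0 i) (by linarith) h12 fun u hu _ => ?_
    have h2 : exp (v (i + 1)) ≤ u := by
      refine le_trans (exp_le_exp.2 ?_) (hR'.trans hu)
      exact_mod_cast hmono (mem_range.1 hi)
    have h3 := hlack (v i) (v (i + 1)) u (by exact_mod_cast (hv i).1) (by exact_mod_cast (hv i).2) h2
    rw [card_filter, Nat.cast_sum] at h3
    simp only [Nat.cast_ite, Nat.cast_one, Nat.cast_zero] at h3
    refine le_trans (le_of_eq (sum_congr rfl fun k _ => ?_)) (h3.trans (le_of_eq (by ring)))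
    simp only [h]
    split_ifs <;> rfl
  have hC : ∑ n ∈ Icc 1 ⌊t₂⌋₊, 1 / (n : ℝ) ≤
      ∑ n ∈ (Icc 1 ⌊t₂⌋₊).filter (fun n => n.primeFactors ∈ 𝒟), 1 / (n : ℝ) +
        ∑ i ∈ range r, ∑ k ∈ Ioc ⌊t₁⌋₊ ⌊t₂⌋₊, h i k / k := by
    rw [← sum_filter_add_sum_filter_not (Icc 1 ⌊t₂⌋₊) (fun n => n.primeFactors ∈ 𝒟), sum_comm]
    refine add_le_add le_rfl ?_
    have hn0 : ∀ k : ℕ, 0 ≤ ∑ i ∈ range r, h i k / k := fun k =>
      sum_nonneg fun i _ => div_nonneg (h0 i k) (Nat.cast_nonneg _)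
    have key : ∀ n ∈ (Icc 1 ⌊t₂⌋₊).filter (fun n => ¬ n.primeFactors ∈ 𝒟),
        n ∈ Ioc ⌊t₁⌋₊ ⌊t₂⌋₊ ∧ 1 / (n : ℝ) ≤ ∑ i ∈ range r, h i n / n := by
      intro n hn
      obtain ⟨hn1, hn2⟩ := mem_filter.1 hn
      rw [mem_Icc] at hn1
      have hnt : (n : ℝ) ≤ t₂ := (Nat.le_floor_iff (by linarith)).1 hn1.2
      have hn0' : (0 : ℝ) < n := by exact_mod_cast hn1.1
      have hsg := selG_sg_le hL hn1.1 ((log_le_log hn0' (hnt.trans ht₂R)).trans hlog)
      have hsub : n.primeFactors ⊆ Nat.primesBelow W := by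
        intro p hp
        refine Nat.mem_primesBelow.2 ⟨?_, Nat.prime_of_mem_primeFactors hp⟩
        have : (p : ℝ) ≤ n := by exact_mod_cast Nat.le_of_mem_primeFactors hp
        have : (p : ℝ) < W := by linarith
        exact_mod_cast this
      simp only [h𝒟, DD, mem_filter, mem_powerset, hsub, true_and, not_or, not_and, not_forall]
        at hn2
      refine ⟨mem_Ioc.2 ⟨?_, hn1.2⟩, ?_⟩
      · rw [Nat.floor_lt (by linarith), ht₁, div_lt_iff₀ he2]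
        linarith [not_le.1 hn2.1]
      · obtain ⟨i, hi⟩ := hn2.2 (hsg.trans (by rwa [ht₂, le_div_iff₀ he2] at hnt))
        have h5 : h i n = 1 := by
          refine if_pos fun p hp hpn => hi ⟨p, mem_inter.2 ⟨?_, hp⟩⟩
          exact Nat.mem_primeFactors.2 ⟨prime_of_mem_PR hp, hpn, by omega⟩
        rw [← h5]
        exact single_le_sum (f := fun i => h i n / n)
          (fun j _ => div_nonneg (h0 j n) (Nat.cast_nonneg _)) (mem_range.2 i.2)
    calc _ ≤ ∑ n ∈ (Icc 1 ⌊t₂⌋₊).filter (fun n => ¬ n.primeFactors ∈ 𝒟),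
          ∑ i ∈ range r, h i n / n := sum_le_sum fun n hn => (key n hn).2
      _ ≤ _ := sum_le_sum_of_subset_of_nonneg (fun n hn => (key n hn).1) fun n _ _ => hn0 n
  have hD : log R - 2 ≤ ∑ n ∈ Icc 1 ⌊t₂⌋₊, 1 / (n : ℝ) := by
    have h2 := log_add_one_le_harmonic ⌊t₂⌋₊
    simp only [harmonic_eq_sum_Icc, Rat.cast_sum, Rat.cast_inv, Rat.cast_natCast] at h2
    have h3 : log t₂ = log R - 2 := by rw [ht₂, log_div hR0.ne' he2.ne', log_exp]
    simp only [one_div]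
    rw [← h3]
    refine le_trans (log_le_log (by linarith) ?_) h2
    push_cast
    exact (Nat.lt_floor_add_one t₂).le
  have hE : ∑ i ∈ range r, ∑ k ∈ Ioc ⌊t₁⌋₊ ⌊t₂⌋₊, h i k / k ≤ 1 / 2 * (1 + log (R / R')) := by
    refine (sum_le_sum hB).trans ?_
    rw [← sum_mul, ← mul_sum]
    have : 0 ≤ log (R / R') := log_nonneg ((one_le_div hR'0).2 hR)
    gcongr
  have hF : log (R / R') = log R - log R' := log_div hR0.ne' hR'0.ne'
  linarith

end Vale.Agent.P013
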