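import Vale.Agent.P013.SelB
import Vale.Agent.P013.SelG
import Vale.Agent.P013.SelFP
import Vale.Agent.P013.SelErr
import Vale.Agent.P018.DivIdeal

/-!
The Selberg bound beyond the level. `Cl` from `GG_lower`, `c₁` from `sel_fp` with exponent `2 B`; `K₀ = ⌈4 Cl⌉₊ + 2`,
`c₀ = c₁ + 2 B + 2`, `j = 2 K₀ (c₀ + 1)`, `K = ⌈4 Cl j⌉₊ + 2`, `v = vv c₀ K₀ K y`, `r = j + 1`, `J = JJ r v`, `L = ⌈ℒ⌉₊`, `D = Dp y`, `T = ℒ^B`,
`κ = e = 1 / ℒ^(2 B)`, `V₀ = exp (v 0) ≥ ℒ^c₀`, `N₀ = ℒ^(2 B + 2)`, `R' = √(D / pr a) ∈ [W^(3/5), W^(4/5)]`, `R = R' T < W ≤ y`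
(`T < W^(1/5)` since `W ≥ y^(1 / (2 n))`; `W ≤ y` as `W^(6/5) ≤ D ≤ y` when `G` is nonempty). `∑ i < r, v i / v (i + 1) = 1 / K₀ + j / K`.
`exp (v r) ≤ ℒ^(O(1)) ≤ y^(3 / (10 n)) / e² ≤ R' / e²`; in particular `J i ⊆ primesBelow W`.
For each `a ∈ G`: `sel_ineq` (with `DD_down`, `empty_mem_DD`), `GG_lower` (`log R' - 4 + log T / 2` is the stated denominator, positive),
`err_le`. Sum with `sel_err`, `τ = C y^(δ₃ / 6)` (`Vale.Agent.P018.nat_divisor_bound`), `Z = y^(1 - δ₃)`, `U = y^δ₃`: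
`∑ R'² = D ∑ 1 / pr a ≤ 3 D`; `(κ + e) D T² = 2 D`; `∑ p ∈ J i, 1 / p ≤ log (K₀ + K) + C` (`mert_sum`), a constant;
`NN J ≤ exp (v r)^r ≤ ℒ^(O(1))`. The total is `O(y / ℒ^7) + O(y^(1 - δ₃ / 2) ℒ^(O(1))) ≤ y / ℒ³`.
-/

namespace Vale.Agent.P013

open Finset Real Filter

theorem selc_v {c₀ K₀ K y : ℕ} (hK₀ : 2 ≤ K₀) (hK : 2 ≤ K) (hs : 1 ≤ vv c₀ K₀ K y 0) (i : ℕ) :
    1 ≤ vv c₀ K₀ K y i ∧ vv c₀ K₀ K y i ≤ vv c₀ K₀ K y (i + 1) ∧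
      vv c₀ K₀ K y (i + 1) ≤ (K₀ + K) * vv c₀ K₀ K y i := by
  cases i with
  | zero =>
    simp only [vv, pow_zero, mul_one] at hs ⊢
    refine ⟨hs, Nat.le_mul_of_pos_left _ (by omega), Nat.mul_le_mul_right _ (by omega)⟩
  | succ i =>
    simp only [vv] at hs ⊢
    have h1 : 0 < K₀ * K ^ i * ⌈(c₀ : ℝ) * log (log y)⌉₊ :=
      Nat.mul_pos (Nat.mul_pos (by omega) (pow_pos (by omega) _)) hs
    have e : K₀ * K ^ (i + 1) * ⌈(c₀ : ℝ) * log (log y)⌉₊ =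
        K * (K₀ * K ^ i * ⌈(c₀ : ℝ) * log (log y)⌉₊) := by ring
    rw [e]
    exact ⟨h1, Nat.le_mul_of_pos_left _ (by omega), Nat.mul_le_mul_right _ (by omega)⟩

theorem selc_sum {c₀ K₀ K y : ℕ} (hK₀ : 2 ≤ K₀) (hK : 2 ≤ K) (hs : 1 ≤ vv c₀ K₀ K y 0) (j : ℕ) :
    ∑ i ∈ range (j + 1), (vv c₀ K₀ K y i : ℝ) / vv c₀ K₀ K y (i + 1) = j / K + 1 / K₀ := by
  have h1 : (0 : ℝ) < K₀ := by exact_mod_cast (by omega : 0 < K₀)
  have h2 : (0 : ℝ) < K := by exact_mod_cast (by omega : 0 < K)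
  have h3 : (0 : ℝ) < (⌈(c₀ : ℝ) * log (log y)⌉₊ : ℕ) := by exact_mod_cast hs
  rw [sum_range_succ', sum_congr rfl (g := fun _ => (1 : ℝ) / K) fun i _ => ?_]
  · simp only [vv, sum_const, card_range, nsmul_eq_mul]
    push_cast
    field_simp
  · simp only [vv]
    push_cast
    rw [pow_succ]
    field_simp

theorem selc_one {r L W : ℕ} (hr : 1 ≤ r) (x y : ℕ) {v : ℕ → ℕ} {a : Finset ℕ}
    {Q T e N₀ Y : ℝ} (hL : 1 ≤ L) (hv : ∀ i, v i ≤ v (i + 1)) (ha : ∀ p ∈ a, p.Prime ∧ W ≤ p)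
    (hJ : ∀ i, JJ r v i ⊆ Nat.primesBelow W) (hV : ∀ i, ∀ p ∈ JJ r v i, exp (v 0) ≤ (p : ℝ))
    (hQ : exp 5 ≤ √Q) (hT : 1 ≤ T) (hTV : T ≤ exp (v 0))
    (hrV : (r : ℝ) + 1 ≤ exp (v 0)) (hN : 0 < N₀)
    (hB : ∀ i, ∀ p ∈ JJ r v i, N₀ ≤ (((JJ r v i).filter fun q => bx L q = bx L p).card : ℝ))
    (hlog : log (√Q * T) ≤ Y) (he : 2 * r / (exp (v 0) - 1) + 6 * r * Y / N₀ ≤ e)
    (hGG : log √Q - 4 + log (√Q * T / √Q) / 2 ≤ GG (DD L W (JJ r v) √Q (√Q * T))) :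
    (Sv x y (pr a) W : ℝ) ≤ (y : ℝ) / pr a / (log Q / 2 + log T / 2 - 4) +
      (Q + 2 * ErrS x y (pr a) L W (JJ r v) (√Q * T) e) := by
  have h1 : 1 ≤ √Q := (one_le_exp (by norm_num)).trans hQ
  have h0 : 0 < √Q := by linarith
  have hQ0 : 0 ≤ Q := (sqrt_pos.1 h0).le
  have h2 : √Q * T ≤ √Q * exp (v 0) := mul_le_mul_of_nonneg_left hTV h0.le
  have h3 := sel_ineq x y (a := pr a) (W := W) (𝒟 := DD L W (JJ r v) √Q (√Q * T))
    (fun d hd => mem_powerset.1 (mem_filter.1 hd).1) (DD_down hL (exp_pos _) hV h2)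
    (empty_mem_DD h1) fun p hp hd => by
      obtain ⟨hp1, hp2⟩ := Nat.mem_primesBelow.1 hp
      obtain ⟨q, hq, hq'⟩ := (hp2.prime.dvd_finsetProd_iff _).1 hd
      have := (Nat.prime_dvd_prime_iff_eq hp2 (ha q hq).1).1 hq'
      have := (ha q hq).2
      omega
  have h4 := err_le hr x y (a := pr a) (e := e) hL (pr_pos fun p hp => (ha p hp).1) hJ
    (JJ_disjoint hv) hV hrV h1 (le_mul_of_one_le_right h0.le hT) h2 hN hB
    (le_trans (by gcongr) he)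
  rw [sq_sqrt hQ0] at h4
  rw [mul_div_cancel_left₀ _ h0.ne', log_sqrt hQ0] at hGG
  have h5 : 5 ≤ log Q / 2 := by
    rw [← log_sqrt hQ0]; exact (le_log_iff_exp_le h0).2 hQ
  have h6 := log_nonneg hT
  refine h3.trans (add_le_add ?_ h4)
  exact div_le_div_of_nonneg_left (by positivity) (by linarith) (by linarith)

theorem selc_det {r L W y : ℕ} (hr : 1 ≤ r) (x : ℕ) {v : ℕ → ℕ} {G : Finset (Finset ℕ)}
    {D T e Z U τ ρ N₀ M : ℝ} (hL : 1 ≤ L) (hv : ∀ i, v i ≤ v (i + 1))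
    (hGG : ∀ R' R : ℝ, exp (v r) ≤ R' / exp 2 → R' ≤ R → R < W → log R ≤ L →
      log R' - 4 + log (R / R') / 2 ≤ GG (DD L W (JJ r v) R' R))
    (hD : 0 < D) (hDy : D ≤ y) (hT : 1 ≤ T) (hTV : T ^ 2 ≤ exp (v 0))
    (hrV : (r : ℝ) + 1 ≤ exp (v 0)) (hN : 0 < N₀)
    (hB : ∀ i, ∀ p ∈ JJ r v i, N₀ ≤ (((JJ r v i).filter fun q => bx L q = bx L p).card : ℝ))
    (hyL : log y ≤ L) (he : 2 * r / (exp (v 0) - 1) + 6 * r * log y / N₀ ≤ e) (he0 : 0 ≤ e)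
    (hU : 0 < U) (hZ0 : 0 ≤ Z) (hτ0 : 0 ≤ τ) (hW1 : exp (v r + 5) ≤ (W : ℝ) ^ (3 / 5 : ℝ))
    (hW2 : T < (W : ℝ) ^ (1 / 5 : ℝ))
    (hG : ∀ a ∈ G, (∀ p ∈ a, p.Prime ∧ W ≤ p) ∧ (W : ℝ) ^ (6 / 5 : ℝ) ≤ D / pr a ∧
      D / pr a ≤ (W : ℝ) ^ (8 / 5 : ℝ) ∧ ∀ m ∈ Icc 1 y, pr a ∣ m → ¬ Rich x y ρ m)
    (h3 : ∑ a ∈ G, 1 / (pr a : ℝ) ≤ 3) (hτ : ∀ m ∈ Icc 1 y, (m.divisors.card : ℝ) ≤ τ)
    (hZ : ∀ c ∈ Cs L (JJ r v), ((BadM x y (Bx L (JJ r v) c) U e ρ).card : ℝ) ≤ Z)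
    (hM : ∀ i, ∑ p ∈ JJ r v i, 1 / (p : ℝ) ≤ M) :
    ∑ a ∈ G, (Sv x y (pr a) W : ℝ) ≤
      ∑ a ∈ G, (y : ℝ) / pr a / (log (D / pr a) / 2 + log T / 2 - 4) +
        (3 * D + 2 * ((e + e) * (D * T ^ 2) * 3 * M ^ r + (Z + y / U) * τ ^ 3 * exp (v r) ^ r)) := by
  have hmono : Monotone v := monotone_nat_of_le_succ hv
  have hW0 : (1 : ℝ) ≤ W := by
    rcases Nat.eq_zero_or_pos W with h | h
    · rw [h, Nat.cast_zero, zero_rpow (by norm_num)] at hW1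
      exact absurd hW1 (not_le.2 (exp_pos _))
    · exact_mod_cast h
  have hWp : (0 : ℝ) < W := by linarith
  have hmem : ∀ i, ∀ p ∈ JJ r v i, p.Prime ∧ exp (v 0) ≤ (p : ℝ) ∧ (p : ℝ) ≤ exp (v r) := by
    intro i p hp
    obtain ⟨h1, h2, h4⟩ := (mem_PR (exp_pos _).le (exp_pos _).le).1 hp
    exact ⟨h1, (exp_le_exp.2 (Nat.cast_le.2 (hmono (Nat.zero_le _)))).trans h2.le,
      h4.trans (exp_le_exp.2 (Nat.cast_le.2 (hmono i.2)))⟩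
  have hJ : ∀ i, JJ r v i ⊆ Nat.primesBelow W := by
    intro i p hp
    refine Nat.mem_primesBelow.2 ⟨?_, (hmem i p hp).1⟩
    have h1 : (W : ℝ) ^ (3 / 5 : ℝ) ≤ W := rpow_le_self_of_one_le hW0 (by norm_num)
    have h2 : exp (v r) < exp (v r + 5) := exp_lt_exp.2 (by linarith)
    exact_mod_cast (((hmem i p hp).2.2.trans_lt h2).trans_le hW1).trans_le h1
  have hV : ∀ i, ∀ p ∈ JJ r v i, exp (v 0) ≤ (p : ℝ) := fun i p hp => (hmem i p hp).2.1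
  have h1 : ∀ a ∈ G, (Sv x y (pr a) W : ℝ) ≤
      (y : ℝ) / pr a / (log (D / pr a) / 2 + log T / 2 - 4) +
        (D * (1 / pr a) + 2 * ErrS x y (pr a) L W (JJ r v) (√(D / pr a) * T) e) := by
    intro a ha
    obtain ⟨h4, h5, h6, -⟩ := hG a ha
    have hp1 : (1 : ℝ) ≤ pr a := by exact_mod_cast pr_pos fun p hp => (h4 p hp).1
    have h7 : (W : ℝ) ^ (3 / 5 : ℝ) ≤ √(D / pr a) := le_sqrt_of_sq_le (by
      rw [← rpow_natCast, ← rpow_mul hWp.le]; norm_num; exact h5)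
    have h8 : √(D / pr a) ≤ (W : ℝ) ^ (4 / 5 : ℝ) := sqrt_le_iff.2 ⟨by positivity, by
      rw [← rpow_natCast, ← rpow_mul hWp.le]; norm_num; exact h6⟩
    have h9 : √(D / pr a) * T < W := by
      have e1 : (W : ℝ) = (W : ℝ) ^ (4 / 5 : ℝ) * (W : ℝ) ^ (1 / 5 : ℝ) := by
        rw [← rpow_add hWp]; norm_num
      rw [e1]
      exact mul_lt_mul' h8 hW2 (by linarith) (by positivity)
    have h10 : (W : ℝ) ≤ y :=
      (self_le_rpow_of_one_le hW0 (by norm_num)).trans (h5.trans ((div_le_self hD.le hp1).trans hDy))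
    have h11 := hW1.trans h7
    have h12 : 0 < √(D / pr a) := (exp_pos _).trans_le h11
    have h13 : log (√(D / pr a) * T) ≤ log y := log_le_log (by positivity) (h9.le.trans h10)
    have h14 : (0 : ℝ) ≤ v r := Nat.cast_nonneg _
    rw [mul_one_div]
    refine selc_one hr x y hL hv h4 hJ hV ((exp_le_exp.2 (by linarith)).trans h11) hT
      (le_trans (by nlinarith) hTV) hrV hN hB h13 he
      (hGG _ _ ?_ (le_mul_of_one_le_right h12.le hT) h9 (h13.trans hyL))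
    rw [le_div_iff₀ (exp_pos _), ← exp_add]
    exact (exp_le_exp.2 (by linarith)).trans h11
  have h2 := sel_err hr x y hL hJ hV (exp_pos _) hD hT he0 he0 hU hZ0
    (fun a ha p hp => ((hG a ha).1 p hp).1) (mul_le_mul hDy hTV (by positivity) (by positivity)) hτ
    (fun a ha => (hG a ha).2.2.2) hZ
  have h4 : ∏ i, ∑ p ∈ JJ r v i, 1 / (p : ℝ) ≤ M ^ r := by
    have h5 := prod_le_prod (s := (univ : Finset (Fin r))) (g := fun _ => M)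
      (fun i _ => sum_nonneg fun (p : ℕ) _ => (by positivity : (0 : ℝ) ≤ 1 / (p : ℝ)))
      fun i _ => hM i
    rwa [prod_const, card_univ, Fintype.card_fin] at h5
  have h5 : NN (JJ r v) ≤ exp (v r) ^ r := by
    have h6 := prod_le_prod (s := (univ : Finset (Fin r))) (g := fun _ => exp (v r))
      (f := fun i => ((JJ r v i).card : ℝ)) (fun i _ => Nat.cast_nonneg _) fun i _ => by
        have h7 : JJ r v i ⊆ Ioc 0 ⌊exp (v r)⌋₊ := fun p hp =>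
          mem_Ioc.2 ⟨(hmem i p hp).1.pos, Nat.le_floor (hmem i p hp).2.2⟩
        have h8 := card_le_card h7
        rw [Nat.card_Ioc, Nat.sub_zero] at h8
        exact (Nat.cast_le.2 h8).trans (Nat.floor_le (exp_pos _).le)
    rwa [prod_const, card_univ, Fintype.card_fin] at h6
  refine (sum_le_sum h1).trans ?_
  rw [sum_add_distrib, sum_add_distrib, ← mul_sum, ← mul_sum]
  refine add_le_add le_rfl (add_le_add (by nlinarith) (mul_le_mul_of_nonneg_left (h2.trans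
    (add_le_add ?_ (mul_le_mul_of_nonneg_left h5 (by positivity)))) zero_le_two))
  exact mul_le_mul (mul_le_mul_of_nonneg_left h3 (by positivity)) h4
    (prod_nonneg fun i _ => sum_nonneg fun p _ => by positivity) (by positivity)

theorem selc_num {l y M r A C₁ δ E : ℝ} {B k : ℕ} (hl : 1 ≤ l) (hy : 0 < y)
    (h1 : 2 * (3 + 12 * M) ≤ l) (hM : 0 ≤ M) (hC : 0 ≤ C₁) (hE0 : 0 ≤ E) (hE : E ≤ A * l ^ k)
    (h2 : 8 * C₁ ^ 3 * A * l ^ (k + 3) ≤ y ^ (δ / 2)) (hr : r = y / l ^ 7) :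
    3 * r + 2 * ((1 / l ^ (2 * B) + 1 / l ^ (2 * B)) * (r * (l ^ B) ^ 2) * 3 * M +
      (y ^ (1 - δ) + y / y ^ δ) * (C₁ * y ^ (δ / 6)) ^ 3 * E) ≤ y / l ^ 3 := by
  have hl0 : 0 < l := by linarith
  have e1 : (1 / l ^ (2 * B) + 1 / l ^ (2 * B)) * (r * (l ^ B) ^ 2) * 3 * M = 6 * r * M := by
    rw [← pow_mul, mul_comm B 2]; field_simp; ring
  have e2 : y / y ^ δ = y ^ (1 - δ) := by rw [rpow_sub hy, rpow_one]
  have e3 : (y ^ (δ / 6)) ^ 3 = y ^ (δ / 2) := by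
    rw [← rpow_natCast, ← rpow_mul hy.le]; congr 1; push_cast; ring
  have e4 : y ^ (1 - δ) * y ^ (δ / 2) * y ^ (δ / 2) = y := by
    rw [← rpow_add hy, ← rpow_add hy, show 1 - δ + δ / 2 + δ / 2 = 1 by ring, rpow_one]
  have h3 : (3 + 12 * M) * r ≤ y / l ^ 3 / 2 := by
    have h4 : l ≤ l ^ 4 := le_self_pow₀ hl (by norm_num)
    rw [hr, show y / l ^ 3 / 2 = l ^ 4 / 2 * (y / l ^ 7) by field_simp]
    exact mul_le_mul_of_nonneg_right (by linarith) (by positivity)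
  have h4 : 4 * (y ^ (1 - δ) * y ^ (δ / 2)) * (C₁ ^ 3 * E) ≤ y / l ^ 3 / 2 := by
    have h5 : C₁ ^ 3 * E ≤ y ^ (δ / 2) / (8 * l ^ 3) := by
      rw [le_div_iff₀ (by positivity)]
      calc C₁ ^ 3 * E * (8 * l ^ 3) ≤ C₁ ^ 3 * (A * l ^ k) * (8 * l ^ 3) := by gcongr
        _ = 8 * C₁ ^ 3 * A * l ^ (k + 3) := by ring
        _ ≤ _ := h2
    calc _ ≤ 4 * (y ^ (1 - δ) * y ^ (δ / 2)) * (y ^ (δ / 2) / (8 * l ^ 3)) := by gcongr
      _ = y ^ (1 - δ) * y ^ (δ / 2) * y ^ (δ / 2) / l ^ 3 / 2 := by ring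
      _ = _ := by rw [e4]
  rw [e1, e2, mul_pow, e3]
  linarith

theorem selc_e {l V r : ℝ} {B : ℕ} (hl : 2 ≤ l) (hr : 0 ≤ r) (h1 : 10 * r ≤ l)
    (hV : l ^ (2 * B + 2) ≤ V) :
    2 * r / (V - 1) + 6 * r * l / l ^ (2 * B + 2) ≤ 1 / l ^ (2 * B) := by
  have hl0 : 0 < l := by linarith
  have h2 : 1 ≤ l ^ (2 * B) := one_le_pow₀ (by linarith)
  have h3 : l ^ (2 * B) * l ≤ V - 1 := by
    rw [pow_add] at hV
    nlinarith [mul_le_mul h2 hl zero_le_two (by positivity)]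
  have h4 : 2 * r / (V - 1) ≤ 2 * r / (l ^ (2 * B) * l) :=
    div_le_div_of_nonneg_left (by positivity) (by positivity) h3
  have e : 2 * r / (l ^ (2 * B) * l) + 6 * r * l / l ^ (2 * B + 2) = 8 * r / l / l ^ (2 * B) := by
    field_simp; ring
  have h5 : 8 * r / l / l ^ (2 * B) ≤ 1 / l ^ (2 * B) :=
    div_le_div_of_nonneg_right ((div_le_one hl0).2 (by linarith)) (by positivity)
  linarith

theorem sel_final {δ C : ℝ} (hδ0 : 0 < δ) (hδ : δ ≤ 1 / 4) (h : PA δ C) (B n : ℕ) (hn : 1 ≤ n)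
    {δ₃ : ℝ} (h3 : 0 < δ₃) (h3' : δ₃ ≤ 1 / 50) : ∀ᶠ y : ℕ in atTop,
    ∀ (x W : ℕ) (G : Finset (Finset ℕ)), (y : ℝ) ^ (1 / (2 * (n : ℝ))) ≤ W →
      (∀ a ∈ G, (∀ p ∈ a, p.Prime ∧ W ≤ p) ∧ (W : ℝ) ^ (6 / 5 : ℝ) ≤ Dp y / pr a ∧
        Dp y / pr a ≤ (W : ℝ) ^ (8 / 5 : ℝ) ∧
        ∀ m ∈ Icc 1 y, pr a ∣ m → ¬ Rich x y ((y : ℝ) ^ (1 - 3 * δ₃)) m) →
      ∑ a ∈ G, 1 / (pr a : ℝ) ≤ 3 →
      ∑ a ∈ G, (Sv x y (pr a) W : ℝ) ≤
        ∑ a ∈ G, (y : ℝ) / pr a / (log (Dp y / pr a) / 2 + B * log (log y) / 2 - 4) +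
          y / log y ^ 3 := by
  obtain ⟨Cl, hCl, hGG⟩ := GG_lower
  obtain ⟨c₁, hfp⟩ := sel_fp hδ0 hδ h (2 * B) h3 h3'
  obtain ⟨Cm, hCm, hmert⟩ := mert_sum
  obtain ⟨Cd, hCd, hdiv⟩ := Vale.Agent.P018.nat_divisor_bound (δ₃ / 6) (by positivity)
  obtain ⟨K₀, hK₀, hK₀'⟩ : ∃ K₀ : ℕ, 2 ≤ K₀ ∧ 4 * Cl ≤ K₀ :=
    ⟨⌈4 * Cl⌉₊ + 2, by omega, by push_cast; linarith [Nat.le_ceil (4 * Cl)]⟩
  obtain ⟨c₀, hc₀, hc₀'⟩ : ∃ c₀ : ℕ, c₁ ≤ c₀ ∧ 2 * B + 2 ≤ c₀ := ⟨c₁ + 2 * B + 2, by omega, by omega⟩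
  obtain ⟨j, hj⟩ : ∃ j : ℕ, 2 * K₀ * (c₀ + 1) ≤ j := ⟨_, le_rfl⟩
  obtain ⟨K, hK, hK'⟩ : ∃ K : ℕ, 2 ≤ K ∧ 4 * Cl * j ≤ K :=
    ⟨⌈4 * Cl * j⌉₊ + 2, by omega, by push_cast; linarith [Nat.le_ceil (4 * Cl * j)]⟩
  have hn0 : (0 : ℝ) < n := by exact_mod_cast hn
  have hK1 : (0 : ℝ) < K₀ := by exact_mod_cast (by omega : 0 < K₀)
  have hK2 : (0 : ℝ) < K := by exact_mod_cast (by omega : 0 < K)
  have hM0 : 0 ≤ log (K₀ + K) + Cm := by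
    have : (1 : ℝ) ≤ K := by exact_mod_cast (by omega : 1 ≤ K)
    exact add_nonneg (log_nonneg (by linarith)) hCm.le
  filter_upwards [hfp c₀ K₀ K j hc₀ hK₀ hK hj, ev_le_log 2, ev_le_log (10 * (j + 1 : ℕ)),
    ev_le_log (2 * (3 + 12 * (log (K₀ + K) + Cm) ^ (j + 1))),
    ev_log_pow_le (exp (K₀ * K ^ j : ℕ) * exp 5) (K₀ * K ^ j * c₀) (ε := 3 / (10 * n)) (by positivity),
    ev_log_pow_le 2 B (ε := 1 / (10 * n)) (by positivity),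
    ev_log_pow_le (8 * Cd ^ 3 * exp (K₀ * K ^ j : ℕ) ^ (j + 1)) (K₀ * K ^ j * c₀ * (j + 1) + 3)
      (ε := δ₃ / 2) (by positivity), eventually_gt_atTop 0] with y h1 h2 h4 h5 h6 h7 h8 h9
  intro x W G hW hG hs
  have hy0 : (0 : ℝ) < y := by exact_mod_cast h9
  have hl0 : 0 < log y := by linarith
  have hl1 : 1 ≤ log y := by linarith
  have hll : 0 < log (log y) := log_pos (by linarith)
  have hc0 : (0 : ℝ) < c₀ := by exact_mod_cast (by omega : 0 < c₀)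
  have hs1 : 1 ≤ vv c₀ K₀ K y 0 := Nat.ceil_pos.2 (by positivity)
  have hv := selc_v hK₀ hK hs1
  have hL : 1 ≤ ⌈log y⌉₊ := Nat.ceil_pos.2 hl0
  have hV : log y ^ (2 * B + 2) ≤ exp (vv c₀ K₀ K y 0) := by
    refine (pow_le_pow_right₀ hl1 hc₀').trans ?_
    rw [← exp_log (pow_pos hl0 _), log_pow]
    exact exp_le_exp.2 (Nat.le_ceil _)
  have hVr : exp (vv c₀ K₀ K y (j + 1)) ≤ exp (K₀ * K ^ j : ℕ) * log y ^ (K₀ * K ^ j * c₀) := by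
    have h10 : ((⌈(c₀ : ℝ) * log (log y)⌉₊ : ℕ) : ℝ) ≤ c₀ * log (log y) + 1 :=
      (Nat.ceil_lt_add_one (by positivity)).le
    rw [← exp_log (pow_pos hl0 _), log_pow, ← exp_add, exp_le_exp, vv,
      Nat.cast_mul (K₀ * K ^ j), Nat.cast_mul (K₀ * K ^ j)]
    exact (mul_le_mul_of_nonneg_left h10 (Nat.cast_nonneg _)).trans (le_of_eq (by ring))
  have hW' : ∀ a : ℝ, 0 ≤ a → (y : ℝ) ^ (a / (10 * n)) ≤ (W : ℝ) ^ (a / 5) := fun a ha => by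
    rw [show a / (10 * n) = 1 / (2 * n) * (a / 5) by field_simp; ring, rpow_mul hy0.le]
    exact rpow_le_rpow (by positivity) hW (by positivity)
  have hT : 1 ≤ log y ^ B := one_le_pow₀ hl1
  have h10 := selc_det (r := j + 1) (L := ⌈log y⌉₊) (W := W) (y := y) (by omega) x (G := G)
    (D := Dp y) (T := log y ^ B) (e := 1 / log y ^ (2 * B)) (τ := Cd * (y : ℝ) ^ (δ₃ / 6))
    (M := log (K₀ + K) + Cm) hL (fun i => (hv i).2.1)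
    (fun R' R => hGG (j + 1) _ W _ R' R hL (fun i => ⟨(hv i).1, (hv i).2.1⟩) (by
      rw [selc_sum hK₀ hK hs1, mul_add, ← mul_div_assoc, ← mul_div_assoc]
      have h11 : Cl * j / K ≤ 1 / 4 := by rw [div_le_iff₀ hK2]; linarith
      have h12 : Cl * 1 / K₀ ≤ 1 / 4 := by rw [div_le_iff₀ hK1]; linarith
      linarith))
    (by rw [Dp]; positivity) (div_le_self hy0.le (one_le_pow₀ hl1)) hT
    (by rw [← pow_mul]; exact (pow_le_pow_right₀ hl1 (by omega)).trans hV)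
    (le_trans (by have : (1 : ℝ) ≤ (j + 1 : ℕ) := by exact_mod_cast Nat.succ_pos j
                  linarith) ((le_self_pow₀ hl1 (by omega)).trans hV))
    (by positivity) h1.1 (Nat.le_ceil _) (selc_e h2 (Nat.cast_nonneg _) h4 hV) (by positivity)
    (by positivity) (by positivity) (by positivity)
    (by
      refine le_trans ?_ (h6.trans (hW' 3 (by norm_num)))
      rw [exp_add, mul_right_comm]
      exact mul_le_mul_of_nonneg_right hVr (exp_pos _).le)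
    (lt_of_lt_of_le (by linarith) (h7.trans (hW' 1 zero_le_one))) hG hs
    (fun m hm => (hdiv m (by have := (mem_Icc.1 hm).1; omega)).trans (mul_le_mul_of_nonneg_left
      (rpow_le_rpow (Nat.cast_nonneg _) (Nat.cast_le.2 (mem_Icc.1 hm).2) (by positivity))
      (by linarith)))
    (h1.2 x) fun i => by
      have h11 : (1 : ℝ) ≤ vv c₀ K₀ K y i := by exact_mod_cast (hv i).1
      have h12 : (vv c₀ K₀ K y i : ℝ) ≤ vv c₀ K₀ K y (i + 1) := by exact_mod_cast (hv i).2.1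
      have h13 : (vv c₀ K₀ K y (i + 1) : ℝ) ≤ (K₀ + K) * vv c₀ K₀ K y i := by
        exact_mod_cast (hv i).2.2
      have h14 := (abs_le.1 (hmert (exp (vv c₀ K₀ K y i)) (exp (vv c₀ K₀ K y (i + 1)))
        (by linarith [add_one_le_exp (vv c₀ K₀ K y i : ℝ)]) (exp_le_exp.2 h12))).2
      rw [log_exp, log_exp] at h14
      have h15 : log ((vv c₀ K₀ K y (i + 1) : ℝ) / vv c₀ K₀ K y i) ≤ log (K₀ + K) :=
        log_le_log (div_pos (by linarith) (by linarith)) ((div_le_iff₀ (by linarith)).2 h13)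
      have h16 := div_le_self hCm.le h11
      rw [JJ]
      linarith
  rw [log_pow] at h10
  refine h10.trans (add_le_add le_rfl ?_)
  refine selc_num hl1 hy0 h5 (by positivity) (by linarith) (by positivity) ?_ h8 rfl
  rw [pow_mul _ _ (j + 1), ← mul_pow]
  exact pow_le_pow_left₀ (exp_pos _).le hVr _

end Vale.Agent.P013
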