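import Vale.Agent.P013.Masses
import Vale.Agent.P013.SelC
import Vale.Agent.P013.DirC
import Vale.Agent.P013.ModelC

/-! Assembly of the sieve lower bound beyond the sieving limit. -/

namespace Vale.Agent.P013

open Finset Real Filter

open Classical

noncomputable def fam (A : Finset (Finset ℕ)) (S : Finset ℕ → Finset ℕ) : Finset (Finset ℕ) :=
  (A.sigma S).image fun t => insert t.2 t.1

theorem mem_fam {A : Finset (Finset ℕ)} {S : Finset ℕ → Finset ℕ} {g : Finset ℕ} :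
    g ∈ fam A S ↔ ∃ a ∈ A, ∃ p ∈ S a, g = insert p a := by
  unfold fam
  simp only [mem_image, mem_sigma]
  constructor
  · rintro ⟨⟨a, p⟩, ⟨h1, h2⟩, rfl⟩
    exact ⟨a, h1, p, h2, rfl⟩
  · rintro ⟨a, h1, p, h2, rfl⟩
    exact ⟨⟨a, p⟩, ⟨h1, h2⟩, rfl⟩

theorem sum_fam {A : Finset (Finset ℕ)} {S : Finset ℕ → Finset ℕ}
    (h : ∀ a ∈ A, ∀ p ∈ S a, ∀ q ∈ a, q < p) (F : Finset ℕ → ℝ) :
    ∑ g ∈ fam A S, F g = ∑ a ∈ A, ∑ p ∈ S a, F (insert p a) := by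
  unfold fam
  rw [sum_image, sum_sigma]
  rintro ⟨a, p⟩ h1 ⟨a', p'⟩ h2 h3
  simp only [coe_sigma, Set.mem_sigma_iff, mem_coe] at h1 h2
  simp only at h3
  have e1 : p = p' := by
    have m1 : p ∈ insert p' a' := h3 ▸ mem_insert_self p a
    have m2 : p' ∈ insert p a := h3 ▸ mem_insert_self p' a'
    rcases mem_insert.1 m1 with e | e
    · exact e
    rcases mem_insert.1 m2 with e' | e'
    · exact e'.symm
    have := h a h1.1 p h1.2 p' e'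
    have := h a' h2.1 p' h2.2 p e
    omega
  subst e1
  have n1 : p ∉ a := fun hp => lt_irrefl _ (h a h1.1 p h1.2 p hp)
  have n2 : p ∉ a' := fun hp => lt_irrefl _ (h a' h2.1 p h2.2 p hp)
  have e2 : a = a' := by rw [← erase_insert n1, h3, erase_insert n2]
  subst e2
  rfl

theorem core_num1 {Λ l C₂ : ℝ} (hl : 0 < l) (hCl : 50 * C₂ ≤ l)
    (h1 : 13 / 10 * l ≤ Λ) (h2 : Λ ≤ 3 / 2 * l) : 33 / 25 / l ≤ 2 / Λ - C₂ / Λ ^ 2 := by
  have hΛ : 0 < Λ := by linarith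
  have e1 : 4 / 3 / l ≤ 2 / Λ := by
    rw [div_le_div_iff₀ hl hΛ]; linarith
  have e2 : C₂ / Λ ^ 2 ≤ 1 / 75 / l := by
    rw [div_le_div_iff₀ (by positivity) hl]; nlinarith [mul_le_mul h1 h1 (by linarith) hΛ.le]
  have e3 : 33 / 25 / l = 4 / 3 / l - 1 / 75 / l := by ring
  linarith

theorem core_num2 {Λ L t C₂ : ℝ} (hΛ : 0 < Λ) (h1 : Λ ≤ L) (ht : 16 ≤ t) (hC : 4 * C₂ ≤ t)
    (h2 : t ≤ Λ) : t / (4 * L ^ 2) ≤ 2 / Λ - C₂ / Λ ^ 2 - 1 / (Λ / 2 + t / 2 - 4) := by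
  have e0 : 0 < Λ / 2 + t / 2 - 4 := by linarith
  have e1 : t / 2 / Λ ^ 2 ≤ 2 / Λ - 1 / (Λ / 2 + t / 2 - 4) := by
    rw [div_sub_div _ _ hΛ.ne' e0.ne', div_le_div_iff₀ (by positivity) (by positivity)]
    have : 0 ≤ Λ * Λ * (t / 2 - 8) := by
      have : 0 ≤ t / 2 - 8 := by linarith
      positivity
    have h3 : 0 ≤ Λ * t * (Λ - t) := by
      have : 0 ≤ Λ - t := by linarith
      have : 0 ≤ t := by linarith
      positivity
    have h4 : 0 ≤ Λ * t := by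
      have : 0 ≤ t := by linarith
      positivity
    nlinarith
  have e2 : C₂ / Λ ^ 2 ≤ t / 4 / Λ ^ 2 := by gcongr; linarith
  have e3 : t / (4 * L ^ 2) ≤ t / 4 / Λ ^ 2 := by
    rw [div_div]
    have : 0 ≤ t := by linarith
    gcongr
  have e4 : t / 2 / Λ ^ 2 = t / 4 / Λ ^ 2 + t / 4 / Λ ^ 2 := by ring
  linarith

/-- the assembly for fixed `x` and `y` -/
theorem core_fix {x y z W k : ℕ} {D l η κ t C₂ c E : ℝ} {A : Finset (Finset ℕ)} {B : Finset ℕ}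
    {𝔅 : Finset (ℕ × ℤ)} {R : ℕ → Prop} (hD : 1 < D) (hz : (z : ℝ) ≤ D) (hk : Odd k) (hl : 0 < l)
    (hη : 0 < η) (hκ : 0 ≤ κ)
    (hpair : ∀ a ∈ A, ∀ p ∈ B, (∀ q ∈ a, q < p) ∧ (∀ q ∈ insert p a, q.Prime ∧ W ≤ q) ∧
      insert p a ∈ chains 0 D z ∧ (insert p a).card = k ∧ 1 < D / (p * pr a) ∧
      2 / log (D / (p * pr a)) - C₂ / log (D / (p * pr a)) ^ 2 ≤
        Mm 1 (D / (p * pr a)) (mn (insert p a)) ∧
      33 / 25 / l ≤ 2 / log (D / (p * pr a)) - C₂ / log (D / (p * pr a)) ^ 2 ∧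
      25 * κ / η ≤ 2 / log (D / (p * pr a)) - C₂ / log (D / (p * pr a)) ^ 2 -
        1 / (log (D / (p * pr a)) / 2 + t / 2 - 4))
    (hκl : κ ≤ 4 / 25 * η / l)
    (hB1 : 97 / 100 * η ≤ ∑ p ∈ B, 1 / (p : ℝ)) (hB2 : ∑ p ∈ B, 1 / (p : ℝ) ≤ 1)
    (hA1 : 2 * c ≤ ∑ a ∈ A, 1 / (pr a : ℝ)) (hA2 : ∑ a ∈ A, 1 / (pr a : ℝ) ≤ 1)
    (hexc : ∑ a ∈ A.filter (fun a => ∃ β ∈ 𝔅, ∃ β' ∈ 𝔅, β ≠ β' ∧
      (pr a : ℤ) ∣ β.1 * x + β.2 ∧ (pr a : ℤ) ∣ β'.1 * x + β'.2), 1 / (pr a : ℝ) ≤ c)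
    (hdir : ∀ a ∈ A, ∀ β ∈ 𝔅, ∑ p ∈ B.filter (fun p => ((p * pr a : ℕ) : ℤ) ∣ β.1 * x + β.2),
      (Sv x y (p * pr a) W : ℝ) ≤ 21 / 20 * η * y / (pr a * l))
    (hR : ∀ a ∈ A, ∀ p ∈ B, R (p * pr a) → ∃ β ∈ 𝔅, ((p * pr a : ℕ) : ℤ) ∣ β.1 * x + β.2)
    (hsel : ∀ G : Finset (Finset ℕ), (∀ g ∈ G, ∃ a ∈ A, ∃ p ∈ B, g = insert p a ∧ ¬ R (p * pr a)) →
      ∑ g ∈ G, 1 / (pr g : ℝ) ≤ 3 → ∑ g ∈ G, (Sv x y (pr g) W : ℝ) ≤
        ∑ g ∈ G, (y : ℝ) / pr g / (log (D / pr g) / 2 + t / 2 - 4) + E) :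
    y * Mm 0 D z - 2 * D - E + y * κ * c ≤ Sv x y 1 z := by
  set H := ∑ p ∈ B, 1 / (p : ℝ) with hH
  let exc : Finset ℕ → Prop := fun a => ∃ β ∈ 𝔅, ∃ β' ∈ 𝔅, β ≠ β' ∧
      (pr a : ℤ) ∣ β.1 * x + β.2 ∧ (pr a : ℤ) ∣ β'.1 * x + β'.2
  let conc : Finset ℕ → Finset ℕ := fun a =>
    B.filter fun p => ∃ β ∈ 𝔅, ((p * pr a : ℕ) : ℤ) ∣ β.1 * x + β.2
  let tI : Finset ℕ → Prop := fun a => 19 / 20 * H ≤ ∑ p ∈ conc a, 1 / (p : ℝ)
  let S : Finset ℕ → Finset ℕ := fun a => if tI a then conc a else B \ conc a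
  let A₀ := A.filter fun a => ¬ exc a
  let T : Finset ℕ → ℕ → ℝ := fun a p => (y : ℝ) / (p * pr a) *
    (2 / log (D / (p * pr a)) - C₂ / log (D / (p * pr a)) ^ 2)
  have hy : (0 : ℝ) ≤ y := Nat.cast_nonneg _
  have hSB : ∀ a, S a ⊆ B := fun a => by
    simp only [S]; split_ifs
    · exact filter_subset _ _
    · exact sdiff_subset
  have hA₀ : ∀ a ∈ A₀, a ∈ A := fun a ha => (mem_filter.1 ha).1
  have hpr : ∀ a ∈ A, ∀ p ∈ B, pr (insert p a) = p * pr a := fun a ha p hp =>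
    pr_insert fun h => lt_irrefl _ ((hpair a ha p hp).1 p h)
  have hprR : ∀ a ∈ A, ∀ p ∈ B, (pr (insert p a) : ℝ) = p * pr a := fun a ha p hp => by
    rw [hpr a ha p hp]; push_cast; rfl
  have hp0 : ∀ a ∈ A, ∀ p ∈ B, (0 : ℝ) < p ∧ (0 : ℝ) < pr a := fun a ha p hp => by
    have h1 := (hpair a ha p hp).2.1
    refine ⟨by exact_mod_cast (h1 p (mem_insert_self _ _)).1.pos, ?_⟩
    exact_mod_cast pr_pos fun q hq => (h1 q (mem_insert_of_mem hq)).1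
  have hB0 : B.Nonempty := by
    rw [nonempty_iff_ne_empty]
    rintro rfl
    simp only [sum_empty] at hH
    linarith
  have hapos : ∀ a ∈ A, (0 : ℝ) < pr a := fun a ha => (hp0 a ha _ hB0.choose_spec).2
  have hlt : ∀ a ∈ A₀, ∀ p ∈ S a, ∀ q ∈ a, q < p := fun a ha p hp =>
    (hpair a (hA₀ a ha) p (hSB a hp)).1
  have key := sieve_gain x y z hD hz (G := fam A₀ S) hk (by
    intro g hg
    obtain ⟨a, ha, p, hp, rfl⟩ := mem_fam.1 hg
    have h1 := hpair a (hA₀ a ha) p (hSB a hp)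
    rw [hprR a (hA₀ a ha) p (hSB a hp)]
    exact ⟨h1.2.2.1, h1.2.2.2.1, h1.2.2.2.2.1⟩)
  rw [sum_fam hlt] at key
  -- termwise lower bound
  have step1 : ∑ a ∈ A₀, ∑ p ∈ S a, (T a p - Sv x y (p * pr a) W) -
      ∑ a ∈ A₀, ∑ p ∈ S a, D / (p * pr a) ≤ ∑ a ∈ A₀, ∑ p ∈ S a,
        ((y : ℝ) / pr (insert p a) * Mm 1 (D / pr (insert p a)) (mn (insert p a)) -
          D / pr (insert p a) - Sv x y (pr (insert p a)) (mn (insert p a))) := by
    rw [← sum_sub_distrib]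
    refine sum_le_sum fun a ha => ?_
    rw [← sum_sub_distrib]
    refine sum_le_sum fun p hp => ?_
    have h1 := hpair a (hA₀ a ha) p (hSB a hp)
    have h2 := hp0 a (hA₀ a ha) p (hSB a hp)
    rw [hprR a (hA₀ a ha) p (hSB a hp), hpr a (hA₀ a ha) p (hSB a hp)]
    have h3 : W ≤ mn (insert p a) := (h1.2.1 _ (mn_mem (insert_nonempty _ _))).2
    have h4 : (Sv x y (p * pr a) (mn (insert p a)) : ℝ) ≤ Sv x y (p * pr a) W := by
      exact_mod_cast Sv_anti x y _ h3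
    have h5 : T a p ≤ (y : ℝ) / (p * pr a) * Mm 1 (D / (p * pr a)) (mn (insert p a)) :=
      mul_le_mul_of_nonneg_left h1.2.2.2.2.2.1 (div_nonneg hy (mul_pos h2.1 h2.2).le)
    linarith
  have mass : ∀ (A' : Finset (Finset ℕ)), A' ⊆ A → ∀ S' : Finset ℕ → Finset ℕ, (∀ a, S' a ⊆ B) →
      ∑ a ∈ A', ∑ p ∈ S' a, 1 / ((p : ℝ) * pr a) ≤ 1 := by
    intro A' hA' S' hS'
    calc ∑ a ∈ A', ∑ p ∈ S' a, 1 / ((p : ℝ) * pr a) ≤ ∑ a ∈ A', 1 / (pr a : ℝ) := by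
          refine sum_le_sum fun a ha => ?_
          have h1 : ∑ p ∈ S' a, 1 / ((p : ℝ) * pr a) = (∑ p ∈ S' a, 1 / (p : ℝ)) * (1 / pr a) := by
            rw [sum_mul]; exact sum_congr rfl fun p _ => by rw [one_div_mul_one_div]
          have h2 : ∑ p ∈ S' a, 1 / (p : ℝ) ≤ H :=
            sum_le_sum_of_subset_of_nonneg (hS' a) fun _ _ _ => by positivity
          rw [h1]
          exact mul_le_of_le_one_left (by positivity) (h2.trans hB2)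
      _ ≤ ∑ a ∈ A, 1 / (pr a : ℝ) :=
          sum_le_sum_of_subset_of_nonneg hA' fun _ _ _ => by positivity
      _ ≤ 1 := hA2
  have step2 : ∑ a ∈ A₀, ∑ p ∈ S a, D / ((p : ℝ) * pr a) ≤ D := by
    have h1 : ∑ a ∈ A₀, ∑ p ∈ S a, D / ((p : ℝ) * pr a) =
        D * ∑ a ∈ A₀, ∑ p ∈ S a, 1 / ((p : ℝ) * pr a) := by
      rw [mul_sum]; refine sum_congr rfl fun a _ => ?_
      rw [mul_sum]; exact sum_congr rfl fun p _ => by ring
    rw [h1]
    exact mul_le_of_le_one_right (by linarith) (mass A₀ (filter_subset _ _) S hSB)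
  -- concurrent case
  have typeI : ∀ a ∈ A₀.filter tI, y * κ * (1 / pr a) ≤
      ∑ p ∈ S a, (T a p - Sv x y (p * pr a) W) := by
    intro a ha
    obtain ⟨ha0, hI⟩ := mem_filter.1 ha
    have haA := hA₀ a ha0
    have hS : S a = conc a := if_pos hI
    have hpa := hapos a haA
    rw [hS, sum_sub_distrib]
    have h1 : ∑ p ∈ conc a, (Sv x y (p * pr a) W : ℝ) ≤ 21 / 20 * η * y / (pr a * l) := by
      rcases (conc a).eq_empty_or_nonempty with h0 | ⟨p₀, hp₀⟩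
      · rw [h0, sum_empty]; positivity
      obtain ⟨β₀, hβ₀, hd₀⟩ := (mem_filter.1 hp₀).2
      refine le_trans (sum_le_sum_of_subset_of_nonneg (fun p hp => ?_) fun _ _ _ => by positivity)
        (hdir a haA β₀ hβ₀)
      obtain ⟨hpB, β, hβ, hd⟩ := mem_filter.1 hp
      refine mem_filter.2 ⟨hpB, ?_⟩
      by_cases e : β = β₀
      · rwa [← e]
      · exfalso
        refine (mem_filter.1 ha0).2 ⟨β, hβ, β₀, hβ₀, e, ?_, ?_⟩
        · exact (Int.natCast_dvd_natCast.2 (Dvd.intro_left _ rfl)).trans hd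
        · exact (Int.natCast_dvd_natCast.2 (Dvd.intro_left _ rfl)).trans hd₀
    have h2 : (∑ p ∈ conc a, 1 / (p : ℝ)) * ((y : ℝ) / pr a * (33 / 25 / l)) ≤
        ∑ p ∈ conc a, T a p := by
      rw [sum_mul]
      refine sum_le_sum fun p hp => ?_
      have hpB := (mem_filter.1 hp).1
      have h3 := hp0 a haA p hpB
      have h4 : 1 / (p : ℝ) * ((y : ℝ) / pr a * (33 / 25 / l)) =
          (y : ℝ) / (p * pr a) * (33 / 25 / l) := by field_simp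
      rw [h4]
      exact mul_le_mul_of_nonneg_left (hpair a haA p hpB).2.2.2.2.2.2.1
        (div_nonneg hy (mul_pos h3.1 h3.2).le)
    have h3 : 19 / 20 * (97 / 100 * η) * ((y : ℝ) / pr a * (33 / 25 / l)) ≤
        (∑ p ∈ conc a, 1 / (p : ℝ)) * ((y : ℝ) / pr a * (33 / 25 / l)) :=
      mul_le_mul_of_nonneg_right (le_trans (by linarith) hI) (by positivity)
    have h4 : y * κ * (1 / pr a) ≤ (y : ℝ) / pr a * (4 / 25 * η / l) := by
      have : y * κ * (1 / pr a) = (y : ℝ) / pr a * κ := by ring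
      rw [this]
      exact mul_le_mul_of_nonneg_left hκl (by positivity)
    have h5 : 0 ≤ (y : ℝ) / pr a * (η / l) := by positivity
    have h6 : 21 / 20 * η * y / (pr a * l) = 21 / 20 * ((y : ℝ) / pr a * (η / l)) := by
      field_simp
    have h7 : 19 / 20 * (97 / 100 * η) * ((y : ℝ) / pr a * (33 / 25 / l)) =
        19 / 20 * (97 / 100) * (33 / 25) * ((y : ℝ) / pr a * (η / l)) := by ring
    have h8 : (y : ℝ) / pr a * (4 / 25 * η / l) = 4 / 25 * ((y : ℝ) / pr a * (η / l)) := by ring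
    linarith
  -- generic case
  let U : Finset ℕ → ℕ → ℝ := fun a p => (y : ℝ) / (p * pr a) /
    (log (D / (p * pr a)) / 2 + t / 2 - 4)
  have typeII : ∀ a ∈ A₀.filter (fun a => ¬ tI a), y * κ * (1 / pr a) ≤
      ∑ p ∈ S a, (T a p - U a p) := by
    intro a ha
    obtain ⟨ha0, hI⟩ := mem_filter.1 ha
    have haA := hA₀ a ha0
    have hS : S a = B \ conc a := if_neg hI
    have hpa := hapos a haA
    rw [hS]
    have h1 : η / 25 ≤ ∑ p ∈ B \ conc a, 1 / (p : ℝ) := by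
      have h2 : ∑ p ∈ B \ conc a, 1 / (p : ℝ) + ∑ p ∈ conc a, 1 / (p : ℝ) = H :=
        sum_sdiff (filter_subset _ _)
      have h3 : ∑ p ∈ conc a, 1 / (p : ℝ) < 19 / 20 * H := not_le.1 hI
      linarith
    calc y * κ * (1 / pr a) = η / 25 * ((y : ℝ) / pr a * (25 * κ / η)) := by field_simp
      _ ≤ (∑ p ∈ B \ conc a, 1 / (p : ℝ)) * ((y : ℝ) / pr a * (25 * κ / η)) :=
          mul_le_mul_of_nonneg_right h1 (by positivity)
      _ ≤ _ := by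
          rw [sum_mul]
          refine sum_le_sum fun p hp => ?_
          have hpB := (mem_sdiff.1 hp).1
          have h3 := hp0 a haA p hpB
          have h4 : 1 / (p : ℝ) * ((y : ℝ) / pr a * (25 * κ / η)) =
              (y : ℝ) / (p * pr a) * (25 * κ / η) := by field_simp
          have h5 := mul_le_mul_of_nonneg_left (hpair a haA p hpB).2.2.2.2.2.2.2
            (div_nonneg hy (mul_pos h3.1 h3.2).le)
          rw [h4]
          refine h5.trans (le_of_eq ?_)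
          simp only [T, U]
          ring
  have hlt2 : ∀ a ∈ A₀.filter (fun a => ¬ tI a), ∀ p ∈ S a, ∀ q ∈ a, q < p := fun a ha =>
    hlt a (mem_filter.1 ha).1
  have hs := hsel (fam (A₀.filter fun a => ¬ tI a) S) (by
    intro g hg
    obtain ⟨a, ha, p, hp, rfl⟩ := mem_fam.1 hg
    obtain ⟨ha0, hI⟩ := mem_filter.1 ha
    have hS : S a = B \ conc a := if_neg hI
    rw [hS, Finset.mem_sdiff] at hp
    exact ⟨a, hA₀ a ha0, p, hp.1, rfl, fun hr =>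
      hp.2 (mem_filter.2 ⟨hp.1, hR a (hA₀ a ha0) p hp.1 hr⟩)⟩) (by
    rw [sum_fam hlt2]
    refine le_trans (le_of_eq ?_) ((mass (A₀.filter fun a => ¬ tI a)
      ((filter_subset _ _).trans (filter_subset _ _)) S hSB).trans (by norm_num))
    refine sum_congr rfl fun a ha => sum_congr rfl fun p hp => ?_
    rw [hprR a (hA₀ a (mem_filter.1 ha).1) p (hSB a hp)])
  rw [sum_fam hlt2, sum_fam hlt2] at hs
  have hs' : ∑ a ∈ A₀.filter (fun a => ¬ tI a), ∑ p ∈ S a, (Sv x y (p * pr a) W : ℝ) ≤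
      ∑ a ∈ A₀.filter (fun a => ¬ tI a), ∑ p ∈ S a, U a p + E := by
    refine le_trans (le_of_eq ?_) (hs.trans (le_of_eq ?_))
    · refine sum_congr rfl fun a ha => sum_congr rfl fun p hp => ?_
      rw [hpr a (hA₀ a (mem_filter.1 ha).1) p (hSB a hp)]
    · congr 1
      refine sum_congr rfl fun a ha => sum_congr rfl fun p hp => ?_
      rw [hprR a (hA₀ a (mem_filter.1 ha).1) p (hSB a hp)]
  have s1 := sum_le_sum typeI
  have s2 := sum_le_sum typeII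
  simp only [sum_sub_distrib] at s1 s2 step1
  have s3 := sum_filter_add_sum_filter_not A₀ tI (fun a => y * κ * (1 / (pr a : ℝ)))
  have s4 := sum_filter_add_sum_filter_not A₀ tI (fun a => ∑ p ∈ S a, T a p)
  have s5 := sum_filter_add_sum_filter_not A₀ tI
    (fun a => ∑ p ∈ S a, (Sv x y (p * pr a) W : ℝ))
  have s6 := sum_filter_add_sum_filter_not A exc (fun a => 1 / (pr a : ℝ))
  have s7 : y * κ * c ≤ ∑ a ∈ A₀, y * κ * (1 / (pr a : ℝ)) := by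
    rw [← mul_sum]
    refine mul_le_mul_of_nonneg_left ?_ (by positivity)
    have : ∑ a ∈ A.filter exc, 1 / (pr a : ℝ) ≤ c := hexc
    have e : ∑ a ∈ A₀, 1 / (pr a : ℝ) = ∑ a ∈ A.filter (fun a => ¬ exc a), 1 / (pr a : ℝ) := rfl
    linarith
  simp only [sum_sub_distrib] at key
  linarith

theorem core_main_term {C₁ D L : ℝ} {b z : ℕ} {y : ℝ} (hC : 0 < C₁) (hL : 1 ≤ log L)
    (hL0 : 1 ≤ L) (hy : 1 ≤ y) (hD : D = y / L ^ 7) (hz : (z : ℝ) ≤ 2 * (√y * L ^ b))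
    (hz0 : √D ≤ z) (hlD : L / 2 ≤ log D) (hlD' : log D ≤ L) :
    C₁ * (log (log D) + log ((z : ℝ) ^ 2 / D)) / log D ^ 2 ≤
      4 * C₁ * (2 * b + 10) * log L / L ^ 2 := by
  have hD0 : 0 < D := by rw [hD]; positivity
  have hz1 : (0 : ℝ) < z := (sqrt_pos.2 hD0).trans_le hz0
  have h1 : log (log D) ≤ log L := log_le_log (by linarith) hlD'
  have h2 : (z : ℝ) ^ 2 / D ≤ 4 * L ^ (2 * b + 7) := by
    rw [div_le_iff₀ hD0, hD]
    calc (z : ℝ) ^ 2 ≤ (2 * (√y * L ^ b)) ^ 2 := by gcongr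
      _ = 4 * L ^ (2 * b + 7) * (y / L ^ 7) := by
          rw [mul_pow, mul_pow, sq_sqrt (by linarith)]; field_simp; ring
  have h3 : log ((z : ℝ) ^ 2 / D) ≤ 2 + (2 * b + 7) * log L := by
    refine (log_le_log (by positivity) h2).trans ?_
    rw [log_mul (by norm_num) (by positivity), log_pow]
    have : log 4 ≤ 2 := by
      have := log_le_sub_one_of_pos (show (0 : ℝ) < 2 by norm_num)
      rw [show (4 : ℝ) = 2 ^ 2 by norm_num, log_pow]; push_cast; linarith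
    push_cast; linarith
  have h4 : log (log D) + log ((z : ℝ) ^ 2 / D) ≤ (2 * b + 10) * log L := by linarith
  have h5 : 0 ≤ (2 * b + 10 : ℝ) * log L := by positivity
  calc C₁ * (log (log D) + log ((z : ℝ) ^ 2 / D)) / log D ^ 2
      ≤ C₁ * ((2 * b + 10) * log L) / log D ^ 2 := by gcongr
    _ ≤ C₁ * ((2 * b + 10) * log L) / (L / 2) ^ 2 := by gcongr
    _ = _ := by field_simp; ring

theorem core_level (b : ℕ) (D₁ : ℝ) : ∀ᶠ y : ℕ in atTop, D₁ ≤ Dp y ∧ 1 < Dp y ∧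
    Dp y ≤ y / log y ^ 3 ∧ log y / 2 ≤ log (Dp y) ∧ log (Dp y) ≤ log y ∧
    √y ≤ (⌈√y * log y ^ b⌉₊ : ℝ) ∧ (⌈√y * log y ^ b⌉₊ : ℝ) ≤ 2 * (√y * log y ^ b) ∧
    √(Dp y) ≤ (⌈√y * log y ^ b⌉₊ : ℝ) ∧ (⌈√y * log y ^ b⌉₊ : ℝ) ≤ Dp y ^ (3 / 5 : ℝ) ∧
    (⌈√y * log y ^ b⌉₊ : ℝ) ≤ Dp y := by
  filter_upwards [ev_le_log 1, ev_log_pow_le 2 (b + 5) (ε := 1 / 10) (by norm_num),
    ev_log_pow_le (|D₁| + 2) 7 (ε := 1 / 2) (by norm_num), eventually_ge_atTop 1]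
    with y hL1 e12 e13 e14
  have hy1 : (1 : ℝ) ≤ y := by exact_mod_cast e14
  have hy0 : (0 : ℝ) < y := by linarith
  set L := log (y : ℝ) with hL
  set D := Dp y with hD
  set z := ⌈√y * L ^ b⌉₊ with hz
  have hL0 : 0 < L := by linarith
  have hsq : (y : ℝ) ^ (1 / 2 : ℝ) * (y : ℝ) ^ (1 / 2 : ℝ) = y := by
    rw [← rpow_add hy0]; norm_num
  have hs1 : 1 ≤ (y : ℝ) ^ (1 / 2 : ℝ) := one_le_rpow hy1 (by norm_num)
  have hL7 : 0 < L ^ 7 := by positivity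
  have hA := abs_nonneg D₁
  have hD1 : (|D₁| + 2) * (y : ℝ) ^ (1 / 2 : ℝ) ≤ D := by
    rw [hD, Dp, le_div_iff₀ hL7]
    calc _ = (|D₁| + 2) * L ^ 7 * (y : ℝ) ^ (1 / 2 : ℝ) := by ring
      _ ≤ (y : ℝ) ^ (1 / 2 : ℝ) * (y : ℝ) ^ (1 / 2 : ℝ) := by gcongr
      _ = _ := hsq
  have hD2 : (y : ℝ) ^ (1 / 2 : ℝ) ≤ D :=
    le_trans (le_mul_of_one_le_left (by positivity) (by linarith)) hD1
  have hD0 : |D₁| + 2 ≤ D := le_trans (le_mul_of_one_le_right (by positivity) hs1) hD1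
  have hD4 : 1 < D := by linarith
  have hL71 : 1 ≤ L ^ 7 := one_le_pow₀ hL1
  have hD5 : D ≤ y := by rw [hD, Dp]; exact div_le_self hy0.le hL71
  have hlD : L / 2 ≤ log D := by
    have := log_le_log (by positivity) hD2
    rw [log_rpow hy0] at this
    linarith
  have hLb : 1 ≤ L ^ b := one_le_pow₀ hL1
  have hsy : 1 ≤ √(y : ℝ) := one_le_sqrt.2 hy1
  have hz1 : √(y : ℝ) ≤ z := le_trans (le_mul_of_one_le_right (by positivity) hLb) (Nat.le_ceil _)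
  have hz2 : (z : ℝ) ≤ 2 * (√y * L ^ b) := by
    have := Nat.ceil_lt_add_one (show 0 ≤ √(y : ℝ) * L ^ b by positivity)
    have := one_le_mul_of_one_le_of_one_le hsy hLb
    linarith
  have hz4 : (z : ℝ) ≤ D ^ (3 / 5 : ℝ) := by
    refine hz2.trans ?_
    rw [hD, Dp, div_rpow hy0.le hL7.le, le_div_iff₀ (by positivity)]
    have h1 : (L ^ 7) ^ (3 / 5 : ℝ) ≤ L ^ 5 := by
      rw [← rpow_natCast L 7, ← rpow_mul hL0.le, ← rpow_natCast L 5]
      exact rpow_le_rpow_of_exponent_le hL1 (by norm_num)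
    calc 2 * (√y * L ^ b) * (L ^ 7) ^ (3 / 5 : ℝ) ≤ 2 * (√y * L ^ b) * L ^ 5 := by gcongr
      _ = √y * (2 * L ^ (b + 5)) := by ring
      _ ≤ √y * (y : ℝ) ^ (1 / 10 : ℝ) := by gcongr
      _ = _ := by rw [sqrt_eq_rpow, ← rpow_add hy0]; norm_num
  refine ⟨by linarith [le_abs_self D₁], hD4, ?_, hlD, log_le_log (by linarith) hD5, hz1, hz2,
    (sqrt_le_sqrt hD5).trans hz1, hz4, hz4.trans (rpow_le_self_of_one_le hD4.le (by norm_num))⟩
  rw [hD, Dp]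
  exact div_le_div_of_nonneg_left hy0.le (by positivity) (pow_le_pow_right₀ hL1 (by norm_num))

theorem core_w {n : ℕ} (hn : 6 ≤ n) (M : ℝ) (B : ℕ) : ∀ᶠ y : ℕ in atTop,
    M ≤ log (ww n y) ∧ B * log (log y) ≤ log (ww n y) ∧ 3 / 2 * log (ww n y) ≤ log y ∧
    ww n y < WW n y ∧ (WW n y : ℝ) ≤ 2 * ww n y ∧ M ≤ ww n y := by
  have hnR : (6 : ℝ) ≤ n := by exact_mod_cast hn
  filter_upwards [coreA_w hn, ev_le_log (2 * n * (|M| + 1)),
    ev_loglog_pow_le (2 * n * B) 1 (ε := 1) one_pos, eventually_ge_atTop 1] with y e3 e9 e11 e14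
  have hy1 : (1 : ℝ) ≤ y := by exact_mod_cast e14
  have hy0 : (0 : ℝ) < y := by linarith
  set L := log (y : ℝ) with hL
  set w := ww n y with hw
  have hL0 : 0 ≤ L := log_nonneg hy1
  rw [pow_one, rpow_one] at e11
  have hw0 : 0 < w := exp_pos _
  have hl1 : L / (2 * n) ≤ log w := by
    have := log_le_log (by positivity) e3.1
    rw [log_rpow hy0] at this
    refine le_trans (le_of_eq ?_) this
    rw [hL]; ring
  have hl2 : log w ≤ L / n := by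
    have := log_le_log hw0 e3.2
    rw [log_rpow hy0] at this
    refine this.trans (le_of_eq ?_)
    rw [hL]; ring
  have hl3 : |M| + 1 ≤ log w := by
    refine le_trans ?_ hl1
    rw [le_div_iff₀ (by positivity)]; linarith
  have hw1 := log_le_sub_one_of_pos hw0
  have hM := le_abs_self M
  have hM' := abs_nonneg M
  refine ⟨by linarith, le_trans ?_ hl1, ?_, ?_, ?_, by linarith⟩
  · rw [le_div_iff₀ (by positivity)]; linarith
  · have : L / n ≤ L / 6 := by gcongr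
    linarith
  · unfold WW; push_cast; exact Nat.lt_floor_add_one _
  · unfold WW; push_cast
    linarith [Nat.floor_le hw0.le]

theorem core_end {y L τ D K₁ Bc M S g : ℝ} (hy : 0 ≤ y) (hL : 1 ≤ L) (hτ : 16 ≤ τ)
    (hB : K₁ + 1 ≤ Bc) (hD : D ≤ y / L ^ 3) (hM : -(K₁ * τ / L ^ 2) ≤ M)
    (hg : g = Bc * (y * τ / L ^ 2)) (key : y * M - 2 * D - y / L ^ 3 + g ≤ S) :
    y / L ^ 2 ≤ S := by
  have h1 : y * (-(K₁ * τ / L ^ 2)) ≤ y * M := mul_le_mul_of_nonneg_left hM hy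
  have h3 : y / L ^ 3 ≤ y / L ^ 2 :=
    div_le_div_of_nonneg_left hy (by positivity) (pow_le_pow_right₀ hL (by norm_num))
  have h0 : 0 ≤ τ := by linarith
  have h4 : (K₁ + 1) * (y * τ / L ^ 2) ≤ Bc * (y * τ / L ^ 2) := by gcongr
  have h5 : 16 * (y / L ^ 2) ≤ y * τ / L ^ 2 := by
    rw [mul_comm (y : ℝ), mul_div_assoc]; gcongr
  have h6 : y * (-(K₁ * τ / L ^ 2)) = -(K₁ * (y * τ / L ^ 2)) := by ring
  have h7 : 0 ≤ y / L ^ 2 := by positivity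
  linarith

theorem core_params {δ d₀ : ℝ} (hδ0 : 0 < δ) (hd₀ : 0 < d₀) : ∃ (n : ℕ) (η δ₃ : ℝ), 6 ≤ n ∧ Even n ∧
    1 / (n : ℝ) ≤ d₀ ∧ 0 < η ∧ η ≤ δ / 2 ∧ η ≤ 1 / (10 * (n : ℝ)) ∧ η ≤ 1 / 50 ∧ 0 < δ₃ ∧
    δ₃ ≤ 1 / 50 ∧ 7 * δ₃ ≤ 1 / (n : ℝ) / 2 ∧ 7 * δ₃ ≤ δ / 40 := by
  obtain ⟨n, hn6, hev, hnd⟩ : ∃ n : ℕ, 6 ≤ n ∧ Even n ∧ 1 / (n : ℝ) ≤ d₀ := by
    refine ⟨2 * (⌈1 / d₀⌉₊ + 3), by omega, even_two_mul _, ?_⟩
    have h1 := Nat.le_ceil (1 / d₀)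
    have h2 : (0 : ℝ) ≤ ⌈1 / d₀⌉₊ := Nat.cast_nonneg _
    rw [div_le_iff₀ hd₀] at h1
    rw [div_le_iff₀ (by positivity)]
    push_cast
    nlinarith
  have hnR : (6 : ℝ) ≤ n := by exact_mod_cast hn6
  have hn0 : (0 : ℝ) < n := by linarith
  refine ⟨n, min (δ / 2) (1 / (10 * (n : ℝ))), min (1 / 50) (min (1 / (n : ℝ) / 14) (δ / 280)),
    hn6, hev, hnd, lt_min (by positivity) (by positivity), min_le_left _ _, min_le_right _ _,
    (min_le_right _ _).trans (one_div_le_one_div_of_le (by norm_num) (by linarith)),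
    lt_min (by norm_num) (lt_min (by positivity) (by positivity)), min_le_left _ _, ?_, ?_⟩
  · have := (min_le_right (1 / 50 : ℝ) _).trans (min_le_left (1 / (n : ℝ) / 14) (δ / 280))
    linarith
  · have := (min_le_right (1 / 50 : ℝ) _).trans (min_le_right (1 / (n : ℝ) / 14) (δ / 280))
    linarith

theorem core_WW {w X : ℝ} {W : ℕ} (hw0 : 0 < w) (hl : 10 ≤ log w) (hw2 : 1 ≤ w) (h1 : w < W)
    (h2 : (W : ℝ) ≤ 2 * w) (g3 : w ^ (13 / 10 : ℝ) ≤ X) (g4 : X ≤ w ^ (3 / 2 : ℝ)) :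
    (W : ℝ) ^ (6 / 5 : ℝ) ≤ X ∧ X ≤ (W : ℝ) ^ (8 / 5 : ℝ) := by
  refine ⟨le_trans ?_ g3, g4.trans ?_⟩
  · have hW0 : (0 : ℝ) < W := by linarith
    rw [← log_le_log_iff (by positivity) (by positivity), log_rpow hW0, log_rpow hw0]
    have h1 : log W ≤ log 2 + log w := by
      rw [← log_mul (by norm_num) hw0.ne']; exact log_le_log hW0 h2
    have h2 := log_two_lt_d9
    linarith
  · calc w ^ (3 / 2 : ℝ) ≤ (W : ℝ) ^ (3 / 2 : ℝ) := rpow_le_rpow hw0.le h1.le (by norm_num)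
      _ ≤ _ := rpow_le_rpow_of_exponent_le (by linarith) (by norm_num)

theorem core {δ C : ℝ} (hδ0 : 0 < δ) (hδ : δ ≤ 1 / 4) (h : PA δ C) (b : ℕ) :
    ∀ᶠ y : ℕ in atTop, ∀ x : ℕ, (y : ℝ) / log y ^ 2 ≤ Sv x y 1 ⌈√y * log y ^ b⌉₊ := by
  obtain ⟨d₀, hd₀, hdir⟩ := direct hδ0 hδ h
  obtain ⟨C₁, D₁, hC₁, hlow⟩ := mod_lower hδ0 hδ h
  obtain ⟨C₂, X₂, hC₂, hup⟩ := mod_upper hδ0 hδ h
  obtain ⟨n, η, δ₃, hn6, hev, hnd, hη, hη1, hη2, hη3, h3, h3a, h3b, h3c⟩ := core_params hδ0 hd₀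
  have hn0 : (0 : ℝ) < n := by exact_mod_cast (show 0 < n by omega)
  obtain ⟨c, hc⟩ : ∃ c : ℝ, c = (η / 3) ^ n / n.factorial / 2 := ⟨_, rfl⟩
  have hc0 : 0 < c := by rw [hc]; positivity
  obtain ⟨B, hB1, hB⟩ : ∃ B : ℕ, 1 ≤ B ∧ 4 * C₁ * (2 * b + 10) + 1 ≤ B * η * c / 100 := by
    refine ⟨⌈100 * (4 * C₁ * (2 * b + 10) + 1) / (η * c)⌉₊ + 1, by omega, ?_⟩
    have h1 := Nat.le_ceil (100 * (4 * C₁ * (2 * b + 10) + 1) / (η * c))
    rw [div_le_iff₀ (by positivity)] at h1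
    push_cast
    nlinarith [mul_pos hη hc0]
  have hBR : (1 : ℝ) ≤ B := by exact_mod_cast hB1
  have hhalf : 1 / (n : ℝ) / 2 = 1 / (2 * (n : ℝ)) := by field_simp
  filter_upwards [hdir (1 / n) (7 * δ₃) η (by positivity) hnd (by positivity) h3b h3c hη hη1,
    sel_final hδ0 hδ h B n (by omega) h3 h3a, coreA_w hn6, coreA hn6 hev hη hη2,
    coreM_B1 hη hη3, coreM_AA hn6 hη hη3, coreM_exc hn6 η h3 h3a hc0, coreM_lines h3 h3a,
    core_w hn6 (50 * C₂ + |X₂| + 10) B, ev_le_loglog (16 + 4 * C₂), core_level b D₁,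
    ev_le_log 1, eventually_ge_atTop 1]
    with y e1 e2 e3 e4 e5 e6 e7 e8 e9 e10 e11 hL1 e14 x
  have hy1 : (1 : ℝ) ≤ y := by exact_mod_cast e14
  have hy0 : (0 : ℝ) < y := by linarith
  obtain ⟨hl3, hl4, hl5, hWw, hWw2, hw1⟩ := e9
  obtain ⟨hD3, hD4, hD5, hlD, hlD', hz1, hz2, hz3, hz4, hz5⟩ := e11
  have hX2 := abs_nonneg X₂
  have hτ16 : 16 ≤ log (log y) := by linarith
  have hw0 : 0 < ww n y := exp_pos _
  have hl0 : 0 < log (ww n y) := by linarith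
  have hw2 : 1 ≤ ww n y := by linarith
  have hL0 : 0 < log (y : ℝ) := by linarith
  have hτ0 : 0 < log (log (y : ℝ)) := by linarith
  have hmain := (neg_le_neg (core_main_term (b := b) hC₁ (by linarith) hL1 hy1 rfl hz2 hz3
    hlD hlD')).trans (hlow _ hD3 _ hz3 hz4)
  obtain ⟨𝔅, hc1, hc2, hc3⟩ := e8 x
  have hcard : ∀ a ∈ AA n η y, a.card = n := fun a ha => (mem_powersetCard.1 ha).2
  have hB0 : (B1 η y).Nonempty := by
    rw [nonempty_iff_ne_empty]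
    intro h0
    have := e5.1
    rw [h0, sum_empty] at this
    linarith
  have hprime : ∀ a ∈ AA n η y, ∀ q ∈ a, q.Prime ∧ WW n y ≤ q := fun a ha q hq =>
    ((e4 a ha).2.2 _ hB0.choose_spec).2.1 q (mem_insert_of_mem hq)
  refine core_end hy0.le hL1 hτ16 hB hD5 hmain (by field_simp)
    (core_fix (W := WW n y) (k := n + 1) (l := log (ww n y))
    (η := η) (κ := B * η * log (log y) / (100 * log y ^ 2)) (t := B * log (log y)) (C₂ := C₂)
    (c := c) (A := AA n η y) (B := B1 η y) (𝔅 := 𝔅)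
    (R := fun q => ∃ m ∈ Icc 1 y, q ∣ m ∧ Rich x y ((y : ℝ) ^ (1 - 3 * δ₃)) m)
    hD4 hz5 hev.add_one hl0 hη (by positivity) ?_ ?_ e5.1 e5.2 (by rw [hc]; linarith [e6.1]) e6.2
    (e7 x 𝔅 hc1 hc2) ?_ ?_ ?_)
  · intro a ha p hp
    obtain ⟨g1, g2, g3, g4, g5, g6⟩ := (e4 a ha).2.2 p hp
    set X := Dp y / (p * pr a) with hX
    have hX1 : ww n y ≤ X := le_trans (self_le_rpow_of_one_le hw2 (by norm_num)) g3
    have hX0 : 0 < X := by linarith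
    have hΛ1 : 13 / 10 * log (ww n y) ≤ log X := by
      have := log_le_log (by positivity) g3
      rwa [log_rpow hw0] at this
    have hΛ2 : log X ≤ 3 / 2 * log (ww n y) := by
      have := log_le_log hX0 g4
      rwa [log_rpow hw0] at this
    refine ⟨g1, g2, g6 _ hz1, ?_, by linarith, hup X (by linarith [le_abs_self X₂]) _ ?_,
      core_num1 hl0 (by linarith) hΛ1 hΛ2, ?_⟩
    · rw [card_insert_of_notMem fun hp' => lt_irrefl _ (g1 p hp'), hcard a ha]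
    · refine g5.trans ?_
      calc ww n y ^ (1 + η) ≤ ww n y ^ ((13 / 10 : ℝ) * (4 / 5)) :=
            rpow_le_rpow_of_exponent_le hw2 (by linarith)
        _ = (ww n y ^ (13 / 10 : ℝ)) ^ (4 / 5 : ℝ) := rpow_mul hw0.le _ _
        _ ≤ _ := rpow_le_rpow (by positivity) g3 (by norm_num)
    · have h1 : log (log y) ≤ B * log (log y) := le_mul_of_one_le_left hτ0.le hBR
      refine le_trans (le_of_eq ?_) (core_num2 (L := log y) (by linarith) (by linarith)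
        (by linarith) (by linarith) (by linarith))
      field_simp; norm_num
  · rw [div_le_div_iff₀ (by positivity) hl0]
    have h1 : B * log (log y) * log (ww n y) ≤ log y ^ 2 := by
      have : B * log (log y) ≤ log y := by linarith
      have : log (ww n y) ≤ log y := by linarith
      rw [sq]; gcongr
    have h2 := mul_le_mul_of_nonneg_left h1 hη.le
    have h3 : 0 ≤ η * log y ^ 2 := by positivity
    linarith
  · intro a ha β hβ
    obtain ⟨b1, b2, b3, b4⟩ := hc2 β hβ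
    refine e1 x β.1 (pr a) (WW n y) β.2 (Pp y) (ww n y)
      (rpow_le_rpow_of_exponent_le hy1 (by norm_num)) (by rw [hhalf]; exact e3.1) e3.2 hWw hWw2
      b1 b2 b3 b4 (pr_pos fun q hq => (hprime a ha q hq).1) (fun r hr hd => ?_) (e4 a ha).2.1
    rw [Nat.mem_primesBelow] at hr
    obtain ⟨q, hq, hrq⟩ := (Prime.dvd_finsetProd_iff hr.2.prime _).1 hd
    have := (Nat.prime_dvd_prime_iff_eq hr.2 (hprime a ha q hq).1).1 hrq
    have := (hprime a ha q hq).2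
    omega
  · rintro a ha p hp ⟨m, hm, hd, hR⟩
    obtain ⟨β, hβ, hβ'⟩ := hc3 m hm hR
    obtain ⟨g1, g2, -⟩ := (e4 a ha).2.2 p hp
    refine ⟨β, hβ, hβ' _ hd fun r hr hrd => ?_⟩
    rw [← pr_insert fun hp' => lt_irrefl _ (g1 p hp')] at hrd
    obtain ⟨q, hq, hrq⟩ := (Prime.dvd_finsetProd_iff hr.prime _).1 hrd
    have e := (Nat.prime_dvd_prime_iff_eq hr (g2 q hq).1).1 hrq
    have h1 : (WW n y : ℝ) ≤ r := by rw [e]; exact_mod_cast (g2 q hq).2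
    have h2 : (y : ℝ) ^ (4 * δ₃) ≤ (y : ℝ) ^ (1 / (2 * (n : ℝ))) :=
      rpow_le_rpow_of_exponent_le hy1 (by rw [← hhalf]; linarith)
    linarith [e3.1]
  · intro G hG hm
    refine e2 x (WW n y) G (e3.1.trans hWw.le) (fun g hg => ?_) hm
    obtain ⟨a, ha, p, hp, rfl, hR⟩ := hG g hg
    obtain ⟨g1, g2, g3, g4, -⟩ := (e4 a ha).2.2 p hp
    have e : pr (insert p a) = p * pr a := pr_insert fun hp' => lt_irrefl _ (g1 p hp')
    have e' : (pr (insert p a) : ℝ) = p * pr a := by rw [e]; push_cast; rfl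
    rw [e', e]
    have := core_WW hw0 (by linarith) hw2 hWw hWw2 g3 g4
    exact ⟨g2, this.1, this.2, fun m hm hd hr => hR ⟨m, hm, hd, hr⟩⟩

end Vale.Agent.P013
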