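import Vale.Agent.P013.Basic

/-!
The family of moduli. `ℒ = log y`, `D = Dp y`, `P = Pp y`, `w = ww n y`; `log D = ℒ - 7 log ℒ`, `log P = 3ℒ/10`,
`(n + 3/2) log w = 7ℒ/10 - 7 log ℒ ∈ [0.69 ℒ, 0.7 ℒ]` eventually, and `D = P w^(n + 3/2)`. For `n ≥ 6`: `ℒ / (2 n) ≤ log w ≤ ℒ / n`,
`log P ≤ (3/5) n log w`, so `η log P ≤ (3/50) log w`, `η n ≤ 1/10`. For `a ∈ AA`, `w^n ≤ pr a ≤ w^(n (1 + η))`; for `p ∈ B1`,
`P < p ≤ P^(1+η) ≤ √y`, and `w^(1+η) ≤ P`, so `p` exceeds all elements of `a`. Chain condition: `p` has position `1`;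
`q ∈ a` has position `1 + |a.filter (q ≤ ·)|`; if it is even then `|a.filter (q ≤ ·)|` is odd, hence `≤ n - 1`, at most `n - 2` elements of `a`
exceed `q`, and the product is at most `P^(1+η) w^((1+η)(n+1)) < P w^(n + 3/2)`. It is convenient to compare logarithms.
-/

namespace Vale.Agent.P013

open Finset Real Filter

theorem corea_basic {n : ℕ} (hn : 6 ≤ n) : ∀ᶠ y : ℕ in atTop, ∃ l L : ℝ, 0 < l ∧
    ww n y = exp l ∧ Pp y = exp (3 / 10 * L) ∧ Dp y = exp (3 / 10 * L + (n + 3 / 2) * l) ∧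
    (y : ℝ) = exp L ∧ L ≤ 2 * n * l ∧ n * l ≤ L ∧ 3 / 10 * L + (n + 3 / 2) * l ≤ L := by
  filter_upwards [ev_loglog_pow_le 700 1 one_pos, ev_le_log 1, eventually_gt_atTop 0]
    with y h1 h2 h3
  have hy : (0 : ℝ) < y := by exact_mod_cast h3
  have hn' : (6 : ℝ) ≤ n := by exact_mod_cast hn
  have h4 := log_nonneg h2
  rw [pow_one, rpow_one] at h1
  have hP : log (Pp y) = 3 / 10 * log y := by rw [Pp, log_rpow hy]
  have hD0 : 0 < Dp y := by rw [Dp]; positivity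
  have hD : log (Dp y) = log y - 7 * log (log y) := by
    rw [Dp, log_div hy.ne' (by positivity), log_pow]; norm_num
  obtain ⟨l, hl⟩ : ∃ l, l = (log (Dp y) - log (Pp y)) / ((n : ℝ) + 3 / 2) := ⟨_, rfl⟩
  have h5 : (n + 3 / 2) * l = log (Dp y) - log (Pp y) := by rw [hl]; field_simp
  have h6 : 0 < l := by
    rw [hl]; exact div_pos (by linarith) (by linarith)
  refine ⟨l, log y, h6, by rw [hl, ww], ?_, ?_, (exp_log hy).symm, by nlinarith, by nlinarith,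
    by linarith⟩
  · rw [← hP, exp_log (by rw [Pp]; positivity)]
  · rw [h5, ← hP, add_sub_cancel, exp_log hD0]

theorem corea_pr_le {d : Finset ℕ} {u : ℝ} {k : ℕ} (hu : 0 ≤ u) (hk : d.card ≤ k)
    (h : ∀ q ∈ d, (q : ℝ) ≤ exp u) : (pr d : ℝ) ≤ exp (k * u) := by
  rw [pr_cast]
  refine (prod_le_prod (fun _ _ => Nat.cast_nonneg _) h).trans ?_
  rw [prod_const, ← exp_nat_mul, exp_le_exp]
  exact mul_le_mul_of_nonneg_right (Nat.cast_le.2 hk) hu

theorem coreA_w {n : ℕ} (hn : 6 ≤ n) : ∀ᶠ y : ℕ in atTop,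
    (y : ℝ) ^ (1 / (2 * (n : ℝ))) ≤ ww n y ∧ ww n y ≤ (y : ℝ) ^ (1 / (n : ℝ)) := by
  filter_upwards [corea_basic hn] with y ⟨l, L, _, h1, _, _, h2, h3, h4, _⟩
  have hn' : (0 : ℝ) < n := by exact_mod_cast (by omega : 0 < n)
  rw [h1, h2, ← exp_mul, ← exp_mul, exp_le_exp, exp_le_exp, mul_one_div, mul_one_div,
    div_le_iff₀ (by positivity), le_div_iff₀ hn']
  constructor <;> linarith

theorem coreA {n : ℕ} (hn : 6 ≤ n) (hev : Even n) {η : ℝ} (hη : 0 < η)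
    (hη' : η ≤ 1 / (10 * (n : ℝ))) : ∀ᶠ y : ℕ in atTop, ∀ a ∈ AA n η y,
    ww n y ^ n ≤ (pr a : ℝ) ∧ ww n y ^ (6 / 5 : ℝ) ≤ y / (pr a * Pp y ^ (1 + η)) ∧
    ∀ p ∈ B1 η y, (∀ q ∈ a, q < p) ∧ (∀ q ∈ insert p a, q.Prime ∧ WW n y ≤ q) ∧
      ww n y ^ (13 / 10 : ℝ) ≤ Dp y / (p * pr a) ∧ Dp y / (p * pr a) ≤ ww n y ^ (3 / 2 : ℝ) ∧
      (mn (insert p a) : ℝ) ≤ ww n y ^ (1 + η) ∧
      ∀ z : ℕ, √y ≤ z → insert p a ∈ chains 0 (Dp y) z := by
  filter_upwards [corea_basic hn] with y ⟨l, L, hl, h1, hP, hD, h2, h3, h4, h5⟩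
  intro a ha
  classical
  have hn' : (6 : ℝ) ≤ n := by exact_mod_cast hn
  have hη1 : η * n ≤ 1 / 10 := by
    rw [le_div_iff₀ (by positivity)] at hη'; linarith
  have hη2 : η ≤ 1 / 60 := by nlinarith
  have hL : 6 * l ≤ L := by nlinarith
  have hηl : η * n * l ≤ 1 / 10 * l := mul_le_mul_of_nonneg_right hη1 hl.le
  have hηl' : η * l ≤ 1 / 60 * l := mul_le_mul_of_nonneg_right hη2 hl.le
  have hηL : η * L ≤ 1 / 5 * l := by nlinarith [mul_le_mul_of_nonneg_left h3 hη.le]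
  rw [AA, mem_powersetCard, h1, ← exp_mul] at ha
  obtain ⟨ha, hc⟩ := ha
  have hq : ∀ q ∈ a, q.Prime ∧ exp l < q ∧ (q : ℝ) ≤ exp (l * (1 + η)) := fun q hq =>
    (mem_PR (exp_pos _).le (exp_pos _).le).1 (ha hq)
  have hu : 0 ≤ l * (1 + η) := by positivity
  have hlo : exp l ^ n ≤ (pr a : ℝ) := by
    rw [pr_cast, ← hc, ← prod_const]
    exact prod_le_prod (fun _ _ => (exp_pos _).le) fun q hq' => (hq q hq').2.1.le
  have hhi := corea_pr_le hu hc.le fun q hq' => (hq q hq').2.2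
  have hpr : (0 : ℝ) < pr a := lt_of_lt_of_le (by positivity) hlo
  rw [B1, WW, h1, hP, hD, ← exp_mul, ← exp_mul, ← exp_mul, ← exp_mul, ← exp_mul]
  refine ⟨hlo, ?_, fun p hp => ?_⟩
  · rw [le_div_iff₀ (by positivity), h2]
    refine (mul_le_mul_of_nonneg_left (mul_le_mul_of_nonneg_right hhi (exp_pos _).le)
      (exp_pos _).le).trans ?_
    rw [← exp_add, ← exp_add, exp_le_exp]
    linarith
  obtain ⟨hp1, hp2, hp3⟩ := (mem_PR (exp_pos _).le (exp_pos _).le).1 hp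
  have hp0 : (0 : ℝ) < p := (exp_pos _).trans hp2
  have hwP : exp (l * (1 + η)) ≤ exp (3 / 10 * L) := exp_le_exp.2 (by linarith)
  have hqp : ∀ q ∈ a, q < p := fun q hq' => by
    exact_mod_cast ((hq q hq').2.2.trans hwP).trans_lt hp2
  have hpa : ∀ s ⊆ a, p ∉ s := fun s hs h => lt_irrefl _ (hqp p (hs h))
  refine ⟨hqp, fun q hq' => ?_, ?_, ?_, ?_, fun z hz => mem_filter.2 ⟨mem_powerset.2 fun q hq' => ?_,
    fun q hq' hE => ?_⟩⟩
  · rw [Nat.succ_le_iff, Nat.floor_lt (exp_pos _).le]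
    rcases mem_insert.1 hq' with rfl | hq'
    · exact ⟨hp1, (exp_le_exp.2 (by linarith)).trans_lt hp2⟩
    · exact ⟨(hq q hq').1, (hq q hq').2.1⟩
  · rw [le_div_iff₀ (by positivity)]
    refine (mul_le_mul_of_nonneg_left (mul_le_mul hp3 hhi hpr.le (exp_pos _).le)
      (exp_pos _).le).trans ?_
    rw [← exp_add, ← exp_add, exp_le_exp]
    linarith
  · rw [div_le_iff₀ (by positivity)]
    refine le_trans ?_ (mul_le_mul_of_nonneg_left (mul_le_mul hp2.le hlo (by positivity) hp0.le)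
      (exp_pos _).le)
    rw [← exp_nat_mul, ← exp_add, ← exp_add, exp_le_exp]
    linarith
  · obtain ⟨q, hq'⟩ := card_pos.1 (show 0 < a.card by omega)
    exact (Nat.cast_le.2 (mn_le (mem_insert_of_mem hq'))).trans (hq q hq').2.2
  · have h6 : (p : ℝ) < z := by
      refine lt_of_lt_of_le (lt_sqrt_of_sq_lt ?_) hz
      refine (pow_le_pow_left₀ hp0.le hp3 2).trans_lt ?_
      rw [← exp_nat_mul, h2, exp_lt_exp]
      push_cast
      linarith
    have h7 : p < z := by exact_mod_cast h6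
    rcases mem_insert.1 hq' with rfl | hq'
    · exact Nat.mem_primesBelow.2 ⟨h7, hp1⟩
    · exact Nat.mem_primesBelow.2 ⟨(hqp q hq').trans h7, (hq q hq').1⟩
  rcases mem_insert.1 hq' with rfl | hq'
  · rw [filter_insert, if_pos le_rfl, filter_false_of_mem fun r hr => not_le.2 (hqp r hr)] at hE
    simp at hE
  have e : a.filter (fun r => q ≤ r) = insert q (a.filter fun r => q < r) := by
    ext r
    simp only [mem_filter, mem_insert]
    constructor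
    · rintro ⟨h6, h7⟩
      rcases h7.eq_or_lt with h8 | h8
      exacts [Or.inl h8.symm, Or.inr ⟨h6, h8⟩]
    · rintro (rfl | ⟨h6, h7⟩)
      exacts [⟨hq', le_rfl⟩, ⟨h6, h7.le⟩]
  have h6 := card_filter_le a fun r => q ≤ r
  rw [filter_insert, if_pos (hqp q hq').le, card_insert_of_notMem (hpa _ (filter_subset _ _))] at hE
  rw [e, card_insert_of_notMem (by simp)] at hE h6
  have h7 : (a.filter fun r => q < r).card ≤ n - 2 := by
    rw [Nat.even_iff] at hE hev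
    omega
  have h8 := corea_pr_le hu h7 fun r hr => (hq r (mem_filter.1 hr).1).2.2
  rw [Nat.cast_sub (by omega)] at h8
  rw [filter_insert, if_pos (hqp q hq'), pr_insert (hpa _ (filter_subset _ _)), Nat.cast_mul]
  refine (mul_le_mul (mul_le_mul hp3 h8 (Nat.cast_nonneg _) (exp_pos _).le)
    (pow_le_pow_left₀ (Nat.cast_nonneg _) (hq q hq').2.2 3) (by positivity)
    (by positivity)).trans_lt ?_
  rw [← exp_nat_mul, ← exp_add, ← exp_add, exp_lt_exp]
  push_cast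
  linarith

end Vale.Agent.P013
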