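import Vale.Agent.P013.BH
import Vale.Agent.P013.HallCor

/-!
Primes `p ∈ (u, v]` with `Surv α W (Γ + M k p)`. Note `0 ≤ C` (from `PA` at `q = 1`, `X = 1`), all primes of `α` are `< W`,
and `p > u ≥ W`.
Empty cases (the right side is `≥ 0` by `hl_da_nonneg`): some prime `r < W` divides `k` and `α` (then `r ∣ Γ`, against
`gcd = 1`); some prime `r < W`, `r ∤ α`, divides `k` and `Γ` (then `α r ∣ Γ + M k p`); `2 < W` and `2 ∤ α Γ k` (then
`Γ + M k p` is even and `α` odd). Otherwise apply `bh` with `w = W`, `I = {n ∈ Ioc ⌊u⌋₊ ⌊v⌋₊ : α ∣ Γ + M k n}`, `wt = Λ`,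
`S = {r < W prime : r ∣ α ∨ r ∤ Γ k}`, `bad r n := α r ∣ Γ + M k n`, `g r = 1 / r` if `r ∣ α` and `1 / (r - 1)` otherwise,
`X = (v - u) / φ α`, `Rm = 2 C v^(1-δ)`. For `e ⊆ S` and `q = α * pr e ≤ u`: `α ∣ N` and all `α r ∣ N` iff `q ∣ N`; `M k` and
`Γ` are coprime to `q`, so `q ∣ Γ + M k n ↔ n ≡ c [MOD q]` for one `c` coprime to `q`; `φ q = φ α * ∏ r ∈ e, 1 / g r`
(`Nat.totient_mul_of_prime_of_dvd`, `Nat.totient_mul_of_prime_of_not_dvd`); subtract `PA` at `v` and `u`. Finally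
`log u ≤ Λ p` for the primes counted, `∏ r ∣ α, (1 - 1 / r) = φ α / α` (`Nat.totient_eq_mul_prod_factors`) and
`∏ r ∈ S, r ∤ α, (1 - 1 / (r - 1)) = hl ... k` (all other factors of `hl` equal `1`).
-/

namespace Vale.Agent.P013

open Finset Real

open Classical

theorem DirA_C {δ C : ℝ} (h : PA δ C) : 0 ≤ C := by
  have := (abs_nonneg _).trans (h 1 0 1 le_rfl (by simp) (by simp))
  simpa using this

theorem DirA_unit {q : ℕ} {a : ℤ} (h : ∀ r : ℕ, r.Prime → r ∣ q → ¬ (r : ℤ) ∣ a) :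
    IsUnit (a : ZMod q) := by
  rw [ZMod.coe_int_isUnit_iff_isCoprime, Int.isCoprime_iff_gcd_eq_one]
  exact Nat.coprime_of_dvd fun r hr h1 h2 => h r hr (by simpa using h1) (Int.natCast_dvd.2 h2)

theorem DirA_class {q : ℕ} (hq : 1 ≤ q) {a Γ : ℤ} (ha : IsUnit (a : ZMod q))
    (hΓ : IsUnit (Γ : ZMod q)) :
    ∃ c : ℕ, c.Coprime q ∧ ∀ n : ℕ, (q : ℤ) ∣ Γ + a * n ↔ n ≡ c [MOD q] := by
  haveI : NeZero q := ⟨by omega⟩
  obtain ⟨a', ha'⟩ := ha
  obtain ⟨Γ', hΓ'⟩ := hΓ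
  refine ⟨((-(a'⁻¹ * Γ') : (ZMod q)ˣ) : ZMod q).val, ZMod.val_coe_unit_coprime _, fun n => ?_⟩
  rw [← ZMod.intCast_zmod_eq_zero_iff_dvd, ← ZMod.natCast_eq_natCast_iff, ZMod.natCast_zmod_val]
  push_cast
  rw [← ha', ← hΓ', ← mul_neg, Units.eq_inv_mul_iff_mul_eq, add_comm, add_eq_zero_iff_eq_neg]

theorem DirA_dvd {α : ℕ} (hα : 1 ≤ α) {e : Finset ℕ} (he : ∀ r ∈ e, r.Prime) (N : ℤ) :
    ((α : ℤ) ∣ N ∧ ∀ r ∈ e, ((α * r : ℕ) : ℤ) ∣ N) ↔ ((α * pr e : ℕ) : ℤ) ∣ N := by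
  have h0 : (α : ℤ) ≠ 0 := by omega
  push_cast
  constructor
  · rintro ⟨⟨N', rfl⟩, h⟩
    refine mul_dvd_mul_left _ (Int.natCast_dvd.2 ((pr_dvd_iff he).2 fun r hr => ?_))
    exact Int.natCast_dvd.1 ((mul_dvd_mul_iff_left h0).1 (h r hr))
  · intro h
    refine ⟨(dvd_mul_right _ _).trans h, fun r hr => (mul_dvd_mul_left _ ?_).trans h⟩
    exact Int.natCast_dvd_natCast.2 (dvd_prod_of_mem _ hr)

/-- the density of the sieve -/
noncomputable def DirA_g (α r : ℕ) : ℝ := if r ∣ α then 1 / (r : ℝ) else 1 / ((r : ℝ) - 1)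

theorem DirA_tot (α : ℕ) {e : Finset ℕ} (he : ∀ r ∈ e, r.Prime) :
    ((α * pr e).totient : ℝ) * ∏ r ∈ e, DirA_g α r = α.totient := by
  induction e using Finset.induction_on with
  | empty => simp [pr]
  | insert r e hr ih =>
    have h1 : ∀ q ∈ e, q.Prime := fun q hq => he q (mem_insert_of_mem hq)
    have h2 := he r (mem_insert_self _ _)
    have h3 : (1 : ℝ) < r := by exact_mod_cast h2.one_lt
    rw [pr_insert hr, prod_insert hr, mul_left_comm α, ← ih h1, DirA_g]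
    split_ifs with h
    · rw [Nat.totient_mul_of_prime_of_dvd h2 (h.mul_right _)]
      push_cast
      field_simp
    · rw [Nat.totient_mul_of_prime_of_not_dvd h2, Nat.cast_mul, Nat.cast_sub h2.one_le]
      · have : (r : ℝ) - 1 ≠ 0 := by linarith
        push_cast
        field_simp
      · intro h4
        rcases h2.dvd_mul.1 h4 with h5 | h5
        · exact h h5
        · obtain ⟨q, hq, h6⟩ := (h2.prime.dvd_finsetProd_iff _).1 h5
          exact hr ((Nat.prime_dvd_prime_iff_eq h2 (h1 q hq)).1 h6 ▸ hq)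

open scoped ArithmeticFunction.vonMangoldt in
theorem DirA_pa {δ C : ℝ} (hδ : δ ≤ 1 / 4) (h : PA δ C) {q c : ℕ} (hq : 1 ≤ q) (hc : c.Coprime q)
    {u v : ℝ} (hu : (q : ℝ) ≤ u) (huv : u ≤ v) :
    |∑ n ∈ (Ioc ⌊u⌋₊ ⌊v⌋₊).filter (fun n => n ≡ c [MOD q]), Λ n - (v - u) / q.totient| ≤
      2 * C * v ^ (1 - δ) := by
  have h1 := h q c u hq hc hu
  have h2 := h q c v hq hc (hu.trans huv)
  have h3 : C * u ^ (1 - δ) ≤ C * v ^ (1 - δ) := mul_le_mul_of_nonneg_left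
    (rpow_le_rpow ((Nat.cast_nonneg _).trans hu) huv (by linarith)) (DirA_C h)
  have h4 := sum_Ioc_consecutive (fun n => if n ≡ c [MOD q] then Λ n else 0) (Nat.zero_le _)
    (Nat.floor_le_floor huv)
  simp only [← sum_filter] at h4
  rw [show ∀ n : ℕ, Icc 1 n = Ioc 0 n from fun _ => rfl] at h1 h2
  rw [abs_le] at h1 h2 ⊢
  rw [sub_div]
  constructor <;> linarith [h1.1, h1.2, h2.1, h2.2]

theorem DirA_prod {α W k : ℕ} {Γ : ℤ} (hα : 1 ≤ α) (hαW : α < W)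
    (h1 : ∀ r ∈ Nat.primesBelow W, r ∣ k → ¬ (r : ℤ) ∣ α * Γ) :
    ∏ r ∈ (Nat.primesBelow W).filter (fun r : ℕ => r ∣ α ∨ ¬ (r : ℤ) ∣ Γ * k), (1 - DirA_g α r) =
      α.totient / α * hl (da (α * Γ)) (db (α * Γ)) (Nat.primesBelow W) k := by
  have h2 : (α.totient : ℝ) / α = ∏ r ∈ Nat.primesBelow W, if r ∣ α then 1 - 1 / (r : ℝ) else 1 := by
    have e : (Nat.primesBelow W).filter (· ∣ α) = α.primeFactors := by
      ext r
      rw [mem_filter, Nat.mem_primesBelow, Nat.mem_primeFactors]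
      exact ⟨fun h => ⟨h.1.2, h.2, by omega⟩,
        fun h => ⟨⟨(Nat.le_of_dvd hα h.2.1).trans_lt hαW, h.1⟩, h.2.1⟩⟩
    have h3 := congrArg (Rat.cast : ℚ → ℝ) (Nat.totient_eq_mul_prod_factors α)
    push_cast at h3
    have h4 : (α : ℝ) ≠ 0 := by positivity
    rw [← prod_filter, e, h3, mul_div_cancel_left₀ _ h4]
    simp only [one_div]
  rw [h2, hl, ← prod_mul_distrib, prod_filter]
  refine prod_congr rfl fun r hr => ?_
  have hp := Nat.prime_iff_prime_int.1 (Nat.prime_of_mem_primesBelow hr)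
  have h3 := h1 r hr
  simp only [DirA_g, da, db, hp.dvd_mul, Int.natCast_dvd_natCast] at h3 ⊢
  by_cases a : r ∣ α <;> by_cases b : r ∣ k <;> by_cases c : (r : ℤ) ∣ Γ <;> simp_all

theorem DirA_empty {α W k : ℕ} {Γ M : ℤ} (hα : 1 ≤ α) (hαW : α < W) (hg : Int.gcd α Γ = 1)
    (hM : ∀ r ∈ Nat.primesBelow W, ¬ (r : ℤ) ∣ M) {p : ℕ} (hp : p.Prime) (hW : W ≤ p)
    (h : Surv α W (Γ + M * k * p)) : (∀ r ∈ Nat.primesBelow W, r ∣ k → ¬ (r : ℤ) ∣ α * Γ) ∧
      (2 ∈ Nat.primesBelow W → 2 ∣ α ∨ (2 : ℤ) ∣ Γ * k) := by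
  have h1 : ∀ r ∈ Nat.primesBelow W, (r : ℤ) ∣ Γ + M * k * p → r ∣ α := by
    intro r hr h2
    by_contra h3
    refine h.2 r hr ?_
    push_cast
    exact (Nat.isCoprime_iff_coprime.2 ((Nat.prime_of_mem_primesBelow hr).coprime_iff_not_dvd.2
      h3).symm).mul_dvd h.1 h2
  refine ⟨fun r hr hk h2 => ?_, fun h2 => ?_⟩
  · have hr' := Nat.prime_of_mem_primesBelow hr
    have h3 : (r : ℤ) ∣ M * k * p := ((Int.natCast_dvd_natCast.2 hk).mul_left M).mul_right _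
    have h4 : r ∣ α := by
      rcases (Nat.prime_iff_prime_int.1 hr').dvd_mul.1 h2 with h4 | h4
      · exact Int.natCast_dvd_natCast.1 h4
      · exact h1 r hr (dvd_add h4 h3)
    have h5 : (r : ℤ) ∣ α := Int.natCast_dvd_natCast.2 h4
    have h6 : (r : ℤ) ∣ Γ := (dvd_add_left h3).1 (h5.trans h.1)
    have h7 := Int.dvd_gcd h5 h6
    rw [hg] at h7
    exact hr'.one_lt.ne' (Nat.dvd_one.1 h7)
  · by_contra h3
    rw [not_or, Int.prime_two.dvd_mul, not_or] at h3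
    refine h3.1 (h1 2 h2 (even_iff_two_dvd.1 ?_))
    have o : ∀ x : ℤ, ¬ 2 ∣ x → Odd x := fun x hx =>
      Int.not_even_iff_odd.1 fun h => hx (even_iff_two_dvd.1 h)
    have h4 : Odd (p : ℤ) := by
      have := (Nat.mem_primesBelow.1 h2).1
      exact (Int.odd_coe_nat p).2 (hp.odd_of_ne_two (by omega))
    exact (o _ h3.2.1).add_odd (((o _ (hM 2 h2)).mul (o _ h3.2.2)).mul h4)

theorem dirA {δ C : ℝ} (hδ : δ ≤ 1 / 4) (h : PA δ C) {ε : ℝ} (hε : 0 < ε) :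
    ∃ s₀ : ℝ, 0 < s₀ ∧ ∀ (α W k : ℕ) (Γ M : ℤ) (u v : ℝ), 2 ≤ W → 1 ≤ α → α < W → 1 ≤ k →
      Int.gcd α Γ = 1 → (∀ r ∈ Nat.primesBelow W, ¬ (r : ℤ) ∣ M) → (W : ℝ) ≤ u → u ≤ v →
      (α : ℝ) * (W : ℝ) ^ s₀ ≤ u →
      (((PR u v).filter fun p : ℕ => Surv α W (Γ + M * k * p)).card : ℝ) * log u ≤
        (1 + ε) * (v - u) / α * hl (da (α * Γ)) (db (α * Γ)) (Nat.primesBelow W) k +
          (W : ℝ) ^ s₀ * (2 * C * v ^ (1 - δ)) := by
  obtain ⟨s₀, hs₀, hb⟩ := bh hε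
  have hC := DirA_C h
  refine ⟨s₀, hs₀, fun α W k Γ M u v hW hα hαW hk hg hM hu huv hαu => ?_⟩
  have hW' : (2 : ℝ) ≤ W := by exact_mod_cast hW
  have hu0 : 0 < u := by linarith
  have hv0 : 0 < v := by linarith
  have hα0 : (0 : ℝ) < α := by exact_mod_cast hα
  have hvu : 0 ≤ v - u := by linarith
  rcases ((PR u v).filter fun p : ℕ => Surv α W (Γ + M * k * p)).eq_empty_or_nonempty with
    h0 | ⟨p₀, h0⟩
  · have := hl_da_nonneg (α * Γ) W k
    rw [h0, card_empty, Nat.cast_zero, zero_mul]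
    positivity
  obtain ⟨H1, H2⟩ : (∀ r ∈ Nat.primesBelow W, r ∣ k → ¬ (r : ℤ) ∣ α * Γ) ∧
      (2 ∈ Nat.primesBelow W → 2 ∣ α ∨ (2 : ℤ) ∣ Γ * k) := by
    obtain ⟨b1, b2⟩ := mem_filter.1 h0
    obtain ⟨b3, b4, -⟩ := (mem_PR hu0.le hv0.le).1 b1
    exact DirA_empty hα hαW hg hM b3 (by exact_mod_cast hu.trans b4.le) b2
  have hφ : (0 : ℝ) < α.totient := by exact_mod_cast Nat.totient_pos.2 hα
  have key := hb ((Ioc ⌊u⌋₊ ⌊v⌋₊).filter fun n : ℕ => (α : ℤ) ∣ Γ + M * k * n)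
    ((Nat.primesBelow W).filter fun r : ℕ => r ∣ α ∨ ¬ (r : ℤ) ∣ Γ * k)
    ArithmeticFunction.vonMangoldt (DirA_g α) (fun r n => ((α * r : ℕ) : ℤ) ∣ Γ + M * k * n) W
    ((v - u) / α.totient) (2 * C * v ^ (1 - δ)) hW' (by positivity)
    (fun n _ => ArithmeticFunction.vonMangoldt_nonneg) (fun r hr => ?_) (fun e he hpe => ?_)
  · rw [DirA_prod hα hαW H1] at key
    refine le_trans ?_ (key.trans_eq ?_)
    · rw [← nsmul_eq_mul, ← sum_const]
      refine (sum_le_sum (g := fun p => ArithmeticFunction.vonMangoldt p) fun p hp => ?_).trans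
        (sum_le_sum_of_subset_of_nonneg (fun p hp => ?_)
          fun n _ _ => ArithmeticFunction.vonMangoldt_nonneg)
      · obtain ⟨b3, b4, -⟩ := (mem_PR hu0.le hv0.le).1 (mem_filter.1 hp).1
        rw [ArithmeticFunction.vonMangoldt_apply_prime b3]
        exact log_le_log hu0 b4.le
      · obtain ⟨b1, b2, b3⟩ := mem_filter.1 hp
        simp only [mem_filter]
        exact ⟨⟨(mem_filter.1 b1).1, b2⟩, fun r hr => b3 r hr.1⟩
    · field_simp
  · obtain ⟨b1, b2⟩ := mem_filter.1 hr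
    obtain ⟨b3, b4⟩ := Nat.mem_primesBelow.1 b1
    have b5 : (2 : ℝ) ≤ r := by exact_mod_cast b4.two_le
    refine ⟨b4, by exact_mod_cast b3.le, ?_⟩
    rw [DirA_g]
    split_ifs with b6
    · exact ⟨by positivity, one_div_le_one_div_of_le two_pos b5,
        div_le_div_of_nonneg_right one_le_two (by linarith)⟩
    · have b7 : r ≠ 2 := by
        rintro rfl
        exact (H2 b1).elim b6 (b2.resolve_left b6)
      have b8 : (3 : ℝ) ≤ r := by
        have := b4.two_le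
        exact_mod_cast (by omega : 3 ≤ r)
      refine ⟨div_nonneg zero_le_one (by linarith), one_div_le_one_div_of_le two_pos (by linarith),
        ?_⟩
      rw [div_le_div_iff₀ (by linarith) (by linarith)]
      linarith
  · have he' : ∀ r ∈ e, r.Prime := fun r hr =>
      Nat.prime_of_mem_primesBelow (mem_filter.1 (he hr)).1
    have hq : 1 ≤ α * pr e := Nat.mul_pos hα (pr_pos he')
    have b1 : ∀ r : ℕ, r.Prime → r ∣ α * pr e → ¬ (r : ℤ) ∣ M ∧ ¬ (r : ℤ) ∣ Γ * k := by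
      intro r hr h1
      have hp := Nat.prime_iff_prime_int.1 hr
      have c1 : r ∣ α → ¬ (r : ℤ) ∣ M ∧ ¬ (r : ℤ) ∣ Γ * k := by
        intro h2
        have c2 := Nat.mem_primesBelow.2 ⟨(Nat.le_of_dvd hα h2).trans_lt hαW, hr⟩
        have c3 : (r : ℤ) ∣ α := Int.natCast_dvd_natCast.2 h2
        refine ⟨hM r c2, fun h3 => ?_⟩
        rcases hp.dvd_mul.1 h3 with h4 | h4
        · have h7 := Int.dvd_gcd c3 h4
          rw [hg] at h7
          exact hr.one_lt.ne' (Nat.dvd_one.1 h7)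
        · exact H1 r c2 (Int.natCast_dvd_natCast.1 h4) (c3.mul_right _)
      rcases hr.dvd_mul.1 h1 with h2 | h2
      · exact c1 h2
      · obtain ⟨q, hq, h6⟩ := (hr.prime.dvd_finsetProd_iff _).1 h2
        obtain rfl := (Nat.prime_dvd_prime_iff_eq hr (he' q hq)).1 h6
        obtain ⟨c2, c3⟩ := mem_filter.1 (he hq)
        exact c3.elim c1 fun c4 => ⟨hM r c2, c4⟩
    obtain ⟨c, hc, hc'⟩ := DirA_class hq (a := M * k) (Γ := Γ)
      (DirA_unit fun r hr h1 h2 => ((Nat.prime_iff_prime_int.1 hr).dvd_mul.1 h2).elim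
        (b1 r hr h1).1 fun h3 => (b1 r hr h1).2 (h3.mul_left _))
      (DirA_unit fun r hr h1 h2 => (b1 r hr h1).2 (h2.mul_right _))
    have b2 := DirA_pa hδ h hq hc (u := u) (by
      push_cast
      exact (mul_le_mul_of_nonneg_left hpe hα0.le).trans hαu) huv
    have b3 : (0 : ℝ) < (α * pr e).totient := by exact_mod_cast Nat.totient_pos.2 hq
    have b4 : (v - u) / α.totient * ∏ r ∈ e, DirA_g α r = (v - u) / (α * pr e).totient := by
      rw [div_mul_eq_mul_div, div_eq_div_iff hφ.ne' b3.ne', ← DirA_tot α he']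
      ring
    rw [b4]
    refine le_of_eq_of_le ?_ b2
    congr 2
    refine sum_congr ?_ fun _ _ => rfl
    ext n
    simp only [mem_filter, and_assoc]
    exact and_congr_right fun _ => (DirA_dvd hα he' _).trans (hc' n)

end Vale.Agent.P013
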