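import Vale.Agent.P013.DirA

/-!
Sum `dirA` over `k`. `K₁ = N₁ / (A P') ≥ W`, `K₂ = N₂ / (A P)`. A pair `(k, p)` has `K₁ < k ≤ K₂` and `p ∈ PR u v` with
`u = max P (N₁ / (A k))`, `v = min P' (N₂ / (A k))`. If `v < u` the fibre is empty; otherwise `dirA` with `M = ς A`,
`log P ≤ log u`, `v - u ≤ (N₂ - N₁) / (A k)`, `v ≤ P'`. Then `∑ k ∈ Ioc ⌊K₁⌋₊ ⌊K₂⌋₊, h k / k ≤ (1 + ε) / log W * (1 + log (K₂ / K₁))`
by `log_sum` and `hall_w`, and there are at most `K₂` values of `k`.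
-/

namespace Vale.Agent.P013

open Finset Real

open Classical

theorem dirB {δ C : ℝ} (hδ : δ ≤ 1 / 4) (h : PA δ C) {ε : ℝ} (hε : 0 < ε) :
    ∃ s₀ W₀ : ℝ, 0 < s₀ ∧ ∀ (α W A : ℕ) (Γ ς : ℤ) (P P' N₁ N₂ : ℝ), W₀ ≤ W → 1 ≤ α → α < W →
      Int.gcd α Γ = 1 → 1 ≤ A → (∀ r ∈ Nat.primesBelow W, ¬ r ∣ A) → (ς = 1 ∨ ς = -1) →
      (W : ℝ) ≤ P → P ≤ P' → (α : ℝ) * (W : ℝ) ^ s₀ ≤ P → W * (A * P') ≤ N₁ → N₁ ≤ N₂ →
      (((Icc 1 ⌊N₂⌋₊ ×ˢ PR P P').filter fun kp : ℕ × ℕ =>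
          N₁ < (A : ℝ) * kp.1 * kp.2 ∧ (A : ℝ) * kp.1 * kp.2 ≤ N₂ ∧
          Surv α W (Γ + ς * A * kp.1 * kp.2)).card : ℝ) * log P ≤
        (1 + ε) ^ 2 * (N₂ - N₁) / (α * A * log W) * (1 + log (N₂ * P' / (N₁ * P))) +
          N₂ / (A * P) * ((W : ℝ) ^ s₀ * (2 * C * P' ^ (1 - δ))) := by
  obtain ⟨s₀, hs₀, hA⟩ := dirA hδ h hε
  obtain ⟨W₀, hH⟩ := hall_w hε
  have hC := DirA_C h
  refine ⟨s₀, max W₀ 2, hs₀, ?_⟩
  intro α W A Γ ς P P' N₁ N₂ hW hα hαW hg hA1 hAr hς hP hPP hαP hN₁ hN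
  have hW2 : (2 : ℝ) ≤ W := (le_max_right _ _).trans hW
  have hP0 : 0 < P := by linarith
  have hP0' : 0 < P' := by linarith
  have hA0 : (0 : ℝ) < A := by exact_mod_cast hA1
  have hα0 : (0 : ℝ) < α := by exact_mod_cast hα
  have hN0 : 0 < N₁ := lt_of_lt_of_le (by positivity) hN₁
  have hN0' : 0 < N₂ := by linarith
  have hlW : 0 < log W := log_pos (by linarith)
  have hlP : 0 ≤ log P := log_nonneg (by linarith)
  set K₁ := N₁ / (A * P') with hK₁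
  set K₂ := N₂ / (A * P) with hK₂
  have hK1 : (W : ℝ) ≤ K₁ := (le_div_iff₀ (by positivity)).2 hN₁
  have hK0 : 0 < K₁ := by positivity
  have hK12 : K₁ ≤ K₂ := by
    rw [hK₁, hK₂]
    gcongr
  set F : ℕ → ℕ := fun k => ((PR P P').filter fun p : ℕ => N₁ < (A : ℝ) * k * p ∧
    (A : ℝ) * k * p ≤ N₂ ∧ Surv α W (Γ + ς * A * k * p)).card with hF
  set hh := hl (da (α * Γ)) (db (α * Γ)) (Nat.primesBelow W) with hhh
  have hh0 : ∀ k, 0 ≤ hh k := fun k => hl_da_nonneg _ _ _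
  have a1 : ((Icc 1 ⌊N₂⌋₊ ×ˢ PR P P').filter fun kp : ℕ × ℕ =>
      N₁ < (A : ℝ) * kp.1 * kp.2 ∧ (A : ℝ) * kp.1 * kp.2 ≤ N₂ ∧
      Surv α W (Γ + ς * A * kp.1 * kp.2)).card ≤ ∑ k ∈ Ioc ⌊K₁⌋₊ ⌊K₂⌋₊, F k := by
    rw [card_filter, sum_product]
    simp only [← card_filter]
    refine sum_le_sum_of_ne_zero (f := F) fun k _ hk => ?_
    obtain ⟨p, hp⟩ := card_ne_zero.1 hk
    obtain ⟨b1, b2, b3, -⟩ := mem_filter.1 hp
    obtain ⟨-, b4, b5⟩ := (mem_PR hP0.le hP0'.le).1 b1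
    have b6 : (0 : ℝ) ≤ A * k := by positivity
    refine mem_Ioc.2 ⟨(Nat.floor_lt hK0.le).2 ?_, Nat.le_floor ?_⟩
    · rw [hK₁, div_lt_iff₀ (by positivity)]
      nlinarith [mul_le_mul_of_nonneg_left b5 b6]
    · rw [hK₂, le_div_iff₀ (by positivity)]
      nlinarith [mul_le_mul_of_nonneg_left b4.le b6]
  have a2 : ∀ k ∈ Ioc ⌊K₁⌋₊ ⌊K₂⌋₊, (F k : ℝ) * log P ≤
      (1 + ε) * (N₂ - N₁) / (α * A) * (hh k / k) + (W : ℝ) ^ s₀ * (2 * C * P' ^ (1 - δ)) := by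
    intro k hk
    have hk1 : 1 ≤ k := by
      have := (mem_Ioc.1 hk).1
      omega
    have hk0 : (0 : ℝ) < k := by exact_mod_cast hk1
    have hN' : 0 ≤ N₂ - N₁ := by linarith
    have hk2 := hh0 k
    set u := max P (N₁ / (A * k)) with hu
    set v := min P' (N₂ / (A * k)) with hv
    have hPu : P ≤ u := le_max_left _ _
    have hv0 : 0 ≤ v := le_min hP0'.le (by positivity)
    have b1 : ((PR P P').filter fun p : ℕ => N₁ < (A : ℝ) * k * p ∧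
        (A : ℝ) * k * p ≤ N₂ ∧ Surv α W (Γ + ς * A * k * p)) ⊆
        (PR u v).filter fun p : ℕ => Surv α W (Γ + ς * A * k * p) := by
      intro p hp
      obtain ⟨c1, c2, c3, c4⟩ := mem_filter.1 hp
      obtain ⟨c5, c6, c7⟩ := (mem_PR hP0.le hP0'.le).1 c1
      refine mem_filter.2 ⟨(mem_PR (by linarith) hv0).2 ⟨c5, max_lt c6 ?_, le_min c7 ?_⟩, c4⟩
      · rw [div_lt_iff₀ (by positivity)]
        linarith
      · rw [le_div_iff₀ (by positivity)]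
        linarith
    rcases le_total u v with huv | huv
    · have b2 := hA α W k Γ (ς * A) u v (by exact_mod_cast hW2) hα hαW hk1 hg (fun r hr hd => by
        refine hAr r hr (Int.natCast_dvd_natCast.1 ?_)
        rcases hς with rfl | rfl
        · simpa using hd
        · simpa using hd) (hP.trans hPu) huv (hαP.trans hPu)
      have b3 : (F k : ℝ) ≤ ((PR u v).filter fun p : ℕ => Surv α W (Γ + ς * A * k * p)).card :=
        Nat.cast_le.2 (card_le_card b1)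
      refine (mul_le_mul b3 (log_le_log hP0 hPu) hlP (Nat.cast_nonneg _)).trans
        (b2.trans (add_le_add ?_ ?_))
      · have b4 : v - u ≤ (N₂ - N₁) / (A * k) := by
          rw [sub_div]
          exact sub_le_sub (min_le_right _ _) (le_max_right _ _)
        calc _ ≤ (1 + ε) * ((N₂ - N₁) / (A * k)) / α * hh k := by gcongr
          _ = _ := by field_simp
      · have b4 : v ^ (1 - δ) ≤ P' ^ (1 - δ) := rpow_le_rpow hv0 (min_le_left _ _) (by linarith)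
        gcongr
    · have b2 : PR u v = ∅ := by
        rw [PR, Ioc_eq_empty_of_le (Nat.floor_le_floor huv), filter_empty]
      rw [b2, filter_empty, subset_empty] at b1
      have b3 : F k = 0 := card_eq_zero.2 b1
      rw [b3, Nat.cast_zero, zero_mul]
      positivity
  have a3 := log_sum hh0 (c := (1 + ε) / log W) hK0 hK12 fun u hu _ => by
    rw [div_mul_eq_mul_div]
    exact hH W ((le_max_left _ _).trans hW) _ u (hK1.trans hu)
  have a4 : ((Ioc ⌊K₁⌋₊ ⌊K₂⌋₊).card : ℝ) ≤ K₂ := by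
    refine le_trans ?_ (Nat.floor_le (by linarith))
    rw [Nat.card_Ioc]
    exact_mod_cast Nat.sub_le _ _
  have a5 : K₂ / K₁ = N₂ * P' / (N₁ * P) := by
    rw [hK₁, hK₂]
    field_simp
  have a6 := sum_le_sum a2
  rw [← sum_mul, sum_add_distrib, ← mul_sum, sum_const, nsmul_eq_mul] at a6
  refine le_trans (mul_le_mul_of_nonneg_right (by exact_mod_cast a1) hlP)
    (a6.trans (add_le_add ?_ (mul_le_mul_of_nonneg_right a4 (by positivity))))
  have hN' : 0 ≤ N₂ - N₁ := by linarith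
  refine (mul_le_mul_of_nonneg_left a3 (by positivity)).trans_eq ?_
  rw [a5]
  field_simp

end Vale.Agent.P013
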