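import Vale.Agent.P013.MertAux

/-!
`euler_le`: a logarithmic sum of the strongly multiplicative weight `hl` is at most its Euler product.
Proof. Extend `a, b` by `a p = b p = 1` on the primes `p ≤ N` outside `S` (factor
`1 + 1 / (p - 1) = (1 - 1 / p)⁻¹`), so assume `T ⊇ primes ≤ N`. Prove by induction on a finite set `T` of primes, for
every `N`: `∑ m ∈ Icc 1 N with m.primeFactors ⊆ T, hl a b T m / m ≤ ∏ p ∈ T, (b p + a p / (p - 1))`.
Step `insert p T`: write `m = p ^ j * m'` with `p ∤ m'` (`j = m.factorization p`, `m' = ordCompl[p] m`),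
`hl a b (insert p T) m = (if j = 0 then b p else a p) * hl a b T m'`; the map `m ↦ (j, m')` is injective into
`range (N + 1) ×ˢ (...)`, and `∑ j ∈ Icc 1 N, p⁻¹ ^ j ≤ 1 / (p - 1)`.

`log_sum`: Abel summation. For `K₁ < k ≤ K₂`, `1 / k = 1 / K₂ + ∫ u in k..K₂, 1 / u ^ 2`; or use
`sum_mul_eq_sub_sub_integral_mul`. An integral-free route: induction with the discrete identity
`1 / k = 1 / M + ∑ j ∈ Ico k M, 1 / (j (j + 1))`, `M = ⌊K₂⌋₊`, would lose in the first term, so the integral
form is recommended.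
-/

namespace Vale.Agent.P013

open Finset Real

theorem hl_nonneg {a b : ℕ → ℝ} {S : Finset ℕ} (h : ∀ p ∈ S, 0 ≤ a p ∧ 0 ≤ b p) (k : ℕ) :
    0 ≤ hl a b S k := by
  refine prod_nonneg fun p hp => ?_
  split_ifs
  · exact (h p hp).1
  · exact (h p hp).2

theorem euler_local {a b : ℝ} (ha : 0 ≤ a) (hb : 0 ≤ b) {p : ℕ} (hp : p.Prime) (J : Finset ℕ) :
    ∑ j ∈ J, (if j = 0 then b else a) / (p : ℝ) ^ j ≤ b + a / ((p : ℝ) - 1) := by
  have h1 : (1 : ℝ) < p := by exact_mod_cast hp.one_lt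
  have h2 : HasSum (fun j : ℕ => (if j = 0 then b else a) / (p : ℝ) ^ j)
      (b + a / ((p : ℝ) - 1)) := by
    rw [← hasSum_nat_add_iff' 1]
    have h3 := (hasSum_geometric_of_lt_one (r := (p : ℝ)⁻¹) (by positivity)
      (inv_lt_one_of_one_lt₀ h1)).mul_left (a / p)
    have h4 : (p : ℝ) - 1 ≠ 0 := by linarith
    convert h3 using 1
    · rfl
    · funext j
      simp only [Nat.add_eq_zero_iff, one_ne_zero, and_false, if_false, inv_pow, pow_succ]
      field_simp
    · simp only [range_one, sum_singleton, if_true, pow_zero, div_one, add_sub_cancel_left]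
      field_simp
  refine sum_le_hasSum J (fun j _ => div_nonneg ?_ (by positivity)) h2
  split_ifs
  · exact hb
  · exact ha

theorem euler_core (a b : ℕ → ℝ) (T : Finset ℕ) (h : ∀ p ∈ T, p.Prime ∧ 0 ≤ a p ∧ 0 ≤ b p)
    (M : Finset ℕ) (hM : ∀ m ∈ M, m ≠ 0 ∧ m.primeFactors ⊆ T) :
    ∑ m ∈ M, hl a b T m / m ≤ ∏ p ∈ T, (b p + a p / ((p : ℝ) - 1)) := by
  induction T using Finset.induction_on generalizing M with
  | empty =>
    have h1 : M ⊆ {1} := fun m hm => by
      have := Nat.primeFactors_eq_empty.1 (subset_empty.1 (hM m hm).2)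
      exact mem_singleton.2 (this.resolve_left (hM m hm).1)
    refine (sum_le_sum_of_subset_of_nonneg h1 fun m _ _ => by simp [hl]).trans ?_
    simp [hl]
  | insert p T hpT ih =>
    obtain ⟨hp, ha, hb⟩ := h p (mem_insert_self _ _)
    have hT : ∀ q ∈ T, q.Prime ∧ 0 ≤ a q ∧ 0 ≤ b q := fun q hq => h q (mem_insert_of_mem hq)
    let w : ℕ → ℝ := fun j => (if j = 0 then b p else a p) / (p : ℝ) ^ j
    let G : ℕ → ℝ := fun m => hl a b T m / m
    let e : ℕ → ℕ × ℕ := fun m => (m.factorization p, ordCompl[p] m)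
    have hw : ∀ j, 0 ≤ w j := fun j => div_nonneg (by split_ifs <;> assumption) (by positivity)
    have hG : ∀ m, 0 ≤ G m := fun m =>
      div_nonneg (hl_nonneg (fun q hq => (hT q hq).2) m) (Nat.cast_nonneg m)
    have he : Set.InjOn e M := fun m _ m' _ hmm => by
      have h1 : m.factorization p = m'.factorization p := congrArg Prod.fst hmm
      have h2 : ordCompl[p] m = ordCompl[p] m' := congrArg Prod.snd hmm
      rw [← Nat.ordProj_mul_ordCompl_eq_self m p, ← Nat.ordProj_mul_ordCompl_eq_self m' p, h2, h1]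
    have e1 : ∀ m ∈ M, hl a b (insert p T) m / m = w (e m).1 * G (e m).2 := by
      intro m hm
      have h0 := (hM m hm).1
      have h1 : hl a b T m = hl a b T (ordCompl[p] m) := by
        refine prod_congr rfl fun q hq => if_congr ?_ rfl rfl
        conv_lhs => rw [← Nat.ordProj_mul_ordCompl_eq_self m p]
        exact Nat.Coprime.dvd_mul_left (Nat.Coprime.pow_right _
          ((Nat.coprime_primes (hT q hq).1 hp).2 fun hqp => hpT (hqp ▸ hq)))
      have h2 : (if p ∣ m then a p else b p) = if m.factorization p = 0 then b p else a p := by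
        rw [← ite_not]
        refine if_congr ?_ rfl rfl
        rw [hp.dvd_iff_one_le_factorization h0]
        omega
      have h3 : (m : ℝ) = (p : ℝ) ^ m.factorization p * (ordCompl[p] m : ℕ) := by
        exact_mod_cast (Nat.ordProj_mul_ordCompl_eq_self m p).symm
      have h4 : hl a b (insert p T) m = (if p ∣ m then a p else b p) * hl a b T m :=
        prod_insert hpT
      simp only [w, G, e]
      rw [h4, h1, h2, div_mul_div_comm, ← h3]
    have h5 := ih hT (M.image fun m => ordCompl[p] m) fun m' hm' => by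
      obtain ⟨m, hm, rfl⟩ := mem_image.1 hm'
      refine ⟨(Nat.ordCompl_pos p (hM m hm).1).ne', fun q hq => ?_⟩
      have h1 := (hM m hm).2 (Nat.primeFactors_mono (Nat.ordCompl_dvd m p) (hM m hm).1 hq)
      refine (mem_insert.1 h1).resolve_left fun hqp => ?_
      have h2 := Nat.dvd_of_mem_primeFactors hq
      rw [hqp] at h2
      exact Nat.not_dvd_ordCompl hp (hM m hm).1 h2
    calc ∑ m ∈ M, hl a b (insert p T) m / m = ∑ q ∈ M.image e, w q.1 * G q.2 := by
          rw [sum_image he]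
          exact sum_congr rfl e1
      _ ≤ ∑ q ∈ (M.image fun m => m.factorization p) ×ˢ (M.image fun m => ordCompl[p] m),
            w q.1 * G q.2 := by
          refine sum_le_sum_of_subset_of_nonneg (fun q hq => ?_) fun q _ _ =>
            mul_nonneg (hw _) (hG _)
          obtain ⟨m, hm, rfl⟩ := mem_image.1 hq
          exact mem_product.2 ⟨mem_image_of_mem _ hm, mem_image_of_mem _ hm⟩
      _ = (∑ j ∈ M.image fun m => m.factorization p, w j) *
            ∑ m ∈ M.image fun m => ordCompl[p] m, G m := by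
          rw [sum_product, sum_mul_sum]
      _ ≤ _ := by
          rw [prod_insert hpT]
          have h6 := euler_local ha hb hp (M.image fun m => m.factorization p)
          exact mul_le_mul h6 h5 (sum_nonneg fun m _ => hG m)
            ((sum_nonneg fun j _ => hw j).trans h6)

theorem euler_le {a b : ℕ → ℝ} {S : Finset ℕ} (h : ∀ p ∈ S, p.Prime ∧ 0 ≤ a p ∧ 0 ≤ b p)
    {t : ℝ} (ht : 0 ≤ t) :
    ∑ m ∈ Icc 1 ⌊t⌋₊, hl a b S m / m ≤
      (∏ p ∈ S, (b p + a p / ((p : ℝ) - 1))) * ∏ p ∈ PR 1 t \ S, (1 - 1 / (p : ℝ))⁻¹ := by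
  let a' : ℕ → ℝ := fun p => if p ∈ S then a p else 1
  let b' : ℕ → ℝ := fun p => if p ∈ S then b p else 1
  have hd : Disjoint S (PR 1 t \ S) := disjoint_sdiff
  have key := euler_core a' b' (S ∪ (PR 1 t \ S)) (fun p hp => by
    by_cases hS : p ∈ S
    · simpa only [a', b', if_pos hS] using h p hS
    · simp only [a', b', if_neg hS]
      exact ⟨prime_of_mem_PR (mem_sdiff.1 ((mem_union.1 hp).resolve_left hS)).1, zero_le_one,
        zero_le_one⟩) (Icc 1 ⌊t⌋₊) (fun m hm => by
    obtain ⟨h1, h2⟩ := mem_Icc.1 hm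
    refine ⟨by omega, fun p hp => ?_⟩
    rw [union_sdiff_self_eq_union]
    have hp' := Nat.prime_of_mem_primeFactors hp
    refine mem_union_right _ (mem_filter.2 ⟨mem_Ioc.2 ⟨?_, ?_⟩, hp'⟩)
    · rw [Nat.floor_one]
      exact hp'.one_lt
    · exact (Nat.le_of_mem_primeFactors hp).trans h2)
  have e1 : ∀ m, hl a' b' (S ∪ (PR 1 t \ S)) m = hl a b S m := by
    intro m
    unfold hl
    rw [prod_union hd, prod_eq_one (s := PR 1 t \ S) fun p hp => by
      simp only [a', b', if_neg (mem_sdiff.1 hp).2, ite_self], mul_one]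
    exact prod_congr rfl fun p hp => by simp only [a', b', if_pos hp]
  simp only [e1] at key
  refine key.trans (le_of_eq ?_)
  rw [prod_union hd]
  congr 1
  · exact prod_congr rfl fun p hp => by simp only [a', b', if_pos hp]
  · refine prod_congr rfl fun p hp => ?_
    simp only [a', b', if_neg (mem_sdiff.1 hp).2]
    have h1 : (1 : ℝ) < p := by exact_mod_cast (prime_of_mem_PR (mem_sdiff.1 hp).1).one_lt
    have h2 : (p : ℝ) - 1 ≠ 0 := by linarith
    field_simp
    ring

/-- integers with a prescribed set of prime factors -/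
theorem sum_inv_le_fw {d : Finset ℕ} (hd : ∀ p ∈ d, p.Prime) (N : ℕ) :
    ∑ m ∈ (Icc 1 N).filter (fun m => m.primeFactors = d), 1 / (m : ℝ) ≤ fw d := by
  have key := euler_core (fun _ => 1) (fun _ => 0) d (fun p hp => ⟨hd p hp, zero_le_one, le_rfl⟩)
    ((Icc 1 N).filter fun m => m.primeFactors = d) fun m hm => by
      obtain ⟨h1, h2⟩ := mem_filter.1 hm
      exact ⟨by have := (mem_Icc.1 h1).1; omega, h2.le⟩
  simp only [zero_add] at key
  refine le_trans (le_of_eq (sum_congr rfl fun m hm => ?_)) key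
  rw [hl, prod_eq_one fun p hp =>
    if_pos (Nat.dvd_of_mem_primeFactors ((mem_filter.1 hm).2.symm ▸ hp))]

theorem log_sum {h : ℕ → ℝ} (h0 : ∀ k, 0 ≤ h k) {c K₁ K₂ : ℝ} (hK : 0 < K₁) (hK' : K₁ ≤ K₂)
    (hH : ∀ u : ℝ, K₁ ≤ u → u ≤ K₂ → ∑ k ∈ Icc 1 ⌊u⌋₊, h k ≤ c * u) :
    ∑ k ∈ Ioc ⌊K₁⌋₊ ⌊K₂⌋₊, h k / k ≤ c * (1 + log (K₂ / K₁)) := by
  have hK2 : 0 < K₂ := hK.trans_le hK'
  have hne : ∀ t ∈ Set.Icc K₁ K₂, t ≠ 0 := fun t ht => (hK.trans_le ht.1).ne'
  have key := mertAux_abel (Ioc ⌊K₁⌋₊ ⌊K₂⌋₊) h (fun k => (k : ℝ)) hK' (fun k _ => h0 k)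
    (fun k hk => ⟨((Nat.floor_lt hK.le).1 (mem_Ioc.1 hk).1).le,
      (Nat.le_floor_iff hK2.le).1 (mem_Ioc.1 hk).2⟩)
    (φ := fun t => t⁻¹) (ψ := fun t => (t ^ 2)⁻¹) (B := fun t => c * t) (G := fun t => c * log t)
    (fun t ht => hasDerivAt_inv (hne t ht))
    ((continuousOn_id.pow 2).inv₀ fun t ht => pow_ne_zero 2 (hne t ht))
    (fun t _ => by positivity) (by positivity)
    (fun t ht => by
      refine le_trans (sum_le_sum_of_subset_of_nonneg (fun k hk => ?_) fun k _ _ => h0 k)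
        (hH t ht.1 ht.2)
      obtain ⟨h1, h2⟩ := mem_filter.1 hk
      exact mem_Icc.2 ⟨by have := (mem_Ioc.1 h1).1; omega, Nat.le_floor h2⟩)
    (by fun_prop)
    (fun t ht => by
      have := hne t ht
      refine ((hasDerivAt_log this).const_mul c).congr_deriv ?_
      field_simp)
  simp only [← div_eq_mul_inv] at key
  refine key.trans (le_of_eq ?_)
  rw [log_div hK2.ne' hK.ne']
  field_simp

end Vale.Agent.P013
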