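import Vale.Agent.P013.Basic

/-!
Sampling. Let `𝒮 = piFinset (fun i => powersetCard s (B i))`. Each `τ ∈ piFinset B` lies in `piFinset S` for exactly
`∏ i, choose (|B i| - 1) (s - 1)` tuples `S ∈ 𝒮`, and `|𝒮| = ∏ choose |B i| s`, with
`choose (n - 1) (s - 1) * n = choose n s * s` (`Nat.succ_mul_choose_eq`, `Nat.add_one_mul_choose_eq`). So
`∑ S ∈ 𝒮, F m S = |𝒮| s^j / NN B * ∑ τ ∈ piFinset B, f m τ`, where `F m S = ∑ τ ∈ piFinset S, f m τ`, `|F m S| ≤ b s^j`.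
Hence `∑ S, |F m S| ≥ (3/4) κ b s^j |𝒮|`, and at least `(κ / 4) |𝒮|` tuples `S` have `|F m S| ≥ (κ / 2) b s^j`. Exchange the order of
counting and use `Finset.exists_le_of_sum_le`.
-/

namespace Vale.Agent.P013

open Finset Real

theorem FPa_count (B : Finset ℕ) {s : ℕ} (hs : 1 ≤ s) {a : ℕ} (ha : a ∈ B) :
    (((B.powersetCard s).filter fun T => a ∈ T).card : ℝ) * B.card
      = (B.powersetCard s).card * s := by
  have h1 : ((B.powersetCard s).filter fun T => a ∈ T)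
      = (B.powersetCard s).filter fun T => {a} ⊆ T :=
    filter_congr fun T _ => singleton_subset_iff.symm
  rw [h1, card_filter_powersetCard_subset _ _ _ (singleton_subset_iff.2 ha) (by simpa using hs),
    card_powersetCard, card_singleton]
  have hB : 1 ≤ B.card := card_pos.2 ⟨a, ha⟩
  have h2 := Nat.add_one_mul_choose_eq (B.card - 1) (s - 1)
  rw [Nat.sub_add_cancel hB, Nat.sub_add_cancel hs] at h2
  rw [mul_comm]
  exact_mod_cast h2

theorem FPa_count_pi {j : ℕ} (B : Fin j → Finset ℕ) {s : ℕ} (hs : 1 ≤ s) {τ : Fin j → ℕ}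
    (hτ : τ ∈ Fintype.piFinset B) :
    (((Fintype.piFinset fun i => (B i).powersetCard s).filter
      fun S => τ ∈ Fintype.piFinset S).card : ℝ) * NN B
      = (Fintype.piFinset fun i => (B i).powersetCard s).card * (s : ℝ) ^ j := by
  have h1 : ((Fintype.piFinset fun i => (B i).powersetCard s).filter
      fun S => τ ∈ Fintype.piFinset S)
      = Fintype.piFinset fun i => ((B i).powersetCard s).filter fun T => τ i ∈ T := by
    ext S
    simp only [mem_filter, Fintype.mem_piFinset]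
    exact ⟨fun h i => ⟨h.1 i, h.2 i⟩, fun h => ⟨fun i => (h i).1, fun i => (h i).2⟩⟩
  rw [h1, Fintype.card_piFinset, Fintype.card_piFinset, NN]
  push_cast
  rw [← prod_mul_distrib, prod_congr rfl fun i _ =>
    FPa_count (B i) hs (Fintype.mem_piFinset.1 hτ i), prod_mul_distrib]
  simp

theorem FPa_sum {j : ℕ} (B : Fin j → Finset ℕ) {s : ℕ} (hs : 1 ≤ s) (g : (Fin j → ℕ) → ℝ) :
    (∑ S ∈ Fintype.piFinset fun i => (B i).powersetCard s, ∑ τ ∈ Fintype.piFinset S, g τ) * NN B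
      = (Fintype.piFinset fun i => (B i).powersetCard s).card * (s : ℝ) ^ j *
        ∑ τ ∈ Fintype.piFinset B, g τ := by
  rw [sum_comm' (t' := Fintype.piFinset B)
    (s' := fun τ => (Fintype.piFinset fun i => (B i).powersetCard s).filter
      fun S => τ ∈ Fintype.piFinset S)]
  · rw [sum_mul, mul_sum]
    refine sum_congr rfl fun τ hτ => ?_
    rw [sum_const, nsmul_eq_mul, ← FPa_count_pi B hs hτ]
    ring
  · intro S τ
    simp only [mem_filter, Fintype.mem_piFinset, mem_powersetCard]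
    exact ⟨fun h => ⟨⟨h.1, h.2⟩, fun i => (h.1 i).1 (h.2 i)⟩, fun h => ⟨h.1.1, h.1.2⟩⟩

theorem FPa_markov {ι : Type*} (𝒮 : Finset ι) (F : ι → ℝ) {c κ : ℝ} (hc : 0 < c) (hκ : 0 ≤ κ)
    (hF : ∀ S ∈ 𝒮, |F S| ≤ c) (h : 3 / 4 * κ * c * 𝒮.card ≤ |∑ S ∈ 𝒮, F S|) :
    κ / 4 * 𝒮.card ≤ ((𝒮.filter fun S => κ / 2 * c ≤ |F S|).card : ℝ) := by
  have h1 : |∑ S ∈ 𝒮, F S| ≤
      ∑ S ∈ 𝒮, (κ / 2 * c + c * if κ / 2 * c ≤ |F S| then 1 else 0) := by
    refine (abs_sum_le_sum_abs _ _).trans (sum_le_sum fun S hS => ?_)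
    have h0 : 0 ≤ κ / 2 * c := by positivity
    split_ifs with h2
    · linarith [hF S hS]
    · linarith [not_le.1 h2]
  rw [sum_add_distrib, sum_const, ← mul_sum, sum_boole, nsmul_eq_mul] at h1
  have h2 := h.trans h1
  refine le_of_mul_le_mul_left ?_ hc
  linarith

theorem sampling {j : ℕ} (B : Fin j → Finset ℕ) {s : ℕ} (hs : 1 ≤ s) (hsB : ∀ i, s ≤ (B i).card)
    (M : Finset ℕ) (f : ℕ → (Fin j → ℕ) → ℝ) {b κ : ℝ} (hb : 0 < b) (hκ : 0 ≤ κ)
    (hf : ∀ m ∈ M, ∀ τ ∈ Fintype.piFinset B, |f m τ| ≤ b)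
    (hM : ∀ m ∈ M, 3 / 4 * κ * b * NN B ≤ |∑ τ ∈ Fintype.piFinset B, f m τ|) :
    ∃ S : Fin j → Finset ℕ, (∀ i, S i ⊆ B i ∧ (S i).card = s) ∧
      κ / 4 * M.card ≤ ((M.filter fun m =>
        κ / 2 * b * (s : ℝ) ^ j ≤ |∑ τ ∈ Fintype.piFinset S, f m τ|).card : ℝ) := by
  set 𝒮 := Fintype.piFinset fun i => (B i).powersetCard s with h𝒮
  have hne : 𝒮.Nonempty := by
    rw [h𝒮, Fintype.piFinset_nonempty]
    exact fun i => powersetCard_nonempty.2 (hsB i)
  have hs' : (0 : ℝ) < s := by exact_mod_cast hs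
  have hN : 0 < NN B := prod_pos fun i _ => by
    have : 1 ≤ (B i).card := hs.trans (hsB i)
    exact_mod_cast this
  have key : ∀ m ∈ M, κ / 4 * 𝒮.card ≤ ((𝒮.filter fun S =>
      κ / 2 * (b * (s : ℝ) ^ j) ≤ |∑ τ ∈ Fintype.piFinset S, f m τ|).card : ℝ) := by
    intro m hm
    refine FPa_markov 𝒮 (fun S => ∑ τ ∈ Fintype.piFinset S, f m τ) (by positivity) hκ
      (fun S hS => ?_) ?_
    · have hS' : ∀ i, S i ⊆ B i ∧ (S i).card = s := fun i =>
        mem_powersetCard.1 (Fintype.mem_piFinset.1 hS i)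
      refine (abs_sum_le_sum_abs _ _).trans ?_
      refine (sum_le_card_nsmul _ _ b fun τ hτ => hf m hm τ ?_).trans ?_
      · exact Fintype.piFinset_subset _ _ (fun i => (hS' i).1) hτ
      · rw [Fintype.card_piFinset, prod_congr rfl fun i _ => (hS' i).2, nsmul_eq_mul]
        simp [mul_comm]
    · refine le_of_mul_le_mul_right ?_ hN
      rw [← abs_of_pos hN, ← abs_mul, abs_of_pos hN, FPa_sum B hs, abs_mul,
        abs_of_nonneg (by positivity : (0 : ℝ) ≤ 𝒮.card * (s : ℝ) ^ j)]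
      have := mul_le_mul_of_nonneg_left (hM m hm)
        (by positivity : (0 : ℝ) ≤ 𝒮.card * (s : ℝ) ^ j)
      linarith
  have hsum : ∑ _S ∈ 𝒮, κ / 4 * (M.card : ℝ) ≤ ∑ S ∈ 𝒮, ((M.filter fun m =>
      κ / 2 * b * (s : ℝ) ^ j ≤ |∑ τ ∈ Fintype.piFinset S, f m τ|).card : ℝ) := by
    have h1 := sum_le_sum key
    simp only [card_filter, Nat.cast_sum] at h1 ⊢
    rw [sum_comm (t := M)]
    simp only [mul_assoc] at h1 ⊢
    refine le_trans (le_of_eq ?_) h1
    simp only [sum_const, nsmul_eq_mul]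
    ring
  obtain ⟨S, hS, h⟩ := exists_le_of_sum_le hne hsum
  exact ⟨S, fun i => mem_powersetCard.1 (Fintype.mem_piFinset.1 hS i), h⟩

end Vale.Agent.P013
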