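import Vale.Agent.P013.Basic

/-!
Collinear triples. `t m = x / m`, `x + nn x m = m * t m`. For `p ∈ B`, `r ∈ H p` let `c p r` be the number of `m ∈ M` with
`t m % p = r`. Then `∑ (p, r), c p r ≥ (κ / 4) |B| |M|` and there are at most `Λ₁ |B|` pairs `(p, r)`; by the power mean inequality
(`pow_sum_le_card_mul_sum_pow` or `inner_le_nnorm_mul_nnorm` twice) `∑ c p r ^ 3 ≥ θ |B| |M|³`, `θ = (κ / 4)³ / Λ₁²`.
The left side is at most `∑ over triples in M³ of w`, `w` the number of `p ∈ B` with `t m₁ ≡ t m₂ ≡ t m₃ mod p`. For such `p`,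
`nn x m_i ≡ r m_i - x`, so `p ∣ det3 x m₁ m₂ m₃`. If `det3 ≠ 0` then `|det3| ≤ 2 y²` and `w ≤ log (6 y²) / log 2 ≤ θ |B| / 2`
(`card_mul_log_le`); always `w ≤ |B|`. So at least `θ |M|³ / 2` triples have `det3 = 0`. Those with `m₁ = m₂` number `|M|²`; for
`m₁ ≠ m₂`, `¬ Rich x y ρ m₁` leaves fewer than `ρ` values of `m₃`. So `θ |M|³ / 2 ≤ |M|² (1 + ρ)`.
-/

namespace Vale.Agent.P013

open Finset Real

theorem FPb_nn (x m : ℕ) : nn x m = (m : ℤ) * ((x / m : ℕ) : ℤ) - x := by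
  have h : ((m * (x / m) + x % m : ℕ) : ℤ) = x := by rw [Nat.div_add_mod]
  unfold nn
  rw [Nat.cast_add, Nat.cast_mul] at h
  linarith

theorem FPb_dvd (x : ℕ) {p r m₁ m₂ m₃ : ℕ} (h₁ : x / m₁ % p = r) (h₂ : x / m₂ % p = r)
    (h₃ : x / m₃ % p = r) : (p : ℤ) ∣ det3 x m₁ m₂ m₃ := by
  have e : ∀ m : ℕ, x / m % p = r → ((x / m : ℕ) : ℤ) = p * ((x / m / p : ℕ) : ℤ) + r := by
    intro m h
    rw [← h, ← Nat.cast_mul, ← Nat.cast_add, Nat.div_add_mod]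
  unfold det3
  rw [FPb_nn, FPb_nn, FPb_nn, e _ h₁, e _ h₂, e _ h₃]
  generalize ((x / m₁ / p : ℕ) : ℤ) = a
  generalize ((x / m₂ / p : ℕ) : ℤ) = b
  generalize ((x / m₃ / p : ℕ) : ℤ) = c
  exact ⟨((m₂ : ℤ) - m₁) * (m₃ * c - m₁ * a) - ((m₃ : ℤ) - m₁) * (m₂ * b - m₁ * a), by ring⟩

theorem FPb_abs (x : ℕ) {y m₁ m₂ m₃ : ℕ} (h₁ : m₁ ∈ Icc 1 y) (h₂ : m₂ ∈ Icc 1 y)
    (h₃ : m₃ ∈ Icc 1 y) : |det3 x m₁ m₂ m₃| ≤ 6 * (y : ℤ) ^ 2 := by
  rw [mem_Icc] at h₁ h₂ h₃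
  have a₁ := Nat.mod_lt x h₁.1
  have a₂ := Nat.mod_lt x h₂.1
  have a₃ := Nat.mod_lt x h₃.1
  have b₁ : |(m₂ : ℤ) - m₁| ≤ y := by rw [abs_le]; constructor <;> omega
  have b₂ : |(m₃ : ℤ) - m₁| ≤ y := by rw [abs_le]; constructor <;> omega
  have b₃ : |nn x m₃ - nn x m₁| ≤ y := by unfold nn; rw [abs_le]; constructor <;> omega
  have b₄ : |nn x m₂ - nn x m₁| ≤ y := by unfold nn; rw [abs_le]; constructor <;> omega
  unfold det3
  refine (abs_sub _ _).trans ?_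
  rw [abs_mul, abs_mul]
  have c₁ := mul_le_mul b₁ b₃ (abs_nonneg _) (by positivity)
  have c₂ := mul_le_mul b₂ b₄ (abs_nonneg _) (by positivity)
  nlinarith [sq_nonneg (y : ℤ)]

theorem FPb_w (x : ℕ) {y m₁ m₂ m₃ : ℕ} (h₁ : m₁ ∈ Icc 1 y) (h₂ : m₂ ∈ Icc 1 y)
    (h₃ : m₃ ∈ Icc 1 y) {B : Finset ℕ} (hB : ∀ p ∈ B, p.Prime) :
    ((B.filter fun p : ℕ => (p : ℤ) ∣ det3 x m₁ m₂ m₃).card : ℝ) ≤
      2 * log (6 * (y : ℝ) ^ 2) + B.card * if det3 x m₁ m₂ m₃ = 0 then 1 else 0 := by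
  have hy : (1 : ℝ) ≤ y := by
    have := mem_Icc.1 h₁
    exact_mod_cast this.1.trans this.2
  have hl : 0 ≤ log (6 * (y : ℝ) ^ 2) := log_nonneg (by nlinarith)
  split_ifs with h
  · have : ((B.filter fun p : ℕ => (p : ℤ) ∣ det3 x m₁ m₂ m₃).card : ℝ) ≤ B.card := by
      exact_mod_cast card_filter_le _ _
    linarith
  · have h4 := card_mul_log_le (S := B.filter fun p : ℕ => (p : ℤ) ∣ det3 x m₁ m₂ m₃) h
      (w := 2) two_pos fun p hp => by
        rw [mem_filter] at hp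
        exact ⟨hB p hp.1, by exact_mod_cast (hB p hp.1).two_le, hp.2⟩
    have h5 : log |((det3 x m₁ m₂ m₃ : ℤ) : ℝ)| ≤ log (6 * (y : ℝ) ^ 2) := by
      refine log_le_log (abs_pos.2 (by exact_mod_cast h)) ?_
      exact_mod_cast FPb_abs x h₁ h₂ h₃
    have h6 : (1 / 2 : ℝ) ≤ log 2 := by linarith [log_two_gt_d9]
    have h7 := mul_le_mul_of_nonneg_left h6
      (Nat.cast_nonneg (α := ℝ) (B.filter fun p : ℕ => (p : ℤ) ∣ det3 x m₁ m₂ m₃).card)
    linarith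

theorem FPb_zero (x y : ℕ) {M : Finset ℕ} {ρ : ℝ} (hρ : 0 ≤ ρ) (hM : M ⊆ Icc 1 y)
    (hR : ∀ m ∈ M, ¬ Rich x y ρ m) :
    (((M ×ˢ M ×ˢ M).filter fun t => det3 x t.1 t.2.1 t.2.2 = 0).card : ℝ) ≤
      (M.card : ℝ) ^ 2 * (ρ + 1) := by
  rw [card_filter, sum_product]
  simp only [sum_product]
  simp only [← card_filter]
  push_cast
  have key : ∀ a ∈ M, ∑ b ∈ M, ((M.filter fun c => det3 x a b c = 0).card : ℝ) ≤
      M.card * (ρ + 1) := by
    intro a ha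
    have h1 : ∀ b ∈ M, ((M.filter fun c => det3 x a b c = 0).card : ℝ) ≤
        ρ + if b = a then (M.card : ℝ) else 0 := by
      intro b hb
      split_ifs with h
      · have : ((M.filter fun c => det3 x a b c = 0).card : ℝ) ≤ M.card := by
          exact_mod_cast card_filter_le _ _
        linarith
      · have h2 := hR a ha
        unfold Rich at h2
        push Not at h2
        have h3 := h2 b (hM hb) h
        have : ((M.filter fun c => det3 x a b c = 0).card : ℝ) ≤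
            ((Icc 1 y).filter fun c => det3 x a b c = 0).card := by
          exact_mod_cast card_le_card (filter_subset_filter _ hM)
        linarith
    refine (sum_le_sum h1).trans (le_of_eq ?_)
    rw [sum_add_distrib, sum_ite_eq', if_pos ha, sum_const, nsmul_eq_mul]
    ring
  refine (sum_le_sum key).trans (le_of_eq ?_)
  rw [sum_const, nsmul_eq_mul]
  ring

theorem FPb_cube (x : ℕ) (M H : Finset ℕ) (p : ℕ) :
    ∑ r ∈ H, ((M.filter fun m => x / m % p = r).card) ^ 3 ≤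
      ((M ×ˢ M ×ˢ M).filter fun t => (p : ℤ) ∣ det3 x t.1 t.2.1 t.2.2).card := by
  set T := (M ×ˢ M ×ˢ M).filter fun t => (p : ℤ) ∣ det3 x t.1 t.2.1 t.2.2 with hT
  calc _ ≤ ∑ r ∈ H, (T.filter fun t => x / t.1 % p = r).card := by
        refine sum_le_sum fun r _ => ?_
        set A := M.filter fun m => x / m % p = r with hA
        have h1 : A.card ^ 3 = (A ×ˢ A ×ˢ A).card := by
          rw [card_product, card_product]; ring
        rw [h1]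
        refine card_le_card fun t ht => ?_
        simp only [hA, hT, mem_product, mem_filter] at ht ⊢
        exact ⟨⟨⟨ht.1.1, ht.2.1.1, ht.2.2.1⟩, FPb_dvd x ht.1.2 ht.2.1.2 ht.2.2.2⟩, ht.1.2⟩
    _ ≤ _ := by
        rw [sum_card_fiberwise_eq_card_filter]
        exact card_filter_le _ _

theorem FPb_swap {α β : Type*} (s : Finset α) (t : Finset β) (P : α → β → Prop)
    [∀ a b, Decidable (P a b)] :
    ∑ a ∈ s, ((t.filter fun b => P a b).card : ℝ) = ∑ b ∈ t, ((s.filter fun a => P a b).card : ℝ) := by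
  simp only [card_filter, Nat.cast_sum]
  exact sum_comm

theorem triples (x y : ℕ) (B M : Finset ℕ) (H : ℕ → Finset ℕ) {κ Λ₁ ρ : ℝ} (hκ : 0 ≤ κ)
    (hΛ : 0 < Λ₁) (hρ : 0 ≤ ρ) (hB : ∀ p ∈ B, p.Prime) (hB0 : B.Nonempty) (hM : M ⊆ Icc 1 y)
    (hH : ∑ p ∈ B, ((H p).card : ℝ) ≤ Λ₁ * B.card)
    (hm : ∀ m ∈ M, κ / 4 * B.card ≤ ((B.filter fun p => x / m % p ∈ H p).card : ℝ))
    (hθ : 4 * log (6 * (y : ℝ) ^ 2) ≤ (κ / 4) ^ 3 / Λ₁ ^ 2 * B.card)
    (hR : ∀ m ∈ M, ¬ Rich x y ρ m) :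
    (κ / 4) ^ 3 / Λ₁ ^ 2 / 2 * M.card ≤ ρ + 1 := by
  rcases M.eq_empty_or_nonempty with rfl | hM0
  · simp only [card_empty, Nat.cast_zero, mul_zero]; linarith
  have hb : (0 : ℝ) < B.card := by exact_mod_cast card_pos.2 hB0
  have hn : (0 : ℝ) < M.card := by exact_mod_cast card_pos.2 hM0
  set c : (Σ _ : ℕ, ℕ) → ℝ := fun q => ((M.filter fun m => x / m % q.1 = q.2).card : ℝ) with hc
  have h1 : κ / 4 * B.card * M.card ≤ ∑ q ∈ B.sigma H, c q := by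
    rw [sum_sigma]
    have e : ∀ p ∈ B, ∑ r ∈ H p, c ⟨p, r⟩ = ((M.filter fun m => x / m % p ∈ H p).card : ℝ) := by
      intro p _
      rw [← sum_card_fiberwise_eq_card_filter, Nat.cast_sum]
    rw [sum_congr rfl e, FPb_swap]
    refine le_trans (le_of_eq ?_) (sum_le_sum hm)
    rw [sum_const, nsmul_eq_mul]; ring
  have h2 : ((B.sigma H).card : ℝ) ≤ Λ₁ * B.card := by
    rw [card_sigma, Nat.cast_sum]; exact hH
  have h3 := pow_sum_le_card_mul_sum_pow (s := B.sigma H) (f := c)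
    (fun q _ => Nat.cast_nonneg _) 2
  have h4 : ∑ q ∈ B.sigma H, c q ^ (2 + 1) ≤
      2 * log (6 * (y : ℝ) ^ 2) * (M.card : ℝ) ^ 3 + B.card * ((M.card : ℝ) ^ 2 * (ρ + 1)) := by
    rw [sum_sigma]
    have e : ∀ p ∈ B, ∑ r ∈ H p, c ⟨p, r⟩ ^ (2 + 1) ≤
        (((M ×ˢ M ×ˢ M).filter fun t => (p : ℤ) ∣ det3 x t.1 t.2.1 t.2.2).card : ℝ) := by
      intro p _
      simp only [hc]
      exact_mod_cast FPb_cube x M (H p) p
    refine (sum_le_sum e).trans ?_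
    rw [FPb_swap]
    refine (sum_le_sum fun t ht => FPb_w x (hM (mem_product.1 ht).1)
      (hM (mem_product.1 (mem_product.1 ht).2).1) (hM (mem_product.1 (mem_product.1 ht).2).2)
      hB).trans ?_
    rw [sum_add_distrib, sum_const, ← mul_sum, sum_boole, nsmul_eq_mul, card_product, card_product]
    have := mul_le_mul_of_nonneg_left (FPb_zero x y hρ hM hR) hb.le
    push_cast
    linarith
  set θ := (κ / 4) ^ 3 / Λ₁ ^ 2 with hθd
  have hθ' : θ * Λ₁ ^ 2 = (κ / 4) ^ 3 := div_mul_cancel₀ _ (by positivity)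
  have h5 : (κ / 4 * B.card * M.card) ^ (2 + 1) ≤ (Λ₁ * B.card) ^ 2 *
      (2 * log (6 * (y : ℝ) ^ 2) * (M.card : ℝ) ^ 3 + B.card * ((M.card : ℝ) ^ 2 * (ρ + 1))) :=
    (pow_le_pow_left₀ (by positivity) h1 _).trans (h3.trans (mul_le_mul
      (pow_le_pow_left₀ (Nat.cast_nonneg _) h2 2) h4
      (sum_nonneg fun q _ => pow_nonneg (Nat.cast_nonneg _) _) (by positivity)))
  have h6 : (κ / 4 * B.card * M.card) ^ (2 + 1) =
      (Λ₁ * B.card) ^ 2 * (θ * B.card * (M.card : ℝ) ^ 3) := by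
    rw [mul_pow, mul_pow, show (κ / 4) ^ (2 + 1) = θ * Λ₁ ^ 2 from hθ'.symm]; ring
  rw [h6] at h5
  have h7 := le_of_mul_le_mul_left h5 (by positivity)
  have h8 := mul_le_mul_of_nonneg_right hθ (by positivity : 0 ≤ (M.card : ℝ) ^ 3)
  refine le_of_mul_le_mul_left ?_ (by positivity : 0 < (B.card : ℝ) * (M.card : ℝ) ^ 2)
  linarith

end Vale.Agent.P013
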