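import Vale.Agent.P013.FourA
import Vale.Agent.P013.FPa
import Vale.Agent.P013.FPb

/-!
Few moduli have a large multilinear remainder without lying on a rich line.
For `1 ≤ m ≤ y` put `t = x / m`, `μ = (y + x % m) / m`. `fe_gg`: the `ν ∈ [1, y]` with `m k p ∣ x + ν` correspond to
`i ∈ [1, (t % k + μ) / k]` with `p ∣ t - t % k + k i` (`x + ν = m (t - t % k + k i)`, and `k p ∣ k (t / k + i)` iff
`p ∣ k (t / k + i)` for `p ∤ k`); one may also use `cnt_eq`. Since `|(t % k + μ) / k - y / (m k)| ≤ 2` the difference is at most `2 / p`.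
`fingerprint`: suppose `|BadM| > Z`. `Phi = ∑ τ ∈ piFinset (tail B), ∑ p ∈ B 0, Fe x y (m * (p * k τ))`, `k τ = ∏ τ i`
(`Fin.prod_univ_succ`, `Fin.consEquiv`, `Fin.mem_piFinset_iff_zero_tail`). Let
`f m τ = ∑ p ∈ B 0, gg p (k τ) (t % k τ) ((t % k τ + μ) / k τ) (t % p)`, `|f| ≤ |B 0|`; as `2 / P ≤ κ / 4`,
`|∑ τ, f m τ| ≥ (3/4) κ |B 0| NN (tail B)`. `sampling` gives `S`; `T = piFinset S`, `|T| = s^j`, `Ω = ∏ i, pr (S i) ≤ V^(j s)`.
The fingerprint `(μ, t % Ω)` takes at most `(U + 2) V^(j s)` values (`μ < U + 1`), so some class `M` has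
`|M| > (κ / 4) Z / ((U + 2) V^(j s))` (`Finset.exists_lt_card_fiber_of_mul_lt_card_of_maps_to` or a real version); on `M` the data
`c τ = t % k τ = (t % Ω) % k τ` and `ν τ` are constant for `τ ∈ T`. `Φ p r = ∑ τ ∈ T, gg p (k τ) (c τ) (ν τ) r`,
`H p = {r < p : (κ / 4) |T| ≤ |Φ p r|}`. `second_moment` with `Km = V^j` (`hsep`: if `τ i ≠ τ' i`, the prime `τ i > P` divides `k τ` but
neither `k τ'` nor `u`) gives `∑ |H p| ≤ Λ₁ |B 0|`. For `m ∈ M`, `(κ / 2) |B 0| |T| ≤ |∑ p, Φ p (t % p)|` and `|Φ| ≤ |T|` give at least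
`(κ / 4) |B 0|` primes with `t % p ∈ H p`. `triples` contradicts `hρ`.
-/

namespace Vale.Agent.P013

open Finset Real

theorem fe_gg (x y : ℕ) {m k p : ℕ} (hm : 1 ≤ m) (hk : 1 ≤ k) (hp : p.Prime) (hpk : ¬ p ∣ k) :
    |Fe x y (m * (p * k)) -
      gg p k (x / m % k) ((x / m % k + (y + x % m) / m) / k) (x / m % p)| ≤ 2 / p := by
  have h1 : (x + y) / m = x / m + (y + x % m) / m := by
    conv_lhs => rw [← Nat.div_add_mod x m, add_assoc, Nat.mul_add_div hm, add_comm (x % m)]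
  have h2 : (x + y) / m / k = x / m / k + (x / m % k + (y + x % m) / m) / k := by
    rw [h1]
    conv_lhs => rw [← Nat.div_add_mod (x / m) k, add_assoc, Nat.mul_add_div hk]
  have h3 : cnt x y (m * k) = (x / m % k + (y + x % m) / m) / k := by
    rw [cnt_eq, ← Nat.div_div_eq_div_mul, ← Nat.div_div_eq_div_mul, h2, Nat.add_sub_cancel_left]
  have h4 : cnt x y (m * (p * k)) = cnt (x / m / k) ((x / m % k + (y + x % m) / m) / k) p := by
    rw [cnt_eq, cnt_eq, ← h2, mul_comm p k, ← mul_assoc]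
    simp only [Nat.div_div_eq_div_mul]
  have h5 := abs_Fe_le x y (Nat.mul_pos hm hk)
  rw [Fe, h3] at h5
  rw [Fe, h4, gg, cnt]
  generalize (x / m % k + (y + x % m) / m) / k = ν at h5 ⊢
  generalize x / m = t
  have h6 : ((Icc 1 ν).filter fun i : ℕ =>
      (p : ℤ) ∣ ((t % p : ℕ) : ℤ) - ((t % k : ℕ) : ℤ) + k * i) =
      (Icc 1 ν).filter fun i => p ∣ t / k + i := by
    refine filter_congr fun i _ => ?_
    have e1 : (t : ℤ) = p * (t / p : ℕ) + (t % p : ℕ) := by exact_mod_cast (Nat.div_add_mod t p).symm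
    have e2 : (t : ℤ) = k * (t / k : ℕ) + (t % k : ℕ) := by exact_mod_cast (Nat.div_add_mod t k).symm
    have e3 : ((t % p : ℕ) : ℤ) - ((t % k : ℕ) : ℤ) + k * i
        = ((k * (t / k + i) : ℕ) : ℤ) - p * (t / p : ℕ) := by
      rw [Nat.cast_mul, Nat.cast_add]
      linear_combination e2 - e1
    rw [e3, dvd_sub_left (dvd_mul_right _ _), Int.natCast_dvd_natCast, hp.dvd_mul,
      or_iff_right hpk]
  rw [h6]
  have hp0 : (0 : ℝ) < p := by exact_mod_cast hp.pos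
  have hm0 : (0 : ℝ) < m := by exact_mod_cast hm
  have hk0 : (0 : ℝ) < k := by exact_mod_cast hk
  have h7 : ∀ N : ℝ, N - (y : ℝ) / ((m * (p * k) : ℕ) : ℝ) - (N - (ν : ℝ) / p)
      = ((ν : ℝ) - (y : ℝ) / ((m * k : ℕ) : ℝ)) / p := by
    intro N
    push_cast
    field_simp
    ring
  rw [h7, abs_div, abs_of_pos hp0]
  exact div_le_div_of_nonneg_right (h5.trans one_le_two) hp0.le

theorem fp_sum_pi {j : ℕ} (B : Fin (j + 1) → Finset ℕ) (g : (Fin (j + 1) → ℕ) → ℝ) :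
    ∑ p ∈ Fintype.piFinset B, g p =
      ∑ τ ∈ Fintype.piFinset fun i : Fin j => B i.succ, ∑ p ∈ B 0, g (Fin.cons p τ) := by
  rw [← sum_product_right' (f := fun p τ => g (Fin.cons p τ))]
  refine (sum_equiv (Fin.consEquiv fun _ => ℕ) (fun z => ?_) fun z _ => rfl).symm
  simp [Fin.consEquiv, Fin.forall_fin_succ]

theorem fp_prod_le {ι : Type} (s : Finset ι) (f : ι → ℕ) {c : ℝ} (h : ∀ i ∈ s, (f i : ℝ) ≤ c) :
    ((∏ i ∈ s, f i : ℕ) : ℝ) ≤ c ^ s.card := by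
  rw [Nat.cast_prod, ← prod_const]
  exact prod_le_prod (fun _ _ => Nat.cast_nonneg _) h

theorem fp_dvd {j : ℕ} {C : Fin j → Finset ℕ} (hC : ∀ i, ∀ p ∈ C i, p.Prime) {τ : Fin j → ℕ}
    (hτ : τ ∈ Fintype.piFinset C) {q : ℕ} (hq : q.Prime) (h : q ∣ ∏ i, τ i) : ∃ i, q = τ i := by
  obtain ⟨i, -, hi⟩ := (hq.prime.dvd_finsetProd_iff _).1 h
  exact ⟨i, (Nat.prime_dvd_prime_iff_eq hq (hC i _ (Fintype.mem_piFinset.1 hτ i))).1 hi⟩

/-- the structured approximation of the inner sum -/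
noncomputable def fpF (x y : ℕ) (B₀ : Finset ℕ) {j : ℕ} (m : ℕ) (τ : Fin j → ℕ) : ℝ :=
  ∑ p ∈ B₀, gg p (∏ i, τ i) (x / m % ∏ i, τ i)
    ((x / m % ∏ i, τ i + (y + x % m) / m) / ∏ i, τ i) (x / m % p)

theorem fp_approx {j : ℕ} (x y : ℕ) (B : Fin (j + 1) → Finset ℕ) {P κ : ℝ}
    (hprime : ∀ i, ∀ p ∈ B i, p.Prime) (hP : ∀ p ∈ B 0, P ≤ (p : ℝ)) (hκ : 0 < κ)
    (hκP : 8 ≤ κ * P)
    (hnd : ∀ τ ∈ Fintype.piFinset fun i : Fin j => B i.succ, ∀ p ∈ B 0, ¬ p ∣ ∏ i, τ i)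
    {m : ℕ} (hm : 1 ≤ m) (h : κ * NN B ≤ |Phi x y m B|) :
    3 / 4 * κ * (B 0).card * NN (fun i : Fin j => B i.succ) ≤
      |∑ τ ∈ Fintype.piFinset fun i : Fin j => B i.succ, fpF x y (B 0) m τ| := by
  have hP0 : 0 < P := (pos_iff_pos_of_mul_pos (by linarith : 0 < κ * P)).1 hκ
  have h1 : NN B = (B 0).card * NN fun i : Fin j => B i.succ := Fin.prod_univ_succ _
  have h2 : |Phi x y m B - ∑ τ ∈ Fintype.piFinset fun i : Fin j => B i.succ, fpF x y (B 0) m τ|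
      ≤ NN (fun i : Fin j => B i.succ) * ((B 0).card * (κ / 4)) := by
    rw [Phi, fp_sum_pi, ← sum_sub_distrib]
    refine (abs_sum_le_sum_abs _ _).trans ((sum_le_card_nsmul _ _ ((B 0).card * (κ / 4))
      fun τ hτ => ?_).trans (le_of_eq ?_))
    · rw [fpF, ← sum_sub_distrib]
      refine (abs_sum_le_sum_abs _ _).trans ((sum_le_card_nsmul _ _ (κ / 4)
        fun p hp => ?_).trans (le_of_eq (nsmul_eq_mul _ _)))
      rw [Fin.prod_univ_succ]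
      simp only [Fin.cons_zero, Fin.cons_succ]
      refine (fe_gg x y hm (prod_pos fun i _ =>
        (hprime _ _ (Fintype.mem_piFinset.1 hτ i)).pos) (hprime 0 p hp) (hnd τ hτ p hp)).trans ?_
      have := hP p hp
      rw [div_le_iff₀ (by linarith)]
      nlinarith
    · rw [nsmul_eq_mul, Fintype.card_piFinset, NN]
      push_cast
      rfl
  have h3 := abs_sub_abs_le_abs_sub (Phi x y m B)
    (∑ τ ∈ Fintype.piFinset fun i : Fin j => B i.succ, fpF x y (B 0) m τ)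
  rw [h1] at h
  linarith

theorem fp_heavy (B₀ : Finset ℕ) (Φ : ℕ → ℕ → ℝ) {P a E : ℝ} (ha : 0 < a)
    (hP : ∀ p ∈ B₀, 0 < p ∧ (p : ℝ) ≤ 2 * P) (hP0 : 0 < P)
    (h : ∑ p ∈ B₀, 1 / (p : ℝ) * ∑ r ∈ range p, Φ p r ^ 2 ≤ E) :
    ∑ p ∈ B₀, (((range p).filter fun r => a ≤ |Φ p r|).card : ℝ) ≤ 2 * P / a ^ 2 * E := by
  refine le_trans ?_ (mul_le_mul_of_nonneg_left h (by positivity))
  rw [mul_sum]
  refine sum_le_sum fun p hp => ?_
  have hp0 : (0 : ℝ) < p := by exact_mod_cast (hP p hp).1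
  have h1 : (((range p).filter fun r => a ≤ |Φ p r|).card : ℝ) * a ^ 2
      ≤ ∑ r ∈ range p, Φ p r ^ 2 := by
    rw [← nsmul_eq_mul]
    refine (card_nsmul_le_sum _ (fun r => Φ p r ^ 2) _ fun r hr => ?_).trans
      (sum_le_sum_of_subset_of_nonneg (filter_subset _ _) fun _ _ _ => sq_nonneg _)
    rw [← sq_abs (Φ p r)]
    exact pow_le_pow_left₀ ha.le (mem_filter.1 hr).2 2
  have h2 : 1 ≤ 2 * P * (1 / (p : ℝ)) := by
    rw [mul_one_div, one_le_div hp0]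
    exact (hP p hp).2
  have h3 : 0 ≤ ∑ r ∈ range p, Φ p r ^ 2 := sum_nonneg fun _ _ => sq_nonneg _
  rw [div_mul_eq_mul_div, le_div_iff₀ (by positivity), ← mul_assoc]
  exact h1.trans (le_mul_of_one_le_left h3 h2)

theorem fp_many (B₀ : Finset ℕ) (g : ℕ → ℝ) (Q : ℕ → Prop) [DecidablePred Q] {κ N : ℝ}
    (hκ : 0 ≤ κ) (hN : 0 < N) (hg : ∀ p ∈ B₀, |g p| ≤ N)
    (hQ : ∀ p ∈ B₀, κ / 4 * N ≤ |g p| → Q p) (h : κ / 2 * B₀.card * N ≤ |∑ p ∈ B₀, g p|) :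
    κ / 4 * B₀.card ≤ ((B₀.filter Q).card : ℝ) := by
  have h1 : ∀ p ∈ B₀, |g p| ≤ (if Q p then N else 0) + κ / 4 * N := by
    intro p hp
    split_ifs with h2
    · exact (hg p hp).trans (le_add_of_nonneg_right (by positivity))
    · rw [zero_add]
      exact (not_le.1 fun h3 => h2 (hQ p hp h3)).le
  have h2 := h.trans ((abs_sum_le_sum_abs _ _).trans (sum_le_sum h1))
  rw [sum_add_distrib, ← sum_filter, sum_const, sum_const, nsmul_eq_mul, nsmul_eq_mul] at h2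
  refine le_of_mul_le_mul_right ?_ hN
  linarith

theorem fp_mu {x y m : ℕ} {U : ℝ} (hm : 1 ≤ m) (h : (y : ℝ) ≤ m * U) :
    (y + x % m) / m < ⌊U⌋₊ + 2 := by
  rw [Nat.div_lt_iff_lt_mul hm]
  have h1 : x % m < m := Nat.mod_lt _ hm
  have h2 : y ≤ (⌊U⌋₊ + 1) * m := by
    have h3 := (Nat.lt_floor_add_one U).le
    have h4 : (y : ℝ) ≤ ((⌊U⌋₊ : ℝ) + 1) * m := by
      rw [mul_comm]
      exact h.trans (mul_le_mul_of_nonneg_left h3 (Nat.cast_nonneg m))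
    exact_mod_cast h4
  nlinarith

theorem fingerprint {j : ℕ} (x y s : ℕ) (B : Fin (j + 1) → Finset ℕ) {P V κ Λ₁ ρ Z U : ℝ}
    (hprime : ∀ i, ∀ p ∈ B i, p.Prime) (hdisj : ∀ i i', i ≠ i' → Disjoint (B i) (B i'))
    (hB0 : (B 0).Nonempty) (hP : ∀ p ∈ B 0, P ≤ (p : ℝ) ∧ (p : ℝ) ≤ 2 * P)
    (hV : ∀ i : Fin j, ∀ p ∈ B i.succ, P < (p : ℝ) ∧ (p : ℝ) ≤ V) (hV1 : 1 ≤ V)
    (hs : 1 ≤ s) (hsB : ∀ i : Fin j, s ≤ (B i.succ).card) (hκ : 0 < κ) (hκ1 : κ ≤ 1)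
    (hκP : 8 ≤ κ * P) (hρ0 : 0 ≤ ρ) (hU : 0 ≤ U)
    (hΛ : 32 / κ ^ 2 * (P / (s : ℝ) ^ j +
      P * (1 + log P) ^ 2 * (2 * log (2 * P * V ^ j)) / (B 0).card) ≤ Λ₁)
    (hθ : 4 * log (6 * (y : ℝ) ^ 2) ≤ (κ / 4) ^ 3 / Λ₁ ^ 2 * (B 0).card)
    (hρ : ρ + 1 ≤ (κ / 4) ^ 3 / Λ₁ ^ 2 / 2 * (κ / 4 * Z / ((U + 2) * V ^ (j * s)))) :
    ((BadM x y B U κ ρ).card : ℝ) ≤ Z := by
  classical
  by_contra hZ
  rw [not_le] at hZ
  have hP8 : 8 ≤ P := by nlinarith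
  have hb : (0 : ℝ) < (B 0).card := by exact_mod_cast hB0.card_pos
  have hs0 : (0 : ℝ) < (s : ℝ) ^ j := pow_pos (by exact_mod_cast hs) j
  have hVj : 1 ≤ V ^ j := one_le_pow₀ hV1
  have hlog : 0 ≤ log (2 * P * V ^ j) := log_nonneg (by nlinarith)
  have hΛ0 : 0 < Λ₁ := lt_of_lt_of_le (by positivity) hΛ
  have hθ0 : 0 < (κ / 4) ^ 3 / Λ₁ ^ 2 / 2 := by positivity
  have hN0 : 0 < (U + 2) * V ^ (j * s) := by positivity
  have hb0 : 0 ≤ κ / 4 * Z / ((U + 2) * V ^ (j * s)) :=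
    ((pos_iff_pos_of_mul_pos (lt_of_lt_of_le (by linarith) hρ)).1 hθ0).le
  have hpr : ∀ i : Fin j, ∀ p ∈ B i.succ, p.Prime := fun i => hprime i.succ
  have hnd : ∀ τ ∈ Fintype.piFinset fun i : Fin j => B i.succ, ∀ p ∈ B 0, ¬ p ∣ ∏ i, τ i := by
    intro τ hτ p hp h
    obtain ⟨i, rfl⟩ := fp_dvd hpr hτ (hprime 0 p hp) h
    exact disjoint_left.1 (hdisj 0 i.succ (Fin.succ_ne_zero i).symm) hp
      (Fintype.mem_piFinset.1 hτ i)
  have hmem : ∀ m ∈ BadM x y B U κ ρ, m ∈ Icc 1 y ∧ (y : ℝ) ≤ m * U ∧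
      κ * NN B ≤ |Phi x y m B| ∧ ¬ Rich x y ρ m := fun m hm => by
    simpa only [BadM, mem_filter] using hm
  obtain ⟨S, hS, hM1⟩ := sampling (fun i : Fin j => B i.succ) hs hsB (BadM x y B U κ ρ)
    (fpF x y (B 0)) hb hκ.le
    (fun m _ τ hτ => (abs_sum_le_sum_abs _ _).trans ((sum_le_card_nsmul _ _ 1 fun p hp =>
      abs_gg_le (hprime 0 p hp) (hnd τ hτ p hp) _ _ _).trans (by simp)))
    (fun m hm => fp_approx x y B hprime (fun p hp => (hP p hp).1) hκ hκP hnd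
      (mem_Icc.1 (hmem m hm).1).1 (hmem m hm).2.2.1)
  have hT : Fintype.piFinset S ⊆ Fintype.piFinset fun i : Fin j => B i.succ :=
    Fintype.piFinset_subset _ _ fun i => (hS i).1
  have hTc : ((Fintype.piFinset S).card : ℝ) = (s : ℝ) ^ j := by
    simp [Fintype.card_piFinset, fun i => (hS i).2]
  have hΩ0 : 0 < ∏ i, pr (S i) := prod_pos fun i _ => pr_pos fun p hp => hpr i p ((hS i).1 hp)
  have hΩ : ((∏ i, pr (S i) : ℕ) : ℝ) ≤ V ^ (j * s) := by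
    rw [mul_comm, pow_mul]
    refine (fp_prod_le _ _ (c := V ^ s) fun i _ => ?_).trans (by simp)
    rw [← (hS i).2]
    exact fp_prod_le _ (fun p => p) fun p hp => (hV i p ((hS i).1 hp)).2
  obtain ⟨⟨μ, t⟩, -, hM⟩ := exists_lt_card_fiber_of_nsmul_lt_card_of_maps_to
    (s := (BadM x y B U κ ρ).filter fun m => κ / 2 * (B 0).card * (s : ℝ) ^ j ≤
      |∑ τ ∈ Fintype.piFinset S, fpF x y (B 0) m τ|)
    (t := range (⌊U⌋₊ + 2) ×ˢ range (∏ i, pr (S i)))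
    (f := fun m => ((y + x % m) / m, x / m % ∏ i, pr (S i)))
    (b := κ / 4 * Z / ((U + 2) * V ^ (j * s)))
    (fun m hm => by
      have := hmem m (mem_filter.1 hm).1
      exact mem_product.2 ⟨mem_range.2 (fp_mu (mem_Icc.1 this.1).1 this.2.1),
        mem_range.2 (Nat.mod_lt _ hΩ0)⟩)
    (by
      refine lt_of_lt_of_le ?_ hM1
      rw [nsmul_eq_mul, card_product, card_range, card_range, Nat.cast_mul]
      refine lt_of_le_of_lt (mul_le_mul_of_nonneg_right (mul_le_mul (a := ((⌊U⌋₊ + 2 : ℕ) : ℝ))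
        (b := U + 2) (by push_cast; linarith [Nat.floor_le hU]) hΩ (Nat.cast_nonneg _)
        (by linarith)) hb0) ?_
      rw [mul_div_cancel₀ _ hN0.ne']
      exact mul_lt_mul_of_pos_left hZ (by linarith))
  let Φ : ℕ → ℕ → ℝ := fun p r => ∑ τ ∈ Fintype.piFinset S,
    gg p (∏ i, τ i) (t % ∏ i, τ i) ((t % ∏ i, τ i + μ) / ∏ i, τ i) r
  have h2 := second_moment (B 0) (Fintype.piFinset S) (fun τ => ∏ i, τ i)
    (fun τ => t % ∏ i, τ i) (fun τ => (t % ∏ i, τ i + μ) / ∏ i, τ i) (P := P) (Km := V ^ j)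
    (by linarith) hVj (fun p hp => ⟨hprime 0 p hp, (hP p hp).2⟩)
    (fun τ hτ => ⟨(fp_prod_le _ _ (c := V) fun i _ =>
        (hV i _ (Fintype.mem_piFinset.1 (hT hτ) i)).2).trans (by simp), hnd τ (hT hτ)⟩)
    (fun τ hτ τ' hτ' hne u u' hu1 hu2 _ _ h => by
      obtain ⟨i, hi⟩ := Function.ne_iff.1 hne
      have h3 := Fintype.mem_piFinset.1 (hT hτ) i
      have h4 : τ i ∣ u * ∏ i, τ' i := h ▸ Dvd.dvd.mul_left (dvd_prod_of_mem τ (mem_univ i)) u'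
      rcases (hpr i _ h3).dvd_mul.1 h4 with h5 | h5
      · have h6 : (τ i : ℝ) ≤ u := by exact_mod_cast Nat.le_of_dvd hu1 h5
        linarith [(hV i _ h3).1]
      · obtain ⟨i', h6⟩ := fp_dvd hpr (hT hτ') (hpr i _ h3) h5
        have h7 : i ≠ i' := fun h8 => hi (h8 ▸ h6)
        exact disjoint_left.1 (hdisj i.succ i'.succ fun h8 => h7 (Fin.succ_injective _ h8)) h3
          (h6 ▸ Fintype.mem_piFinset.1 (hT hτ') i'))
  have h3 := fp_heavy (B 0) Φ (a := κ / 4 * (s : ℝ) ^ j) (by positivity)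
    (fun p hp => ⟨(hprime 0 p hp).pos, (hP p hp).2⟩) (by linarith) h2
  have h4 := triples x y (B 0)
    (((BadM x y B U κ ρ).filter fun m => κ / 2 * (B 0).card * (s : ℝ) ^ j ≤
      |∑ τ ∈ Fintype.piFinset S, fpF x y (B 0) m τ|).filter fun m =>
        ((y + x % m) / m, x / m % ∏ i, pr (S i)) = (μ, t))
    (fun p => (range p).filter fun r => κ / 4 * (s : ℝ) ^ j ≤ |Φ p r|)
    hκ.le hΛ0 hρ0 (hprime 0) hB0
    (fun m hm => (hmem m (mem_filter.1 (mem_filter.1 hm).1).1).1)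
    (h3.trans (le_trans (le_of_eq (by rw [hTc]; field_simp; ring))
      (mul_le_mul_of_nonneg_right hΛ hb.le)))
    (fun m hm => by
      obtain ⟨h5, h6⟩ := mem_filter.1 hm
      obtain ⟨h7, h8⟩ := Prod.mk.inj h6
      refine fp_many (B 0) (fun p => Φ p (x / m % p)) _ hκ.le hs0 (fun p hp => ?_)
        (fun p hp h => mem_filter.2 ⟨mem_range.2 (Nat.mod_lt _ (hprime 0 p hp).pos), h⟩)
        ((mem_filter.1 h5).2.trans (le_of_eq ?_))
      · rw [← hTc]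
        exact (abs_sum_le_sum_abs _ _).trans ((sum_le_card_nsmul _ _ 1 fun τ hτ =>
          abs_gg_le (hprime 0 p hp) (hnd τ (hT hτ) p hp) _ _ _).trans (by simp))
      · congr 1
        rw [sum_comm]
        refine sum_congr rfl fun τ hτ => ?_
        have h9 : ∏ i, τ i ∣ ∏ i, pr (S i) := prod_dvd_prod_of_dvd _ _ fun i _ =>
          dvd_prod_of_mem (fun p => p) (Fintype.mem_piFinset.1 hτ i)
        rw [fpF, h7, ← h8, Nat.mod_mod_of_dvd _ h9])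
    hθ (fun m hm => (hmem m (mem_filter.1 (mem_filter.1 hm).1).1).2.2.2)
  exact absurd (h4.trans hρ) (not_le.2 (mul_lt_mul_of_pos_left hM hθ0))

end Vale.Agent.P013
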