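import Vale.Agent.P013.Basic

/-!
From the sieve bound to Jacobsthal's function. `b = A + 3`, `y₀` from the hypothesis (and further largeness conditions).
There is `c > 0` with `c log (k + 1)^A ≤ k` for all `k ≥ 1`; take `C = (y₀ + 1) / c + 1`. Then `m ≥ (y₀ + 1) k`, so `m ≥ y₀`, `k ≤ m`,
`log (k + 1) ≤ 2 log m`, `k² ≤ m (2 log m)^A`. Let `x' = ((x - 1) % n).toNat`, `z = ⌈√m log m ^ b⌉₊`. If no `ν ∈ [1, m]` has `x' + ν` coprime
to `n`, each `ν` counted by `Sv x' m 1 z` is divisible by a prime `p ∣ n`, `p ≥ z`, so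
`Sv ≤ ∑ p, cnt x' m p ≤ k (m / z + 1) ≤ 2 k √m / log m ^ b < m / log m ^ 2` for large `m` (`abs_Fe_le`). Finally `i = ν - 1` and
`x + i ≡ x' + ν mod n`.
-/

namespace Vale.Agent.P013

open Finset Real Filter

theorem Final_count (x m n z : ℕ) (hz : 1 ≤ z) (hn : n ≠ 0)
    (h : ∀ ν ∈ Icc 1 m, ∃ p : ℕ, p.Prime ∧ p ∣ n ∧ p ∣ x + ν) :
    (Sv x m 1 z : ℝ) ≤ n.primeFactors.card * ((m : ℝ) / z + 1) := by
  classical
  have h1 : Sv x m 1 z ≤ ∑ p ∈ n.primeFactors.filter (z ≤ ·), cnt x m p := by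
    refine le_trans (card_le_card ?_) card_biUnion_le
    intro ν hν
    obtain ⟨h2, -, h3⟩ := mem_filter.1 hν
    obtain ⟨p, hp, hpn, hpν⟩ := h ν h2
    refine mem_biUnion.2 ⟨p, mem_filter.2 ⟨Nat.mem_primeFactors.2 ⟨hp, hpn, hn⟩, ?_⟩,
      mem_filter.2 ⟨h2, hpν⟩⟩
    by_contra h4
    exact h3 p (Nat.mem_primesBelow.2 ⟨not_le.1 h4, hp⟩) hpν
  have hz0 : (0 : ℝ) < z := by exact_mod_cast hz
  calc (Sv x m 1 z : ℝ) ≤ ∑ p ∈ n.primeFactors.filter (z ≤ ·), (cnt x m p : ℝ) := by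
        exact_mod_cast h1
    _ ≤ ∑ _p ∈ n.primeFactors.filter (z ≤ ·), ((m : ℝ) / z + 1) := by
        refine sum_le_sum fun p hp => ?_
        have h2 := (mem_filter.1 hp).2
        have h3 := (abs_le.1 (abs_Fe_le x m (hz.trans h2))).2
        have h4 : (m : ℝ) / p ≤ m / z :=
          div_le_div_of_nonneg_left (Nat.cast_nonneg _) hz0 (by exact_mod_cast h2)
        rw [Fe] at h3
        linarith
    _ ≤ _ := by
        rw [sum_const, nsmul_eq_mul]
        refine mul_le_mul_of_nonneg_right ?_ (by positivity)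
        exact_mod_cast card_filter_le _ _

theorem Final_log (A : ℕ) {k : ℕ} (hk : 1 ≤ k) : log (k + 1) ^ A ≤ 2 * A.factorial * k := by
  have hk' : (1 : ℝ) ≤ k := by exact_mod_cast hk
  have h1 := pow_div_factorial_le_exp (log (k + 1)) (log_nonneg (by linarith)) A
  have h2 : (0 : ℝ) < A.factorial := by exact_mod_cast A.factorial_pos
  rw [exp_log (by linarith), div_le_iff₀ h2] at h1
  nlinarith

theorem final_of_core
    (h : ∀ b : ℕ, ∀ᶠ y : ℕ in atTop, ∀ x : ℕ, (y : ℝ) / log y ^ 2 ≤ Sv x y 1 ⌈√y * log y ^ b⌉₊)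
    (A : ℕ) : ∃ C : ℝ, 0 < C ∧ ∀ k : ℕ, 1 ≤ k → ∀ n : ℕ, 1 ≤ n → n.primeFactors.card ≤ k →
      ∀ m : ℕ, C * (k : ℝ) ^ 2 / log (k + 1) ^ A ≤ m → ∀ x : ℤ,
        ∃ i : ℕ, i < m ∧ Int.gcd (x + i) n = 1 := by
  obtain ⟨y₀, hy⟩ := eventually_atTop.1 ((h (A + 3)).and ((ev_le_log (2 ^ (A + 1) + 1)).and
    ((ev_log_pow_le 1 (A + 3) (ε := 1 / 2) (by norm_num)).and (eventually_ge_atTop 2))))
  have hf : (1 : ℝ) ≤ A.factorial := by exact_mod_cast A.factorial_pos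
  refine ⟨2 * A.factorial * (y₀ + 1), by positivity, fun k hk n hn hω m hm x => ?_⟩
  have hk' : (1 : ℝ) ≤ k := by exact_mod_cast hk
  have hl : 0 < log (k + 1) ^ A := pow_pos (log_pos (by linarith)) A
  have hy0 : (0 : ℝ) ≤ y₀ := Nat.cast_nonneg _
  rw [div_le_iff₀ hl] at hm
  have a1 : ((y₀ : ℝ) + 1) * k ≤ m := by
    have b1 := hm.trans (mul_le_mul_of_nonneg_left (Final_log A hk) (Nat.cast_nonneg m))
    refine le_of_mul_le_mul_right ?_ (show (0 : ℝ) < 2 * A.factorial * k by positivity)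
    linarith
  have a2 : (k : ℝ) ≤ m := by nlinarith
  have a3 : y₀ ≤ m := by
    have : (y₀ : ℝ) ≤ m := by nlinarith
    exact_mod_cast this
  obtain ⟨c1, c2, c3, c4⟩ := hy m a3
  have c4' : (2 : ℝ) ≤ m := by exact_mod_cast c4
  have hm0 : (0 : ℝ) < m := by linarith
  set L := log (m : ℝ) with hL
  have h2A : (0 : ℝ) < 2 ^ (A + 1) := by positivity
  have hL1 : 1 ≤ L := by linarith
  have a4 : log (k + 1) ≤ 2 * L := by
    rw [hL, show 2 * log (m : ℝ) = log ((m : ℝ) ^ 2) by simp]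
    exact log_le_log (by linarith) (by nlinarith)
  have a5 : (k : ℝ) ≤ √m * (2 * L) ^ A := by
    have b1 : (1 : ℝ) ≤ (2 * L) ^ A := one_le_pow₀ (by linarith)
    have b2 : log (k + 1) ^ A ≤ (2 * L) ^ A := pow_le_pow_left₀ (log_nonneg (by linarith)) a4 A
    have b3 : (k : ℝ) ^ 2 ≤ 2 * A.factorial * (y₀ + 1) * (k : ℝ) ^ 2 :=
      le_mul_of_one_le_left (by positivity) (by nlinarith)
    refine (pow_le_pow_iff_left₀ (by positivity) (by positivity) two_ne_zero).1 ?_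
    rw [mul_pow, sq_sqrt hm0.le]
    refine b3.trans (hm.trans (mul_le_mul_of_nonneg_left (b2.trans ?_) hm0.le))
    nlinarith
  have hs : 0 < √(m : ℝ) := sqrt_pos.2 hm0
  have hLb : 0 < L ^ (A + 3) := by positivity
  set z := ⌈√m * L ^ (A + 3)⌉₊ with hz
  have a6 : √m * L ^ (A + 3) ≤ z := Nat.le_ceil _
  have a7 : 1 ≤ z := Nat.one_le_ceil_iff.2 (by positivity)
  have a8 : (m : ℝ) / z + 1 ≤ 2 * (√m / L ^ (A + 3)) := by
    have b1 : (m : ℝ) / z ≤ √m / L ^ (A + 3) := by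
      refine (div_le_div_of_nonneg_left hm0.le (by positivity) a6).trans_eq ?_
      rw [← div_div, div_sqrt]
    have b2 : 1 ≤ √m / L ^ (A + 3) := by
      rw [one_le_div hLb, sqrt_eq_rpow]
      linarith
    linarith
  by_contra hcon
  push Not at hcon
  have hn0 : (n : ℤ) ≠ 0 := by omega
  have a9 := Final_count ((x - 1) % n).toNat m n z a7 (by omega) fun ν hν => by
    obtain ⟨b1, b2⟩ := mem_Icc.1 hν
    obtain ⟨p, hp, hpd⟩ := Nat.exists_prime_and_dvd (hcon (ν - 1) (by omega))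
    have b3 : (p : ℤ) ∣ x + (ν - 1 : ℕ) :=
      (Int.natCast_dvd_natCast.2 hpd).trans (Int.gcd_dvd_left _ _)
    have b4 : (p : ℤ) ∣ n := (Int.natCast_dvd_natCast.2 hpd).trans (Int.gcd_dvd_right _ _)
    refine ⟨p, hp, Int.natCast_dvd_natCast.1 b4, Int.natCast_dvd_natCast.1 ?_⟩
    have e : ((((x - 1) % n).toNat + ν : ℕ) : ℤ) = x + (ν - 1 : ℕ) - n * ((x - 1) / n) := by
      push_cast [b1]
      rw [Int.toNat_of_nonneg (Int.emod_nonneg _ hn0), Int.emod_def]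
      ring
    rw [e]
    exact dvd_sub b3 (b4.mul_right _)
  have a10 : (n.primeFactors.card : ℝ) ≤ √m * (2 * L) ^ A :=
    le_trans (by exact_mod_cast hω) a5
  have a11 := (c1 ((x - 1) % n).toNat).trans (a9.trans
    (mul_le_mul a10 a8 (by positivity) (by positivity)))
  have e : √m * (2 * L) ^ A * (2 * (√m / L ^ (A + 3))) = m / L ^ 2 * (2 ^ (A + 1) / L) := by
    have : √(m : ℝ) * √m = m := mul_self_sqrt hm0.le
    rw [mul_pow]
    field_simp
    rw [sq_sqrt hm0.le]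
    ring
  rw [e] at a11
  have a12 : 2 ^ (A + 1) / L < 1 := (div_lt_one (by linarith)).2 (by linarith)
  have a13 : 0 < m / L ^ 2 := by positivity
  nlinarith

end Vale.Agent.P013
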