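import Vale.Agent.P013.Basic

/-!
Second moment of sums of centred progression counts. Fix a prime `p ∤ k`, `e(u) = exp (2 π i u / p)` (`ZMod.stdAddChar`).
`|gg p k c ν r| ≤ 1` (`abs_gg_le`: `i` runs over one residue class mod `p`). By orthogonality
`gg p k c ν r = ∑ h ≠ 0, γ h * e(h r)`, `γ h = (1 / p) e(-h c) ∑ i ∈ Icc 1 ν, e(h k i)`; the geometric sum is at most
`2 / ‖e(h k) - 1‖ = 1 / |sin (π h k / p)| ≤ p / (2 u)`, `u = |valMinAbs (h k)| ∈ [1, p / 2]` (Jordan: `Real.mul_le_sin`), so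
`‖γ h‖ ≤ 1 / (2 u)`. Parseval: `(1 / p) ∑ r, gg τ r * gg τ' r = ∑ h ≠ 0, γ_τ h * conj (γ_τ' h)`, of size at most
`∑ h ≠ 0, 1 / (4 u u')`. Given `(u, u')` there are at most `2` values of `h` (`h k ≡ ± u`), and then `p ∣ u k' - u' k` or
`p ∣ u k' + u' k`. These integers are nonzero (`hsep`) of size `≤ 2 P Km`, so each has at most `log (2 P Km) / log 2` prime
divisors (`card_mul_log_le`). Summing over `p ∈ B` and `u, u' ∈ Icc 1 ⌊P⌋₊`, an off-diagonal pair contributes at most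
`(1 + log P)² * log (2 P Km) / log 2` (`harmonic_le_one_add_log`); a diagonal pair at most `|B|`.
-/

namespace Vale.Agent.P013

open Finset Real

theorem abs_gg_le {p k : ℕ} (hp : p.Prime) (hk : ¬ p ∣ k) (c ν r : ℕ) : |gg p k c ν r| ≤ 1 := by
  have := Fact.mk hp
  have hk0 : (k : ZMod p) ≠ 0 := fun h => hk ((ZMod.natCast_eq_zero_iff k p).1 h)
  have e : gg p k c ν r = Fe (((r - c : ZMod p) * (k : ZMod p)⁻¹).val) ν p := by
    rw [gg, Fe, cnt]
    refine congrArg (fun s : Finset ℕ => (s.card : ℝ) - (ν : ℝ) / p) (filter_congr fun i _ => ?_)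
    rw [← ZMod.intCast_zmod_eq_zero_iff_dvd, ← ZMod.natCast_eq_zero_iff, ← mul_eq_zero_iff_left hk0
      (b := ((_ + i : ℕ) : ZMod p))]
    push_cast
    rw [ZMod.natCast_zmod_val, mul_add, mul_comm _ (k : ZMod p)⁻¹, mul_inv_cancel_left₀ hk0]
  rw [e]
  exact abs_Fe_le _ _ hp.one_le

/-- the weight `1 / (2 |a|)`, zero at `0` -/
noncomputable def fouraW (a : ℤ) : ℝ := 1 / (2 * |(a : ℝ)|)

theorem fouraW_nonneg (a : ℤ) : 0 ≤ fouraW a := by
  unfold fouraW
  positivity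

theorem foura_sumW (n : ℕ) : ∑ a ∈ Icc (-(n : ℤ)) n, fouraW a = harmonic n := by
  induction n with
  | zero => simp [fouraW]
  | succ n ih =>
    have e : Icc (-((n + 1 : ℕ) : ℤ)) (n + 1 : ℕ) =
        insert ((n : ℤ) + 1) (insert (-((n : ℤ) + 1)) (Icc (-(n : ℤ)) n)) := by
      ext a
      simp only [mem_Icc, mem_insert]
      omega
    rw [e, sum_insert (by simp only [mem_Icc, mem_insert]; omega),
      sum_insert (by simp only [mem_Icc]; omega), ih, harmonic_succ, fouraW, fouraW]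
    push_cast
    rw [abs_neg, abs_of_nonneg (by positivity)]
    field_simp
    ring

section
variable {p : ℕ} [NeZero p]

theorem foura_norm (t : ZMod p) : ‖ZMod.stdAddChar t‖ = 1 := by
  rw [ZMod.stdAddChar_apply, Circle.norm_coe]

theorem foura_low (t : ZMod p) : 4 * |(t.valMinAbs : ℝ)| / p ≤ ‖ZMod.stdAddChar t - 1‖ := by
  have hp : (0 : ℝ) < p := by exact_mod_cast Nat.pos_of_neZero p
  have e : ZMod.stdAddChar t = Complex.exp (Complex.I * (2 * π * t.valMinAbs / p : ℝ)) := by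
    conv_lhs => rw [← t.coe_valMinAbs, ZMod.stdAddChar_coe]
    push_cast
    ring_nf
  have h1 : |(t.valMinAbs : ℝ)| ≤ p / 2 := by
    rw [← Int.cast_abs, ← Nat.cast_natAbs]
    exact (Nat.cast_le.2 t.natAbs_valMinAbs_le).trans (Nat.cast_div_le (α := ℝ))
  have e2 : |2 * π * t.valMinAbs / p / 2| = π * (|(t.valMinAbs : ℝ)| / p) := by
    rw [abs_div, abs_div, abs_mul, abs_of_pos hp, abs_of_pos two_pi_pos, abs_two]
    ring
  have h2 := mul_abs_le_abs_sin (x := 2 * π * t.valMinAbs / p / 2) (by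
    rw [e2, div_eq_mul_one_div π]
    exact mul_le_mul_of_nonneg_left (by rw [div_le_iff₀ hp]; linarith) pi_pos.le)
  rw [e, Complex.norm_exp_I_mul_ofReal_sub_one, norm_mul, Real.norm_eq_abs, Real.norm_eq_abs,
    abs_two]
  refine le_trans (le_of_eq ?_) (mul_le_mul_of_nonneg_left h2 zero_le_two)
  rw [e2]
  field_simp
  ring

theorem foura_geom (z : ℂ) (ν : ℕ) : (z - 1) * ∑ i ∈ Icc 1 ν, z ^ i = z ^ (ν + 1) - z := by
  induction ν with
  | zero => simp
  | succ n ih =>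
    rw [sum_Icc_succ_top (by omega), mul_add, ih]
    ring

/-- Fourier coefficients of `gg` -/
noncomputable def fouraG (k c ν : ℕ) (h : ZMod p) : ℂ :=
  if h = 0 then 0 else
    1 / (p : ℂ) * ZMod.stdAddChar (-(h * c) : ZMod p) * ∑ i ∈ Icc 1 ν, ZMod.stdAddChar (h * k : ZMod p) ^ i

theorem foura_norm_G (k c ν : ℕ) {h : ZMod p} (hk : h ≠ 0 → h * k ≠ 0) :
    ‖fouraG k c ν h‖ ≤ fouraW (h * k).valMinAbs := by
  rw [fouraG]
  split_ifs with h0
  · rw [norm_zero]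
    exact fouraW_nonneg _
  have hp : (0 : ℝ) < p := by exact_mod_cast Nat.pos_of_neZero p
  have ha : 0 < |((h * k).valMinAbs : ℝ)| := by
    rw [abs_pos, Int.cast_ne_zero, Ne, ZMod.valMinAbs_eq_zero]
    exact hk h0
  have h1 := congrArg norm (foura_geom (ZMod.stdAddChar (h * k : ZMod p)) ν)
  have h2 := norm_sub_le (ZMod.stdAddChar (h * k : ZMod p) ^ (ν + 1)) (ZMod.stdAddChar (h * k : ZMod p))
  rw [← h1, norm_mul, norm_pow, foura_norm, one_pow] at h2
  have h3 := (mul_le_mul_of_nonneg_right (foura_low (h * k : ZMod p)) (norm_nonneg _)).trans h2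
  rw [norm_mul, norm_mul, foura_norm, mul_one, norm_div, norm_one, Complex.norm_natCast, fouraW,
    le_div_iff₀ (by positivity)]
  have e : ∀ a b : ℝ, 1 / p * a * (2 * b) = 4 * b / p * a / 2 := fun a b => by ring
  rw [e]
  linarith

theorem foura_expand (k c ν r : ℕ) :
    (gg p k c ν r : ℂ) = ∑ h : ZMod p, fouraG k c ν h * ZMod.stdAddChar (h * r : ZMod p) := by
  have hp : (p : ℂ) ≠ 0 := by exact_mod_cast NeZero.ne p
  have e1 : ∀ i : ℕ, (if (p : ℤ) ∣ (r : ℤ) - c + k * i then (1 : ℂ) else 0) =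
      ∑ h : ZMod p, 1 / (p : ℂ) * ZMod.stdAddChar (-(h * c) : ZMod p) * ZMod.stdAddChar (h * k : ZMod p) ^ i *
        ZMod.stdAddChar (h * r : ZMod p) := by
    intro i
    have e2 : ∀ h : ZMod p, 1 / (p : ℂ) * ZMod.stdAddChar (-(h * c) : ZMod p) *
        ZMod.stdAddChar (h * k : ZMod p) ^ i * ZMod.stdAddChar (h * r : ZMod p) =
        1 / (p : ℂ) * ZMod.stdAddChar (h * (((r : ℤ) - c + k * i : ℤ) : ZMod p)) := by
      intro h
      rw [← AddChar.map_nsmul_eq_pow, mul_assoc, mul_assoc, ← AddChar.map_add_eq_mul,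
        ← AddChar.map_add_eq_mul]
      refine congrArg (fun t => 1 / (p : ℂ) * ZMod.stdAddChar t) ?_
      push_cast
      ring
    simp only [e2]
    rw [← mul_sum, AddChar.sum_mulShift _ (ZMod.isPrimitive_stdAddChar p), ZMod.card]
    simp only [ZMod.intCast_zmod_eq_zero_iff_dvd]
    split_ifs <;> simp [hp]
  have e3 : ∀ h : ZMod p, fouraG k c ν h * ZMod.stdAddChar (h * r : ZMod p) =
      ∑ i ∈ Icc 1 ν, 1 / (p : ℂ) * ZMod.stdAddChar (-(h * c) : ZMod p) * ZMod.stdAddChar (h * k : ZMod p) ^ i *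
        ZMod.stdAddChar (h * r : ZMod p) - if h = 0 then (ν : ℂ) / p else 0 := by
    intro h
    rw [fouraG]
    split_ifs with h0
    · simp [h0, div_eq_mul_inv]
    · rw [sub_zero, mul_sum, sum_mul]
  simp only [e3]
  rw [sum_sub_distrib, sum_comm, sum_ite_eq', if_pos (mem_univ _), gg]
  simp only [← e1, sum_boole]
  push_cast
  rfl

theorem foura_range (f : ZMod p → ℂ) : ∑ r ∈ range p, f r = ∑ x, f x := by
  refine sum_nbij' (fun r => (r : ZMod p)) ZMod.val (by simp) (fun x _ => ?_) (fun r hr => ?_)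
    (by simp) (by simp)
  · exact mem_range.2 x.val_lt
  · exact ZMod.val_cast_of_lt (mem_range.1 hr)

theorem foura_parseval (k c ν k' c' ν' : ℕ) :
    ((1 / (p : ℝ) * ∑ r ∈ range p, gg p k c ν r * gg p k' c' ν' r : ℝ) : ℂ) =
      ∑ h : ZMod p, fouraG k c ν h * fouraG k' c' ν' (-h) := by
  have hp : (p : ℂ) ≠ 0 := by exact_mod_cast NeZero.ne p
  push_cast
  simp only [foura_expand, sum_mul_sum]
  rw [foura_range fun x : ZMod p => ∑ h : ZMod p, ∑ h' : ZMod p,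
    fouraG k c ν h * ZMod.stdAddChar (h * x) * (fouraG k' c' ν' h' * ZMod.stdAddChar (h' * x)),
    sum_comm, mul_sum]
  refine sum_congr rfl fun h _ => ?_
  have e : ∀ h' x : ZMod p, fouraG k c ν h * ZMod.stdAddChar (h * x) *
      (fouraG k' c' ν' h' * ZMod.stdAddChar (h' * x)) =
      fouraG k c ν h * fouraG k' c' ν' h' * ZMod.stdAddChar (x * (h + h')) := by
    intro h' x
    rw [mul_add, AddChar.map_add_eq_mul, mul_comm x, mul_comm x]
    ring
  simp only [e]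
  rw [sum_comm]
  simp only [← mul_sum, AddChar.sum_mulShift _ (ZMod.isPrimitive_stdAddChar p), ZMod.card]
  rw [sum_eq_single (-h)]
  · rw [add_neg_cancel, if_pos rfl]
    field_simp
  · intro h' _ hne
    rw [if_neg fun h0 => hne (eq_neg_of_add_eq_zero_right h0), Nat.cast_zero, mul_zero]
  · exact fun h0 => absurd (mem_univ _) h0

end

theorem foura_prime {p k k' n : ℕ} (hp : p.Prime) (hk : ¬ p ∣ k) (hk' : ¬ p ∣ k') (hn : p / 2 ≤ n)
    (c ν c' ν' : ℕ) : 1 / (p : ℝ) * ∑ r ∈ range p, gg p k c ν r * gg p k' c' ν' r ≤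
      ∑ x ∈ Icc (-(n : ℤ)) n ×ˢ Icc (-(n : ℤ)) n,
        if (p : ℤ) ∣ x.1 * k' + x.2 * k then fouraW x.1 * fouraW x.2 else 0 := by
  have := Fact.mk hp
  have hk0 : (k : ZMod p) ≠ 0 := fun h => hk ((ZMod.natCast_eq_zero_iff k p).1 h)
  have hk1 : (k' : ZMod p) ≠ 0 := fun h => hk' ((ZMod.natCast_eq_zero_iff k' p).1 h)
  have hI : ∀ t : ZMod p, t.valMinAbs ∈ Icc (-(n : ℤ)) n := fun t => by
    have := t.natAbs_valMinAbs_le
    rw [mem_Icc]
    omega
  refine (le_abs_self _).trans ?_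
  rw [← Real.norm_eq_abs, ← Complex.norm_real, foura_parseval, ← sum_filter]
  refine (norm_sum_le _ _).trans ((sum_le_sum (g := fun h : ZMod p =>
    fouraW (h * k).valMinAbs * fouraW (-h * k').valMinAbs) fun h _ => ?_).trans ?_)
  · rw [norm_mul]
    exact mul_le_mul (foura_norm_G _ _ _ fun h0 => mul_ne_zero h0 hk0)
      (foura_norm_G _ _ _ fun h0 => mul_ne_zero h0 hk1) (norm_nonneg _) (fouraW_nonneg _)
  · rw [← sum_image (s := univ) (g := fun h : ZMod p => ((h * k).valMinAbs, (-h * k').valMinAbs))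
      (f := fun x => fouraW x.1 * fouraW x.2) fun a _ b _ h =>
        mul_right_cancel₀ hk0 (ZMod.injective_valMinAbs (congrArg Prod.fst h))]
    refine sum_le_sum_of_subset_of_nonneg (fun x hx => ?_) fun x _ _ =>
      mul_nonneg (fouraW_nonneg _) (fouraW_nonneg _)
    obtain ⟨h, -, rfl⟩ := mem_image.1 hx
    refine mem_filter.2 ⟨mem_product.2 ⟨hI _, hI _⟩, ?_⟩
    rw [← ZMod.intCast_zmod_eq_zero_iff_dvd]
    push_cast
    ring

theorem foura_off (B : Finset ℕ) {k k' : ℕ} {P Km : ℝ} (hP : 1 ≤ P)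
    (hB : ∀ p ∈ B, p.Prime ∧ (p : ℝ) ≤ 2 * P) (hk : (k : ℝ) ≤ Km ∧ ∀ p ∈ B, ¬ p ∣ k)
    (hk' : (k' : ℝ) ≤ Km ∧ ∀ p ∈ B, ¬ p ∣ k')
    (hsep : ∀ u u' : ℕ, 1 ≤ u → (u : ℝ) ≤ P → 1 ≤ u' → (u' : ℝ) ≤ P → u * k' ≠ u' * k)
    (h2 : 1 ≤ 2 * P * Km) (c ν c' ν' : ℕ) :
    ∑ p ∈ B, 1 / (p : ℝ) * ∑ r ∈ range p, gg p k c ν r * gg p k' c' ν' r ≤
      (1 + log P) ^ 2 * (2 * log (2 * P * Km)) := by
  have hL := log_nonneg h2
  have hI : ∀ a ∈ Icc (-(⌊P⌋₊ : ℤ)) ⌊P⌋₊, ((a.natAbs : ℕ) : ℝ) ≤ P := fun a ha => by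
    rw [mem_Icc] at ha
    exact (Nat.le_floor_iff (by linarith)).1 (by omega)
  refine (sum_le_sum fun p hp => foura_prime (n := ⌊P⌋₊) (hB p hp).1 (hk.2 p hp) (hk'.2 p hp)
    (Nat.le_floor ((Nat.cast_div_le (α := ℝ)).trans ?_)) c ν c' ν').trans ?_
  · push_cast
    linarith [(hB p hp).2]
  rw [sum_comm]
  refine (sum_le_sum (g := fun x => fouraW x.1 * fouraW x.2 * (2 * log (2 * P * Km)))
    fun x hx => ?_).trans ?_
  · rw [← sum_filter, sum_const, nsmul_eq_mul, mul_comm]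
    by_cases h0 : x.1 = 0 ∨ x.2 = 0
    · rcases h0 with h0 | h0 <;> simp [h0, fouraW]
    push Not at h0
    refine mul_le_mul_of_nonneg_left ?_ (mul_nonneg (fouraW_nonneg _) (fouraW_nonneg _))
    have a1 := hI _ (mem_product.1 hx).1
    have a2 := hI _ (mem_product.1 hx).2
    have hM : x.1 * k' + x.2 * k ≠ 0 := fun h => by
      refine hsep _ _ (Int.natAbs_pos.2 h0.1) a1 (Int.natAbs_pos.2 h0.2) a2 ?_
      simpa [Int.natAbs_mul] using congrArg Int.natAbs (eq_neg_of_add_eq_zero_left h)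
    have h3 := card_mul_log_le (S := B.filter fun p : ℕ => (p : ℤ) ∣ x.1 * k' + x.2 * k) hM two_pos
      fun p hp => ⟨(hB p (mem_filter.1 hp).1).1, by exact_mod_cast (hB p (mem_filter.1 hp).1).1.two_le,
        (mem_filter.1 hp).2⟩
    have h4 : |((x.1 * k' + x.2 * k : ℤ) : ℝ)| ≤ 2 * P * Km := by
      rw [Nat.cast_natAbs, Int.cast_abs] at a1 a2
      push_cast
      refine (abs_add_le _ _).trans ?_
      rw [abs_mul, abs_mul, Nat.abs_cast, Nat.abs_cast]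
      have b1 := mul_le_mul a1 hk'.1 (Nat.cast_nonneg _) (by linarith)
      have b2 := mul_le_mul a2 hk.1 (Nat.cast_nonneg _) (by linarith)
      linarith
    have h5 := h3.trans (log_le_log (abs_pos.2 (Int.cast_ne_zero.2 hM)) h4)
    have h6 := mul_le_mul_of_nonneg_left (show 1 / 2 ≤ log 2 by linarith [log_two_gt_d9])
      (Nat.cast_nonneg (α := ℝ) (B.filter fun p : ℕ => (p : ℤ) ∣ x.1 * k' + x.2 * k).card)
    linarith
  · rw [← sum_mul, sum_product, ← sum_mul_sum, foura_sumW, ← sq]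
    refine mul_le_mul_of_nonneg_right (pow_le_pow_left₀ ?_ ?_ 2) (by positivity)
    · rw [← foura_sumW]
      exact sum_nonneg fun a _ => fouraW_nonneg a
    · refine (harmonic_le_one_add_log _).trans (add_le_add le_rfl (log_le_log ?_ ?_))
      · exact_mod_cast Nat.floor_pos.2 hP
      · exact Nat.floor_le (by linarith)

theorem second_moment {α : Type} (B : Finset ℕ) (T : Finset α) (k c ν : α → ℕ) {P Km : ℝ}
    (hP : 1 ≤ P) (hKm : 1 ≤ Km) (hB : ∀ p ∈ B, p.Prime ∧ (p : ℝ) ≤ 2 * P)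
    (hk : ∀ τ ∈ T, (k τ : ℝ) ≤ Km ∧ ∀ p ∈ B, ¬ p ∣ k τ)
    (hsep : ∀ τ ∈ T, ∀ τ' ∈ T, τ ≠ τ' → ∀ u u' : ℕ, 1 ≤ u → (u : ℝ) ≤ P → 1 ≤ u' →
      (u' : ℝ) ≤ P → u * k τ' ≠ u' * k τ) :
    ∑ p ∈ B, 1 / (p : ℝ) * ∑ r ∈ range p, (∑ τ ∈ T, gg p (k τ) (c τ) (ν τ) r) ^ 2 ≤
      B.card * T.card + (T.card : ℝ) ^ 2 * (1 + log P) ^ 2 * (2 * log (2 * P * Km)) := by
  classical
  have hl : 0 ≤ log P := log_nonneg hP
  have h2 : 1 ≤ 2 * P * Km := by nlinarith
  have hX : 0 ≤ (1 + log P) ^ 2 * (2 * log (2 * P * Km)) := by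
    have := log_nonneg h2
    positivity
  have key : ∀ τ ∈ T, ∀ τ' ∈ T, ∑ p ∈ B, 1 / (p : ℝ) * ∑ r ∈ range p,
      gg p (k τ) (c τ) (ν τ) r * gg p (k τ') (c τ') (ν τ') r ≤
      (if τ = τ' then (B.card : ℝ) else 0) + (1 + log P) ^ 2 * (2 * log (2 * P * Km)) := by
    intro τ hτ τ' hτ'
    split_ifs with h
    · subst h
      refine le_trans ?_ (le_add_of_nonneg_right hX)
      rw [card_eq_sum_ones, Nat.cast_sum]
      refine sum_le_sum fun p hp => ?_
      have hp0 : (0 : ℝ) < p := by exact_mod_cast (hB p hp).1.pos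
      rw [one_div, inv_mul_le_iff₀ hp0, Nat.cast_one, mul_one]
      refine (sum_le_card_nsmul _ _ 1 fun r _ => ?_).trans (by simp)
      exact abs_le_one_iff_mul_self_le_one.1 (abs_gg_le (hB p hp).1 ((hk τ hτ).2 p hp) _ _ _)
    · rw [zero_add]
      exact foura_off B hP hB (hk τ hτ) (hk τ' hτ') (hsep τ hτ τ' hτ' h) h2 _ _ _ _
  simp only [sq (∑ τ ∈ T, _), sum_mul_sum]
  calc _ = ∑ τ ∈ T, ∑ τ' ∈ T, ∑ p ∈ B, 1 / (p : ℝ) * ∑ r ∈ range p,
        gg p (k τ) (c τ) (ν τ) r * gg p (k τ') (c τ') (ν τ') r := by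
        simp only [mul_sum]
        rw [sum_congr rfl fun p _ => sum_comm, sum_comm]
        refine sum_congr rfl fun τ _ => ?_
        rw [sum_congr rfl fun p _ => sum_comm, sum_comm]
    _ ≤ _ := sum_le_sum fun τ hτ => sum_le_sum fun τ' hτ' => key τ hτ τ' hτ'
    _ = _ := by
        simp only [sum_add_distrib, sum_ite_eq, sum_const, nsmul_eq_mul]
        rw [sum_congr rfl fun τ hτ => if_pos hτ, sum_const, nsmul_eq_mul]
        ring

end Vale.Agent.P013
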