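import Vale.Agent.P013.Basic

/-! Sums over the hyperbolic region `m d ≤ N`. -/

namespace Vale.Agent.P013

open Finset Real
open scoped ArithmeticFunction.vonMangoldt

theorem hall_antidiag (N : ℕ) (F : ℕ → ℕ → ℝ) :
    ∑ k ∈ Icc 1 N, ∑ x ∈ k.divisorsAntidiagonal, F x.1 x.2 =
      ∑ m ∈ Icc 1 N, ∑ d ∈ Icc 1 (N / m), F m d := by
  rw [sum_sigma', sum_sigma']
  refine sum_nbij' (fun z => ⟨z.2.1, z.2.2⟩) (fun z => ⟨z.1 * z.2, (z.1, z.2)⟩) ?_ ?_ ?_ ?_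
    fun _ _ => rfl
  · rintro ⟨k, m, d⟩ h
    simp only [mem_sigma, mem_Icc, Nat.mem_divisorsAntidiagonal] at h ⊢
    obtain ⟨⟨h1, h2⟩, rfl, -⟩ := h
    have hm : 0 < m := Nat.pos_of_mul_pos_right h1
    have hd : 0 < d := Nat.pos_of_mul_pos_left h1
    exact ⟨⟨hm, (Nat.le_mul_of_pos_right m hd).trans h2⟩, hd,
      (Nat.le_div_iff_mul_le hm).2 (by rwa [mul_comm])⟩
  · rintro ⟨m, d⟩ h
    simp only [mem_sigma, mem_Icc, Nat.mem_divisorsAntidiagonal, true_and] at h ⊢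
    obtain ⟨⟨h1, -⟩, h2, h3⟩ := h
    have := Nat.mul_pos h1 h2
    exact ⟨⟨this, by rw [mul_comm]; exact (Nat.le_div_iff_mul_le h1).1 h3⟩, this.ne'⟩
  · rintro ⟨k, m, d⟩ h
    simp only [mem_sigma, mem_Icc, Nat.mem_divisorsAntidiagonal] at h
    obtain ⟨-, rfl, -⟩ := h
    rfl
  · rintro ⟨m, d⟩ _
    rfl

theorem hall_swap (N : ℕ) (F : ℕ → ℕ → ℝ) :
    ∑ m ∈ Icc 1 N, ∑ d ∈ Icc 1 (N / m), F m d = ∑ d ∈ Icc 1 N, ∑ m ∈ Icc 1 (N / d), F m d := by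
  refine sum_comm' fun m d => ?_
  simp only [mem_Icc]
  constructor
  · rintro ⟨⟨h1, -⟩, h2, h3⟩
    have h4 := (Nat.le_div_iff_mul_le h1).1 h3
    exact ⟨⟨h1, (Nat.le_div_iff_mul_le h2).2 (by rwa [mul_comm])⟩, h2,
      (Nat.le_mul_of_pos_right d h1).trans h4⟩
  · rintro ⟨⟨h1, h3⟩, h2, -⟩
    have h4 := (Nat.le_div_iff_mul_le h2).1 h3
    exact ⟨⟨h1, (Nat.le_mul_of_pos_right m h2).trans h4⟩, h2,
      (Nat.le_div_iff_mul_le h1).2 (by rwa [mul_comm])⟩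

theorem hall_log (N : ℕ) (f : ℕ → ℝ) :
    ∑ k ∈ Icc 1 N, f k * log k = ∑ m ∈ Icc 1 N, ∑ d ∈ Icc 1 (N / m), Λ d * f (m * d) := by
  rw [← hall_antidiag N fun m d => Λ d * f (m * d)]
  refine sum_congr rfl fun k _ => ?_
  rw [Nat.sum_divisorsAntidiagonal' (f := fun m d => Λ d * f (m * d)),
    ← ArithmeticFunction.vonMangoldt_sum, mul_sum]
  refine sum_congr rfl fun d hd => ?_
  rw [Nat.div_mul_cancel (Nat.dvd_of_mem_divisors hd), mul_comm]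

end Vale.Agent.P013
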