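import Vale.Agent.P013.Euler
import Vale.Agent.Lib.NT.PNT
import Vale.Agent.P013.HallAux

/-!
A Hall type mean value bound with constant `1 + ε`. Write `h = hl a b S`, `0 ≤ h ≤ 1`, `H = ∑ k ≤ t, h k`,
`E = ∏ p ∈ PR 1 t \ S, (1 - 1 / p)⁻¹`; `euler_le` gives `∑ k ≤ t, h k / k ≤ E`. Fix a small `e > 0` with
`(e + (1 + e) ^ 2) / (1 - e) ≤ 1 + ε` (for instance `e = min ε 1 / 10`).
`H log t = ∑ h k log (t / k) + ∑ h k log k`.
(1) `log u ≤ e u + log (1 / e)`, so the first sum is at most `e t E + log (1 / e) H`.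
(2) `log k = ∑ d ∣ k, Λ d` (`ArithmeticFunction.vonMangoldt_sum`), so the second sum is the sum of
`Λ d * h (d m)` over `d m ≤ t`. Let `T ≥ 5`, `2 / T ≤ e`. For `d = p ^ j` with `p > T`:
`h (d m) ≤ (1 + e) h m` (the factors at primes `≠ p` agree; at `p ∈ S` the factor is `a p` against `a p` or
`b p`). By `Vale.Agent.Lib.NT.psi_pnt`, `ψ u ≤ (1 + e) u + C₁` for all `u ≥ 0`; these `d` contribute at most
`(1 + e) ∑ m ≤ t, h m ψ (t / m) ≤ (1 + e) ^ 2 t E + 2 C₁ H`.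
For `d = p ^ j` with `p ≤ T` and `d ≤ log t ^ 3`: for each such `d` the `k = d m` are distinct, so the
contribution is at most `H * ∑ Λ d ≤ H * T * (log T) * (3 log log t / log 2 + 1)`; more simply the number of such
prime powers is at most `T * (3 log log t / log 2 + 1)`.
For `d = p ^ j > log t ^ 3`, `p ≤ T`: use `h ≤ 1`: at most `∑ Λ d * t / d ≤ T * log T * 2 t / log t ^ 3`
(geometric series for each `p`).
For large `t` the terms with `H` on the right are at most `e H log t`, and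
`2 T log T * t / log t ^ 3 ≤ (1 - e) t / log t`. Divide by `(1 - e) log t`.
-/

namespace Vale.Agent.P013

open Finset Real

open scoped ArithmeticFunction.vonMangoldt

theorem hall_shift {S : Finset ℕ} {a b : ℕ → ℝ} {e : ℝ} {T : ℕ} (he : 0 ≤ e)
    (h : ∀ p ∈ S, p.Prime ∧ 0 ≤ a p ∧ 0 ≤ b p ∧ (T < p → a p ≤ (1 + e) * b p)) {d : ℕ}
    (hd : IsPrimePow d) (hT : T < d.minFac) (m : ℕ) :
    hl a b S (m * d) ≤ (1 + e) * hl a b S m := by
  obtain ⟨p, k, hp, hk, rfl⟩ := (isPrimePow_nat_iff d).1 hd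
  rw [hp.pow_minFac hk.ne'] at hT
  have h0 : 0 ≤ hl a b S m := hl_nonneg (fun q hq => ⟨(h q hq).2.1, (h q hq).2.2.1⟩) m
  have h1 : hl a b S (m * p ^ k) ≤
      ∏ q ∈ S, ((if q = p then 1 + e else 1) * if q ∣ m then a q else b q) := by
    refine prod_le_prod (fun q hq => ?_) fun q hq => ?_
    · split_ifs
      exacts [(h q hq).2.1, (h q hq).2.2.1]
    · obtain ⟨hq1, hq2, hq3, hq4⟩ := h q hq
      by_cases hqp : q = p
      · subst hqp
        rw [if_pos (Dvd.dvd.mul_left (dvd_pow_self q hk.ne') m), if_pos rfl]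
        split_ifs
        · nlinarith
        · exact hq4 hT
      · have hc : q.Coprime (p ^ k) := ((Nat.coprime_primes hq1 hp).2 hqp).pow_right k
        simp only [hc.dvd_mul_right, if_neg hqp, one_mul, le_refl]
  rw [prod_mul_distrib, prod_ite_eq'] at h1
  refine h1.trans (mul_le_mul_of_nonneg_right ?_ h0)
  split_ifs
  · exact le_rfl
  · linarith

theorem hall_psi {e : ℝ} (he : 0 < e) :
    ∃ C : ℝ, 0 ≤ C ∧ ∀ u : ℝ, 0 ≤ u → Chebyshev.psi u ≤ (1 + e) * u + C := by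
  obtain ⟨x, hx⟩ := Filter.eventually_atTop.1 ((Vale.Agent.Lib.NT.psi_pnt.eventually
    (ge_mem_nhds (show (1 : ℝ) < 1 + e by linarith))).and (Filter.eventually_gt_atTop 0))
  refine ⟨Chebyshev.psi x, Chebyshev.psi_nonneg x, fun u hu => ?_⟩
  rcases le_total x u with h | h
  · have := (div_le_iff₀ (hx u h).2).1 (hx u h).1
    linarith [Chebyshev.psi_nonneg x]
  · have := Chebyshev.psi_mono h
    nlinarith

theorem hall_geo {A : ℕ → ℝ} {H t : ℝ} (ht : 0 ≤ t) (h0 : ∀ d, 0 ≤ A d) (h1 : ∀ d, A d ≤ H)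
    (h2 : ∀ d, 0 < d → A d ≤ t / d) (N T J : ℕ) :
    ∑ d ∈ (Icc 1 N).filter (fun d => IsPrimePow d ∧ d.minFac ≤ T), A d ≤
      T * (J * H + 2 * t / 2 ^ J) := by
  have hH : 0 ≤ H := (h0 0).trans (h1 0)
  have hs : (Icc 1 N).filter (fun d => IsPrimePow d ∧ d.minFac ≤ T) ⊆
      (Icc 2 T ×ˢ range (N + 1)).image fun x => x.1 ^ x.2 := by
    intro d hd
    obtain ⟨hd1, hd2, hd3⟩ := mem_filter.1 hd
    obtain ⟨p, k, hp, hk, rfl⟩ := (isPrimePow_nat_iff d).1 hd2
    rw [hp.pow_minFac hk.ne'] at hd3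
    refine mem_image.2 ⟨(p, k), mem_product.2 ⟨mem_Icc.2 ⟨hp.two_le, hd3⟩, mem_range.2 ?_⟩, rfl⟩
    have := Nat.lt_pow_self (n := k) hp.one_lt
    have := (mem_Icc.1 hd1).2
    omega
  refine (sum_le_sum_of_subset_of_nonneg hs fun d _ _ => h0 d).trans
    ((sum_image_le_of_nonneg fun d _ => h0 d).trans ?_)
  rw [sum_product]
  refine (sum_le_card_nsmul _ _ (J * H + 2 * t / 2 ^ J) fun p hp => ?_).trans ?_
  · have hp2 : 2 ≤ p := (mem_Icc.1 hp).1
    have h3 : range (N + 1) ⊆ range J ∪ Ico J (N + 1) := fun j hj => by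
      simp only [mem_union, mem_range, mem_Ico] at hj ⊢
      omega
    have h4 : ∑ j ∈ range J, A (p ^ j) ≤ J * H := by
      simpa using sum_le_card_nsmul (range J) (fun j => A (p ^ j)) H fun j _ => h1 _
    have h5 : ∑ j ∈ Ico J (N + 1), A (p ^ j) ≤ 2 * t / 2 ^ J := by
      have h6 := geom_sum_Ico_le_of_lt_one (x := (1 / 2 : ℝ)) (m := J) (n := N + 1)
        (by norm_num) (by norm_num)
      calc ∑ j ∈ Ico J (N + 1), A (p ^ j) ≤ ∑ j ∈ Ico J (N + 1), t * (1 / 2) ^ j := by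
            refine sum_le_sum fun j _ => (h2 _ (by positivity)).trans ?_
            have : (2 : ℝ) ^ j ≤ ((p ^ j : ℕ) : ℝ) := by exact_mod_cast Nat.pow_le_pow_left hp2 j
            rw [one_div_pow, mul_one_div]
            exact div_le_div_of_nonneg_left ht (by positivity) this
        _ ≤ t * ((1 / 2) ^ J / (1 - 1 / 2)) := by
            rw [← mul_sum]
            exact mul_le_mul_of_nonneg_left h6 ht
        _ = _ := by
            rw [one_div_pow]
            field_simp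
            norm_num
    have h6 := sum_le_sum_of_subset_of_nonneg (f := fun j => A (p ^ j)) h3 fun j _ _ => h0 _
    rw [sum_union (by
      rw [disjoint_left]
      intro j h7 h8
      simp only [mem_range, mem_Ico] at h7 h8
      omega)] at h6
    simp only
    linarith
  · rw [nsmul_eq_mul, Nat.card_Icc]
    refine mul_le_mul_of_nonneg_right (by exact_mod_cast (show T + 1 - 2 ≤ T by omega)) ?_
    positivity

theorem hall_main {h : ℕ → ℝ} {e C t E : ℝ} {T : ℕ} (he : 0 < e) (ht : 1 ≤ t) (hT : 1 ≤ T)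
    (h0 : ∀ k, 0 ≤ h k) (h1 : ∀ k, h k ≤ 1) (hE : ∑ k ∈ Icc 1 ⌊t⌋₊, h k / k ≤ E)
    (hC : ∀ u : ℝ, 0 ≤ u → Chebyshev.psi u ≤ (1 + e) * u + C)
    (hs : ∀ d, IsPrimePow d → T < d.minFac → ∀ m, h (m * d) ≤ (1 + e) * h m) (J : ℕ) :
    (∑ k ∈ Icc 1 ⌊t⌋₊, h k) * log t ≤ (e + (1 + e) ^ 2) * t * E +
      (-log e + (1 + e) * C + T * log T * J) * (∑ k ∈ Icc 1 ⌊t⌋₊, h k) +
        T * log T * (2 * t / 2 ^ J) := by
  set N := ⌊t⌋₊ with hN
  set H := ∑ k ∈ Icc 1 N, h k with hH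
  have ht0 : 0 < t := by linarith
  have hNt : (N : ℝ) ≤ t := Nat.floor_le ht0.le
  have hlT : 0 ≤ log (T : ℝ) := log_nonneg (by exact_mod_cast hT)
  have e1 : H * log t ≤ e * t * (∑ k ∈ Icc 1 N, h k / k) + -log e * H +
      ∑ k ∈ Icc 1 N, h k * log k := by
    rw [hH, sum_mul, mul_sum, mul_sum, ← sum_add_distrib, ← sum_add_distrib]
    refine sum_le_sum fun k hk => ?_
    have hk0 : (0 : ℝ) < k := by exact_mod_cast (mem_Icc.1 hk).1
    have h2 := log_le_sub_one_of_pos (show 0 < e * t / k by positivity)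
    rw [log_div (by positivity) hk0.ne', log_mul he.ne' ht0.ne'] at h2
    have h3 := mul_le_mul_of_nonneg_left (show log t ≤ e * t / k - log e + log k by linarith) (h0 k)
    refine h3.trans_eq ?_
    ring
  have e2 : ∑ k ∈ Icc 1 N, h k * log k ≤
      (∑ m ∈ Icc 1 N, ∑ d ∈ Icc 1 (N / m), Λ d * ((1 + e) * h m)) +
      ∑ m ∈ Icc 1 N, ∑ d ∈ Icc 1 (N / m),
        (if IsPrimePow d ∧ d.minFac ≤ T then log T * h (m * d) else 0) := by
    rw [hall_log, ← sum_add_distrib]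
    refine sum_le_sum fun m _ => ?_
    rw [← sum_add_distrib]
    refine sum_le_sum fun d _ => ?_
    have hΛ : 0 ≤ Λ d := ArithmeticFunction.vonMangoldt_nonneg
    have h2 : 0 ≤ Λ d * ((1 + e) * h m) := mul_nonneg hΛ (mul_nonneg (by linarith) (h0 m))
    split_ifs with h3
    · have h4 : Λ d ≤ log T := by
        rw [ArithmeticFunction.vonMangoldt_apply, if_pos h3.1]
        exact log_le_log (by exact_mod_cast d.minFac_pos) (by exact_mod_cast h3.2)
      linarith [mul_le_mul_of_nonneg_right h4 (h0 (m * d))]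
    · by_cases h4 : IsPrimePow d
      · rw [add_zero]
        exact mul_le_mul_of_nonneg_left (hs d h4 (not_le.1 fun h5 => h3 ⟨h4, h5⟩) m) hΛ
      · simp [ArithmeticFunction.vonMangoldt_apply, h4]
  have e3 : ∑ m ∈ Icc 1 N, ∑ d ∈ Icc 1 (N / m), Λ d * ((1 + e) * h m) ≤
      (1 + e) ^ 2 * t * (∑ k ∈ Icc 1 N, h k / k) + (1 + e) * C * H := by
    rw [hH, mul_sum, mul_sum, ← sum_add_distrib]
    refine sum_le_sum fun m hm => ?_
    have h2 := hC (t / m) (by positivity)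
    rw [Vale.Agent.Lib.NT.psi_eq_sum_Icc_one, Nat.floor_div_natCast] at h2
    rw [← sum_mul]
    refine (mul_le_mul_of_nonneg_right h2 (mul_nonneg (by linarith) (h0 m))).trans_eq ?_
    ring
  have e4 : ∑ m ∈ Icc 1 N, ∑ d ∈ Icc 1 (N / m),
      (if IsPrimePow d ∧ d.minFac ≤ T then log T * h (m * d) else 0) ≤
      log T * (T * (J * H + 2 * t / 2 ^ J)) := by
    have h2 := hall_geo (A := fun d => if d = 0 then 0 else ∑ m ∈ Icc 1 (N / d), h (m * d))
      (H := H) ht0.le (fun d => ?_) (fun d => ?_) (fun d hd => ?_) N T J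
    · refine le_trans (le_of_eq ?_) (mul_le_mul_of_nonneg_left h2 hlT)
      rw [hall_swap, sum_filter, mul_sum]
      refine sum_congr rfl fun d hd => ?_
      have hd0 : d ≠ 0 := by have := (mem_Icc.1 hd).1; omega
      split_ifs
      · rw [mul_sum]
      · simp
    · split_ifs
      exacts [le_rfl, sum_nonneg fun m _ => h0 _]
    · split_ifs with hd
      · exact sum_nonneg fun m _ => h0 _
      · have hd' := Nat.pos_of_ne_zero hd
        rw [← sum_image (f := h) fun x _ y _ hxy => Nat.eq_of_mul_eq_mul_right hd' hxy]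
        refine sum_le_sum_of_subset_of_nonneg (fun k hk => ?_) fun k _ _ => h0 k
        obtain ⟨m, hm, rfl⟩ := mem_image.1 hk
        exact mem_Icc.2 ⟨Nat.mul_pos (mem_Icc.1 hm).1 hd',
          (Nat.le_div_iff_mul_le hd').1 (mem_Icc.1 hm).2⟩
    · rw [if_neg hd.ne']
      refine (sum_le_card_nsmul _ _ 1 fun m _ => h1 _).trans ?_
      rw [Nat.card_Icc, Nat.add_sub_cancel, nsmul_eq_mul, mul_one]
      exact Nat.cast_div_le.trans (div_le_div_of_nonneg_right hNt (Nat.cast_nonneg d))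
  have e5 := mul_le_mul_of_nonneg_left hE (show 0 ≤ (e + (1 + e) ^ 2) * t by positivity)
  linarith

theorem hall_num {e c B s : ℝ} (he : 0 < e) (he1 : e ≤ 1 / 10) (hB : 0 ≤ B) (h1 : 1 ≤ s)
    (h2 : (|c| + 2 * B) / e ≤ s) (h3 : 110 * B ≤ s) :
    c + B * ⌈s⌉₊ ≤ e * s ^ 2 ∧ B * (2 / 2 ^ ⌈s⌉₊) ≤ (1 - e) / s ^ 2 := by
  have hJ := Nat.ceil_lt_add_one (show 0 ≤ s by linarith)
  have hJ' := Nat.le_ceil s
  constructor
  · rw [div_le_iff₀ he] at h2
    have h4 : c ≤ |c| * s := (le_abs_self c).trans (le_mul_of_one_le_right (abs_nonneg c) h1)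
    have h5 := mul_le_mul_of_nonneg_right h2 (show 0 ≤ s by linarith)
    have h6 := mul_le_mul_of_nonneg_left (show (⌈s⌉₊ : ℝ) ≤ 2 * s by linarith) hB
    nlinarith
  · have h4 : (s / 2) ^ 3 / (Nat.factorial 3 : ℕ) ≤ exp (s / 2) :=
      pow_div_factorial_le_exp _ (by linarith) 3
    have h5 : exp (s / 2) ≤ 2 ^ ⌈s⌉₊ := by
      rw [← exp_log (show (0 : ℝ) < 2 ^ ⌈s⌉₊ by positivity), log_pow, exp_le_exp]
      have := log_two_gt_d9
      nlinarith
    have h6 : s ^ 3 / 48 ≤ 2 ^ ⌈s⌉₊ := by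
      refine le_trans (le_of_eq ?_) (h4.trans h5)
      norm_num [Nat.factorial]
      ring
    rw [← mul_div_assoc, div_le_div_iff₀ (by positivity) (by positivity)]
    have h7 := mul_le_mul_of_nonneg_left h6 (show 0 ≤ 1 - e by linarith)
    have h8 := mul_le_mul_of_nonneg_right h3 (sq_nonneg s)
    have h9 := mul_le_mul_of_nonneg_right he1 (show 0 ≤ s ^ 3 by positivity)
    nlinarith [mul_nonneg hB (sq_nonneg s)]

theorem hall {ε : ℝ} (hε : 0 < ε) : ∃ t₀ : ℝ, ∀ t : ℝ, t₀ ≤ t → ∀ (S : Finset ℕ) (a b : ℕ → ℝ),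
    (∀ p ∈ S, p.Prime ∧ 0 ≤ a p ∧ a p ≤ 1 ∧ 0 ≤ b p ∧ b p + a p / ((p : ℝ) - 1) ≤ 1 ∧
      (5 ≤ p → a p ≤ (1 + 2 / (p : ℝ)) * b p)) →
    ∑ k ∈ Icc 1 ⌊t⌋₊, hl a b S k ≤
      (1 + ε) * (t / log t) * ∏ p ∈ PR 1 t \ S, (1 - 1 / (p : ℝ))⁻¹ + t / log t ^ 2 := by
  set e := min ε 1 / 10 with he
  have he0 : 0 < e := by positivity
  have he1 : e ≤ 1 / 10 := by linarith [min_le_right ε 1]
  have he2 : e ≤ ε / 10 := by linarith [min_le_left ε 1]
  obtain ⟨C, -, hC⟩ := hall_psi he0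
  obtain ⟨T, hT⟩ := exists_nat_ge (max 5 (2 / e))
  have hT5 : 5 ≤ T := by exact_mod_cast (le_max_left _ _).trans hT
  have hTe : 2 / e ≤ T := (le_max_right _ _).trans hT
  set B := T * log (T : ℝ) with hB
  have hB0 : 0 ≤ B := mul_nonneg T.cast_nonneg (log_natCast_nonneg T)
  set c := -log e + (1 + e) * C with hc
  set s₀ := max 1 (max ((|c| + 2 * B) / e) (110 * B)) with hs₀
  refine ⟨exp (s₀ ^ 2), fun t ht S a b h => ?_⟩
  have ht1 : 1 ≤ t := (one_le_exp (sq_nonneg _)).trans ht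
  have hL : s₀ ^ 2 ≤ log t := (le_log_iff_exp_le (by linarith)).2 ht
  have hs : s₀ ≤ √(log t) := le_sqrt_of_sq_le hL
  obtain ⟨n1, n2⟩ := hall_num (c := c) he0 he1 hB0 ((le_max_left _ _).trans hs)
    ((le_max_left _ _).trans ((le_max_right _ _).trans hs))
    ((le_max_right _ _).trans ((le_max_right _ _).trans hs))
  rw [sq_sqrt (log_nonneg ht1)] at n1 n2
  have hL0 : 0 < log t := by
    have : 1 ≤ s₀ := le_max_left _ _
    nlinarith
  have hq : ∀ p ∈ S, 0 ≤ a p / ((p : ℝ) - 1) := fun p hp => div_nonneg (h p hp).2.1 (by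
    have : (1 : ℝ) ≤ p := by exact_mod_cast (h p hp).1.one_le
    linarith)
  have h0 : ∀ k, 0 ≤ hl a b S k := hl_nonneg fun p hp => ⟨(h p hp).2.1, (h p hp).2.2.2.1⟩
  have h1 : ∀ k, hl a b S k ≤ 1 := fun k => prod_le_one (fun p hp => by
    split_ifs
    exacts [(h p hp).2.1, (h p hp).2.2.2.1]) fun p hp => by
    split_ifs
    · exact (h p hp).2.2.1
    · linarith [(h p hp).2.2.2.2.1, hq p hp]
  set E := ∏ p ∈ PR 1 t \ S, (1 - 1 / (p : ℝ))⁻¹ with hE
  have hE0 : 0 ≤ E := prod_nonneg fun p hp => by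
    have : (1 : ℝ) ≤ p := by exact_mod_cast (prime_of_mem_PR (mem_sdiff.1 hp).1).one_le
    exact inv_nonneg.2 (sub_nonneg.2 (div_le_one_of_le₀ this (by linarith)))
  have hEu : ∑ m ∈ Icc 1 ⌊t⌋₊, hl a b S m / m ≤ E :=
    (euler_le (fun p hp => ⟨(h p hp).1, (h p hp).2.1, (h p hp).2.2.2.1⟩) (by linarith)).trans
      (mul_le_of_le_one_left hE0 (prod_le_one
        (fun p hp => add_nonneg (h p hp).2.2.2.1 (hq p hp)) fun p hp => (h p hp).2.2.2.2.1))
  have key := hall_main he0 ht1 (show 1 ≤ T by omega) h0 h1 hEu hC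
    (fun d hd hd' m => hall_shift he0.le (fun p hp => ⟨(h p hp).1, (h p hp).2.1, (h p hp).2.2.2.1,
      fun hp' => ((h p hp).2.2.2.2.2 (by omega)).trans (mul_le_mul_of_nonneg_right (by
        have h2 : (T : ℝ) ≤ p := by exact_mod_cast hp'.le
        have h3 : (0 : ℝ) < p := by exact_mod_cast (h p hp).1.pos
        rw [div_le_iff₀ he0] at hTe
        rw [add_le_add_iff_left, div_le_iff₀ h3]
        nlinarith) (h p hp).2.2.2.1)⟩) hd hd' m) ⌈√(log t)⌉₊
  rw [← hB, ← hc] at key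
  set H := ∑ k ∈ Icc 1 ⌊t⌋₊, hl a b S k
  have hH : 0 ≤ H := sum_nonneg fun k _ => h0 k
  have k1 := mul_le_mul_of_nonneg_right n1 hH
  have k2 := mul_le_mul_of_nonneg_right n2 (show 0 ≤ t by linarith)
  have k3 : e + (1 + e) ^ 2 ≤ (1 + ε) * (1 - e) := by nlinarith
  have k4 := mul_le_mul_of_nonneg_right k3 (show 0 ≤ t * E by positivity)
  have k5 : B * (2 * t / 2 ^ ⌈√(log t)⌉₊) = B * (2 / 2 ^ ⌈√(log t)⌉₊) * t := by ring
  refine le_of_mul_le_mul_right ?_ (mul_pos (show 0 < 1 - e by linarith) hL0)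
  have k6 : ((1 + ε) * (t / log t) * E + t / log t ^ 2) * ((1 - e) * log t) =
      (1 + ε) * (1 - e) * (t * E) + (1 - e) / log t * t := by
    field_simp
  rw [k6]
  linarith

end Vale.Agent.P013
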