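import Vale.Agent.P013.Basic

/-!
Rich lines. Points `(m, nn x m)`, `1 ≤ m ≤ y`, `-y < nn x m ≤ 0`, `m ∣ x + nn x m`. For `m ≠ m'` let
`ℓ m m' = {m'' ∈ Icc 1 y : det3 x m m' m'' = 0} ∋ m, m'`; if `m₁ ≠ m₂` lie in `ℓ m m'` then `ℓ m₁ m₂ = ℓ m m'`. Let `𝔏` be the finite family
of those sets `ℓ m m'` with at least `ρ` elements. Distinct members of `𝔏` share no pair of distinct points, and each has
at least `ρ (ρ - 1)` ordered pairs (`offDiag`), so `|𝔏| ρ (ρ - 1) ≤ y²`. For `ℓ ∈ 𝔏` with least and greatest element `m₀ < m₁`, write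
`(m₁ - m₀, nn m₁ - nn m₀) = g₀ (α, β)` with `gcd (α, β) = 1`, `α ≥ 1`. Every `m ∈ ℓ` has `α (nn m - nn m₀) = β (m - m₀)`, so
`α ∣ m - m₀`, `|ℓ| - 1 ≤ (m₁ - m₀) / α`; hence `α ≤ y / (ρ - 1) = Δ`, `m₁ - m₀ ≥ ρ - 1`, `|β| / α ≤ y / (ρ - 1)`, `|β| ≤ Δ²`. With
`γ' = α nn m₀ - β m₀`, `|γ'| ≤ Δ y + Δ² y` and `α x + γ' = α (x + nn m) - β m` is divisible by each `m ∈ ℓ`. Let `g = gcd (α, γ') ≤ Δ`;
the centre of `ℓ` is `(α / g, γ' / g)`. If `a ∣ m` has only prime factors `> Δ` then `a` is coprime to `g`, and divides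
`(α / g) x + γ' / g`. Choose a centre for each `ℓ ∈ 𝔏` (`choose`) and take the image.
-/

namespace Vale.Agent.P013

open Finset Real

theorem Lines_col {x m m' a b c : ℕ} (h : m ≠ m') (ha : det3 x m m' a = 0)
    (hb : det3 x m m' b = 0) (hc : det3 x m m' c = 0) : det3 x a b c = 0 := by
  have hu : (m' : ℤ) - m ≠ 0 := sub_ne_zero.2 (by exact_mod_cast h.symm)
  refine (mul_eq_zero.1 ?_).resolve_left hu
  unfold det3 at *
  linear_combination ((b : ℤ) - a) * (hc - ha) - ((c : ℤ) - a) * (hb - ha)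

theorem Lines_left (x m m' : ℕ) : det3 x m m' m = 0 := by unfold det3; ring

theorem Lines_right (x m m' : ℕ) : det3 x m m' m' = 0 := by unfold det3; ring

theorem Lines_iff {x m m' a b : ℕ} (h : m ≠ m') (hab : a ≠ b) (ha : det3 x m m' a = 0)
    (hb : det3 x m m' b = 0) (k : ℕ) : det3 x m m' k = 0 ↔ det3 x a b k = 0 :=
  ⟨fun hk => Lines_col h ha hb hk, fun hk => Lines_col hab
    (Lines_col h ha hb (Lines_left x m m')) (Lines_col h ha hb (Lines_right x m m')) hk⟩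

theorem Lines_dvd (x k : ℕ) : (k : ℤ) ∣ x + nn x k := by
  have h : ((k * (x / k) + x % k : ℕ) : ℤ) = x := by rw [Nat.div_add_mod]
  unfold nn
  rw [Nat.cast_add, Nat.cast_mul] at h
  exact ⟨((x / k : ℕ) : ℤ), by linarith⟩

theorem Lines_nn (x : ℕ) {y k : ℕ} (hk : k ∈ Icc 1 y) : -(y : ℤ) ≤ nn x k ∧ nn x k ≤ 0 := by
  rw [mem_Icc] at hk
  have := Nat.mod_lt x hk.1
  unfold nn
  constructor <;> omega

/-- slope data of a collinear set -/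
theorem Lines_slope (x y : ℕ) {L : Finset ℕ} (hL : L ⊆ Icc 1 y) (h2 : 1 < L.card)
    (hc : ∀ a ∈ L, ∀ b ∈ L, ∀ c ∈ L, det3 x a b c = 0) :
    ∃ (g : ℕ) (α γ : ℤ), L.card ≤ g + 1 ∧ 0 < α ∧ α * g ≤ y ∧ |γ| * g ≤ 2 * y ^ 2 ∧
      ∀ k ∈ L, (k : ℤ) ∣ α * x + γ := by
  have hne : L.Nonempty := card_pos.1 (by omega)
  have hlt := min'_lt_max'_of_card L h2
  have h0 := min'_mem L hne
  have h1 := max'_mem L hne
  have hmin : ∀ k ∈ L, L.min' hne ≤ k := fun k hk => min'_le L k hk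
  have hmax : ∀ k ∈ L, k ≤ L.max' hne := fun k hk => le_max' L k hk
  generalize L.min' hne = m₀ at *
  generalize L.max' hne = m₁ at *
  have hu : (0 : ℤ) < (m₁ : ℤ) - m₀ := by omega
  obtain ⟨g, α, β, hg, hcop, hα, hβ⟩ := Int.exists_gcd_one'
    (m := (m₁ : ℤ) - m₀) (n := nn x m₁ - nn x m₀) (Int.gcd_pos_of_ne_zero_left _ hu.ne')
  have hg' : (0 : ℤ) < g := by exact_mod_cast hg
  have hα0 : 0 < α := by
    rw [hα] at hu
    exact (mul_pos_iff_of_pos_right hg').1 hu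
  have hk : ∀ k ∈ L, α * (nn x k - nn x m₀) = ((k : ℤ) - m₀) * β := by
    intro k hk
    have h := hc m₀ h0 m₁ h1 k hk
    unfold det3 at h
    rw [hα, hβ] at h
    refine mul_right_cancel₀ hg'.ne' ?_
    linear_combination h
  have hd : ∀ k ∈ L, α ∣ (k : ℤ) - m₀ := fun k hk' =>
    (Int.isCoprime_iff_gcd_eq_one.2 hcop).dvd_of_dvd_mul_right ⟨_, (hk k hk').symm⟩
  have hy0 := mem_Icc.1 (hL h0)
  have hy1 := mem_Icc.1 (hL h1)
  have hn0 := Lines_nn x (hL h0)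
  have hn1 := Lines_nn x (hL h1)
  have hαg : α * g ≤ y := by omega
  have hβg : |β| * g ≤ y := by
    rw [← abs_of_pos hg', ← abs_mul, ← hβ, abs_le]
    constructor <;> omega
  refine ⟨g, α, α * nn x m₀ - β * m₀, ?_, hα0, hαg, ?_, fun k hk' => ?_⟩
  · have h3 : L.card ≤ (Icc (0 : ℤ) g).card := by
      refine card_le_card_of_injOn (fun k : ℕ => ((k : ℤ) - m₀) / α) (fun k hk' => ?_) ?_
      · have h4 := hmin k hk'
        have h5 := hmax k hk'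
        refine mem_coe.2 (mem_Icc.2 ⟨Int.ediv_nonneg (by omega) hα0.le, ?_⟩)
        refine Int.ediv_le_of_le_mul hα0 ?_
        rw [mul_comm, ← hα]; omega
      · intro k hk' l hl h
        obtain ⟨a, ha⟩ := hd k hk'
        obtain ⟨b, hb⟩ := hd l hl
        simp only [ha, hb, Int.mul_ediv_cancel_left _ hα0.ne'] at h
        rw [h, ← hb] at ha
        omega
    simpa using h3
  · have h3 : |α * nn x m₀ - β * m₀| ≤ α * y + |β| * y := by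
      refine (abs_sub _ _).trans (add_le_add ?_ ?_)
      · rw [abs_mul, abs_of_pos hα0]
        exact mul_le_mul_of_nonneg_left (abs_le.2 ⟨hn0.1, by omega⟩) hα0.le
      · rw [abs_mul]
        exact mul_le_mul_of_nonneg_left (abs_le.2 ⟨by omega, by omega⟩) (abs_nonneg _)
    have h4 := mul_le_mul_of_nonneg_right h3 hg'.le
    have h5 := mul_le_mul_of_nonneg_right (add_le_add hαg hβg) (Int.natCast_nonneg y)
    linarith
  · have h3 : α * x + (α * nn x m₀ - β * m₀) = α * (x + nn x k) - k * β := by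
      linear_combination -hk k hk'
    rw [h3]
    exact dvd_sub ((Lines_dvd x k).mul_left _) (dvd_mul_right _ _)

theorem Lines_centre (x y : ℕ) {ρ : ℝ} (hρ : 2 ≤ ρ) {L : Finset ℕ} (hL : L ⊆ Icc 1 y)
    (h2 : ρ ≤ L.card) (hc : ∀ a ∈ L, ∀ b ∈ L, ∀ c ∈ L, det3 x a b c = 0) :
    ∃ β : ℕ × ℤ, (1 ≤ β.1 ∧ (β.1 : ℝ) ≤ y / (ρ - 1) ∧
      |(β.2 : ℝ)| ≤ y / (ρ - 1) * (y + y * (y / (ρ - 1))) ∧ Int.gcd β.1 β.2 = 1) ∧
      ∀ m ∈ L, ∀ a : ℕ, a ∣ m →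
      (∀ p : ℕ, p.Prime → p ∣ a → y / (ρ - 1) < (p : ℝ)) → (a : ℤ) ∣ β.1 * x + β.2 := by
  have h3 : 1 < L.card := by
    have : (2 : ℝ) ≤ L.card := hρ.trans h2
    exact_mod_cast this
  obtain ⟨g, α, γ, hg, hα, hαg, hγg, hk⟩ := Lines_slope x y hL h3 hc
  have hρ' : 0 < ρ - 1 := by linarith
  have hg' : ρ - 1 ≤ g := by
    have : (L.card : ℝ) ≤ g + 1 := by exact_mod_cast hg
    linarith
  have hα1 : (1 : ℝ) ≤ α := by exact_mod_cast hα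
  have hαΔ : (α : ℝ) ≤ y / (ρ - 1) := by
    rw [le_div_iff₀ hρ']
    have : (α : ℝ) * g ≤ y := by exact_mod_cast hαg
    nlinarith
  have hγΔ : |(γ : ℝ)| ≤ y / (ρ - 1) * (y + y * (y / (ρ - 1))) := by
    have h4 : |(γ : ℝ)| * g ≤ 2 * (y : ℝ) ^ 2 := by exact_mod_cast hγg
    have h5 : |(γ : ℝ)| ≤ y / (ρ - 1) * (y + y) := by
      rw [div_mul_eq_mul_div, le_div_iff₀ hρ']
      nlinarith [abs_nonneg (γ : ℝ)]
    refine h5.trans (mul_le_mul_of_nonneg_left ?_ (by positivity))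
    nlinarith [Nat.cast_nonneg (α := ℝ) y]
  obtain ⟨e, α', γ', he, hcop, hα', hγ'⟩ := Int.exists_gcd_one' (m := α) (n := γ)
    (Int.gcd_pos_of_ne_zero_left _ hα.ne')
  have he' : (0 : ℤ) < e := by exact_mod_cast he
  have hα0 : 0 < α' := by
    rw [hα'] at hα
    exact (mul_pos_iff_of_pos_right he').1 hα
  obtain ⟨n, rfl⟩ := Int.eq_ofNat_of_zero_le hα0.le
  have hn1 : (1 : ℝ) ≤ n := by exact_mod_cast hα0
  have he1 : (1 : ℝ) ≤ e := by exact_mod_cast he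
  have hαr : (α : ℝ) = n * e := by rw [hα']; push_cast; ring
  refine ⟨(n, γ'), ⟨by exact_mod_cast hα0, ?_, ?_, hcop⟩, fun m hm a ha hp => ?_⟩
  · refine le_trans ?_ hαΔ
    show (n : ℝ) ≤ α
    nlinarith
  · refine le_trans ?_ hγΔ
    show |(γ' : ℝ)| ≤ _
    rw [hγ']
    push_cast
    rw [abs_mul, abs_of_pos (by linarith : (0 : ℝ) < e)]
    nlinarith [abs_nonneg (γ' : ℝ)]
  · have h4 : (a : ℤ) ∣ (n * x + γ') * e := by
      have := (Int.natCast_dvd_natCast.2 ha).trans (hk m hm)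
      rw [hα', hγ'] at this
      rwa [show ((n : ℤ) * x + γ') * e = n * e * x + γ' * e by ring]
    have h5 : Nat.Coprime a e := by
      refine Nat.coprime_of_dvd fun p hpp hpa hpe => ?_
      have h6 : (p : ℝ) ≤ e := by exact_mod_cast Nat.le_of_dvd he hpe
      have h7 := hp p hpp hpa
      nlinarith
    exact (Nat.isCoprime_iff_coprime.2 h5).dvd_of_dvd_mul_right h4

theorem lines (x y : ℕ) {ρ : ℝ} (hρ : 2 ≤ ρ) : ∃ 𝔅 : Finset (ℕ × ℤ),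
    (𝔅.card : ℝ) * (ρ * (ρ - 1)) ≤ (y : ℝ) ^ 2 ∧
    (∀ β ∈ 𝔅, 1 ≤ β.1 ∧ (β.1 : ℝ) ≤ y / (ρ - 1) ∧
      |(β.2 : ℝ)| ≤ y / (ρ - 1) * (y + y * (y / (ρ - 1))) ∧ Int.gcd β.1 β.2 = 1) ∧
    ∀ m ∈ Icc 1 y, Rich x y ρ m → ∃ β ∈ 𝔅, ∀ a : ℕ, a ∣ m →
      (∀ p : ℕ, p.Prime → p ∣ a → y / (ρ - 1) < (p : ℝ)) → (a : ℤ) ∣ β.1 * x + β.2 := by
  classical
  set ℓ : ℕ × ℕ → Finset ℕ := fun q => (Icc 1 y).filter fun k => det3 x q.1 q.2 k = 0 with hℓ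
  set 𝔏 := ((Icc 1 y ×ˢ Icc 1 y).filter fun q => q.1 ≠ q.2 ∧ ρ ≤ ((ℓ q).card : ℝ)).image ℓ with h𝔏
  have hmem : ∀ L ∈ 𝔏, ∃ q : ℕ × ℕ, q.1 ≠ q.2 ∧ ρ ≤ (L.card : ℝ) ∧ ℓ q = L := by
    intro L hL
    obtain ⟨q, hq, rfl⟩ := mem_image.1 hL
    exact ⟨q, (mem_filter.1 hq).2.1, (mem_filter.1 hq).2.2, rfl⟩
  have hcard : (𝔏.card : ℝ) * (ρ * (ρ - 1)) ≤ (y : ℝ) ^ 2 := by
    have h1 : (𝔏.biUnion offDiag).card = ∑ L ∈ 𝔏, L.offDiag.card := by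
      refine card_biUnion fun L hL L' hL' hne => ?_
      refine disjoint_left.2 fun t ht ht' => hne ?_
      obtain ⟨q, hq, -, rfl⟩ := hmem L hL
      obtain ⟨q', hq', -, rfl⟩ := hmem L' hL'
      simp only [mem_offDiag, hℓ, mem_filter] at ht ht'
      refine filter_congr fun k _ => ?_
      rw [Lines_iff hq ht.2.2 ht.1.2 ht.2.1.2, Lines_iff hq' ht'.2.2 ht'.1.2 ht'.2.1.2]
    have h2 : (𝔏.biUnion offDiag).card ≤ (Icc 1 y ×ˢ Icc 1 y).card := by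
      refine card_le_card fun t ht => ?_
      obtain ⟨L, hL, ht⟩ := mem_biUnion.1 ht
      obtain ⟨q, -, -, rfl⟩ := hmem L hL
      simp only [mem_offDiag, hℓ, mem_filter] at ht
      exact mem_product.2 ⟨ht.1.1, ht.2.1.1⟩
    rw [h1, card_product, Nat.card_Icc, Nat.add_sub_cancel] at h2
    have h3 : ((∑ L ∈ 𝔏, L.offDiag.card : ℕ) : ℝ) ≤ (y : ℝ) ^ 2 := by
      rw [sq]; exact_mod_cast h2
    refine le_trans ?_ h3
    rw [Nat.cast_sum, ← nsmul_eq_mul]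
    refine card_nsmul_le_sum _ _ _ fun L hL => ?_
    obtain ⟨q, -, h4, -⟩ := hmem L hL
    rw [offDiag_card, Nat.cast_sub (Nat.le_mul_self _)]
    push_cast
    nlinarith
  have hcen : ∀ L ∈ 𝔏, ∃ β : ℕ × ℤ, (1 ≤ β.1 ∧ (β.1 : ℝ) ≤ y / (ρ - 1) ∧
      |(β.2 : ℝ)| ≤ y / (ρ - 1) * (y + y * (y / (ρ - 1))) ∧ Int.gcd β.1 β.2 = 1) ∧
      ∀ m ∈ L, ∀ a : ℕ, a ∣ m →
      (∀ p : ℕ, p.Prime → p ∣ a → y / (ρ - 1) < (p : ℝ)) → (a : ℤ) ∣ β.1 * x + β.2 := by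
    intro L hL
    obtain ⟨q, hq, h4, rfl⟩ := hmem L hL
    exact Lines_centre x y hρ (filter_subset _ _) h4 fun a ha b hb c hc =>
      Lines_col hq (mem_filter.1 ha).2 (mem_filter.1 hb).2 (mem_filter.1 hc).2
  choose! cen hcen1 hcen2 using hcen
  refine ⟨𝔏.image cen, ?_, fun β hβ => ?_, fun m hm hR => ?_⟩
  · refine le_trans (mul_le_mul_of_nonneg_right ?_ (by nlinarith)) hcard
    exact_mod_cast card_image_le
  · obtain ⟨L, hL, rfl⟩ := mem_image.1 hβ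
    exact hcen1 L hL
  · obtain ⟨m', hm', hne, h4⟩ := hR
    have hL : ℓ (m, m') ∈ 𝔏 :=
      mem_image_of_mem _ (mem_filter.2 ⟨mem_product.2 ⟨hm, hm'⟩, hne.symm, h4⟩)
    exact ⟨cen _, mem_image_of_mem _ hL, hcen2 _ hL m (mem_filter.2 ⟨hm, Lines_left x m m'⟩)⟩

end Vale.Agent.P013
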