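import Vale.Agent.P013.PACor
import Vale.Agent.Lib.NT.Mertens
import Vale.Agent.P013.HallAux

/-!
Sums of the Liouville function `λ`. `Lv t = ∑ n ≤ t, λ n`, `ℓ t = 1 + log t`. Induction on `j ≤ 8`:
`|Lv t| ≤ C_j t / ℓ t ^ (j / 2)` for `t ≥ 1` (real exponent `a = j / 2 ≤ 4`; `j = 0` is trivial).

Step. For `x` large, `Lv x * log x = ∑ λ n log (x / n) + ∑ λ n log n`.
(1) `∑ n ≤ x, λ n log (x / n) = ∫ t in 1..x, Lv t / t` (`sum_mul_eq_sub_integral_mul` and friends), of size at most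
`√x + C x / ℓ(√x)^a ≤ C' x / ℓ x ^ a`.
(2) `log n = ∑ k ∣ n, Λ k` and complete multiplicativity (`liouville_apply_mul`) give
`∑ n ≤ x, λ n log n = ∑ over m k ≤ x of λ m * (λ k Λ k) = - ∑ over m k ≤ x of λ m * c k - ∑ over m k ≤ x of λ m`
with `c k = - λ k Λ k - 1`. The last sum is `∑ n ≤ x, ∑ m ∣ n, λ m`, and `∑ m ∣ n, λ m` is `1` for squares and `0`
otherwise (multiplicative; on `p ^ i` it is `∑ (-1)^l`), so it lies in `[0, √x]`.
`R t = ∑ k ≤ t, c k` satisfies `|R t| ≤ C t^(1-δ)` for `t ≥ 1`: `- λ k Λ k = Λ k` for primes and `|λ k Λ k| ≤ Λ k`, so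
`|R t| ≤ |ψ t - t| + 1 + 2 (ψ t - θ t)` (`psi_pa`, `theta_pa`). Hyperbola with `K = ℓ x ^ (5 / δ)`:
`∑ k ≤ K, c k Lv (x / k) + ∑ m ≤ x / K, λ m (R (x / m) - R K)`. The first part is at most
`C x ℓ(x / K)^(-a) ∑ k ≤ K, (Λ k + 1) / k ≤ C x (ℓ x / 2)^(-a) (2 log K + 7)` (`mertens1_vonMangoldt`, `K ≤ √x`), with
`log K = (5 / δ) log (ℓ x) ≤ (10 / δ) ℓ x ^ (1/2)`. The second is at most
`C ∑ m ≤ x / K, (x / m)^(1-δ) + (x / K) C K^(1-δ) ≤ C (1 / δ + 1) x K^(-δ) = C' x / ℓ x ^ 5`
(`∑ m ≤ M, m^(δ-1) ≤ M^δ / δ`). Dividing by `log x ≥ ℓ x / 2` gives the exponent `a + 1/2`. Bounded `x` are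
absorbed in the constant.
-/

namespace Vale.Agent.P013

open Finset Real

open scoped ArithmeticFunction.vonMangoldt

/-- the Liouville function with real values -/
noncomputable def liouL (n : ℕ) : ℝ := ArithmeticFunction.liouville n

/-- its summatory function -/
noncomputable def liouS (N : ℕ) : ℝ := ∑ n ∈ Icc 1 N, liouL n

noncomputable def liouC (d : ℕ) : ℝ := -(liouL d * Λ d) - 1

noncomputable def liouR (M : ℕ) : ℝ := ∑ d ∈ Icc 1 M, liouC d

theorem liou_abs (n : ℕ) : |liouL n| ≤ 1 := by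
  rcases eq_or_ne n 0 with rfl | h
  · simp [liouL]
  · simp [liouL, ArithmeticFunction.liouville_apply h]

theorem liou_mul (m n : ℕ) : liouL (m * n) = liouL m * liouL n := by
  simp [liouL, ArithmeticFunction.liouville_apply_mul]

theorem liou_triv (N : ℕ) : |liouS N| ≤ N := by
  refine (abs_sum_le_sum_abs _ _).trans ((sum_le_card_nsmul _ _ 1 fun n _ => liou_abs n).trans ?_)
  simp

theorem liou_div (n : ℕ) : ∑ d ∈ n.divisors, ArithmeticFunction.liouville d = 0 ∨
    (∑ d ∈ n.divisors, ArithmeticFunction.liouville d = 1 ∧ IsSquare n) := by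
  induction n using Nat.recOnPosPrimePosCoprime with
  | zero => simp
  | one => simp [ArithmeticFunction.liouville_apply_one]
  | prime_pow p n hp hn =>
    have : ∑ d ∈ (p ^ n).divisors, ArithmeticFunction.liouville d =
        if Even (n + 1) then 0 else 1 := by
      rw [Nat.sum_divisors_prime_pow hp, ← neg_one_geom_sum]
      refine sum_congr rfl fun i _ => ?_
      rw [ArithmeticFunction.liouville_apply (pow_ne_zero _ hp.ne_zero),
        ArithmeticFunction.cardFactors_apply_prime_pow hp]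
    rw [this]
    split_ifs with h
    · exact Or.inl rfl
    · rw [Nat.even_add_one, not_not] at h
      exact Or.inr ⟨rfl, h.isSquare_pow p⟩
  | coprime a b _ _ hab ha hb =>
    have h := (ArithmeticFunction.isMultiplicative_liouville.mul
      ArithmeticFunction.isMultiplicative_zeta.natCast).map_mul_of_coprime hab
    simp only [ArithmeticFunction.coe_mul_zeta_apply] at h
    rw [h]
    rcases ha with ha | ha
    · simp [ha]
    rcases hb with hb | hb
    · simp [hb]
    · exact Or.inr ⟨by rw [ha.1, hb.1, one_mul], ha.2.mul hb.2⟩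

theorem liou_sq (N : ℕ) : |∑ m ∈ Icc 1 N, ∑ _d ∈ Icc 1 (N / m), liouL m| ≤ N.sqrt := by
  rw [← hall_antidiag N fun m _ => liouL m]
  have h1 : ∀ k ∈ Icc 1 N, |∑ x ∈ k.divisorsAntidiagonal, liouL x.1| ≤
      if IsSquare k then 1 else 0 := by
    intro k _
    rw [Nat.sum_divisorsAntidiagonal (f := fun m _ => liouL m)]
    simp only [liouL]
    rw [← Int.cast_sum]
    rcases liou_div k with h | h
    · rw [h]
      split_ifs <;> simp
    · simp [h.1, h.2]
  refine (abs_sum_le_sum_abs _ _).trans ((sum_le_sum h1).trans ?_)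
  rw [sum_boole]
  have h2 : (Icc 1 N).filter IsSquare ⊆ (Icc 1 N.sqrt).image fun r => r * r := by
    intro k hk
    obtain ⟨hk1, r, rfl⟩ := mem_filter.1 hk
    exact mem_image.2 ⟨r, mem_Icc.2 ⟨Nat.pos_of_mul_pos_left (mem_Icc.1 hk1).1,
      Nat.le_sqrt.2 (mem_Icc.1 hk1).2⟩, rfl⟩
  have h3 := (card_le_card h2).trans card_image_le
  rw [Nat.card_Icc, Nat.add_sub_cancel] at h3
  exact_mod_cast h3

theorem liou_R {δ C : ℝ} (hδ : δ ≤ 1 / 4) (h : PA δ C) :
    ∃ C₁ : ℝ, 0 ≤ C₁ ∧ ∀ M : ℕ, 1 ≤ M → |liouR M| ≤ C₁ * (M : ℝ) ^ (1 - δ) := by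
  obtain ⟨C', hC', hθ⟩ := theta_pa hδ h
  refine ⟨3 * |C| + 2 * C', by positivity, fun M hM => ?_⟩
  have hM' : (1 : ℝ) ≤ M := by exact_mod_cast hM
  have h1 := psi_pa h hM'
  have h2 := hθ M hM'
  have h3 := Chebyshev.psi_sub_theta_eq_sum_not_prime (M : ℝ)
  have hI : Ioc 0 M = Icc 1 M := rfl
  rw [Nat.floor_natCast, sum_filter, hI] at h3
  have h4 : Chebyshev.psi M = ∑ n ∈ Icc 1 M, Λ n := by rw [Chebyshev.psi, Nat.floor_natCast, hI]
  have h5 : liouR M - (Chebyshev.psi M - M) = ∑ d ∈ Icc 1 M, -(liouL d * Λ d + Λ d) := by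
    have : (M : ℝ) = ∑ _d ∈ Icc 1 M, (1 : ℝ) := by simp
    rw [liouR, h4]
    conv_lhs => rw [this]
    rw [← sum_sub_distrib, ← sum_sub_distrib]
    exact sum_congr rfl fun d _ => by rw [liouC]; ring
  have h6 : |liouR M - (Chebyshev.psi M - M)| ≤ 2 * (Chebyshev.psi M - Chebyshev.theta M) := by
    rw [h5, h3, mul_sum]
    refine (abs_sum_le_sum_abs _ _).trans (sum_le_sum fun d _ => ?_)
    have hΛ : 0 ≤ Λ d := ArithmeticFunction.vonMangoldt_nonneg
    by_cases hd : d.Prime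
    · simp [hd, liouL, ArithmeticFunction.liouville_apply hd.ne_zero,
        ArithmeticFunction.cardFactors_apply_prime hd]
    · have := abs_le.1 (liou_abs d)
      rw [if_pos hd, abs_le]
      constructor <;> nlinarith
  have h7 := mul_le_mul_of_nonneg_right (le_abs_self C) (show 0 ≤ (M : ℝ) ^ (1 - δ) by positivity)
  rw [abs_le] at h1 h2 h6 ⊢
  constructor <;> linarith [h1.1, h1.2, h2.1, h2.2, h6.1, h6.2]

theorem liou_abel (N : ℕ) : liouS N * log N - ∑ n ∈ Icc 1 N, liouL n * log n =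
    ∑ m ∈ range N, liouS m * (log ((m + 1 : ℕ) : ℝ) - log m) := by
  induction N with
  | zero => simp
  | succ N ih =>
    rw [sum_range_succ, ← ih, liouS, sum_Icc_succ_top (by omega), sum_Icc_succ_top (by omega),
      ← liouS]
    ring

theorem liou_head (K M : ℕ) (h : K ≤ M) (f : ℕ → ℝ) :
    ∑ d ∈ Icc 1 M, (if d ≤ K then f d else 0) = ∑ d ∈ Icc 1 K, f d := by
  rw [← sum_filter]
  refine sum_congr ?_ fun _ _ => rfl
  ext d
  simp only [mem_filter, mem_Icc]
  omega

theorem liou_tail {K : ℕ} {w : ℝ} (hw0 : 0 ≤ w) (hw : ∀ M, K ≤ M → |liouR M| ≤ w * M) (M : ℕ) :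
    |∑ d ∈ Icc 1 M, (if d ≤ K then 0 else liouC d)| ≤ 2 * w * M := by
  rcases le_or_gt K M with h | h
  · have h1 : ∑ d ∈ Icc 1 M, (if d ≤ K then 0 else liouC d) = liouR M - liouR K := by
      rw [liouR, liouR, ← liou_head K M h, ← sum_sub_distrib]
      exact sum_congr rfl fun d _ => by split_ifs <;> simp
    have h2 := mul_le_mul_of_nonneg_left (show (K : ℝ) ≤ M by exact_mod_cast h) hw0
    rw [h1]
    linarith [abs_sub (liouR M) (liouR K), hw M h, hw K le_rfl]
  · rw [sum_eq_zero fun d hd => if_pos (by have := (mem_Icc.1 hd).2; omega), abs_zero]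
    positivity

theorem liou_harm (N : ℕ) : ∑ m ∈ Icc 1 N, 1 / (m : ℝ) ≤ 1 + log N := by
  have := harmonic_le_one_add_log N
  rw [harmonic_eq_sum_Icc] at this
  simpa using this

theorem liou_step {N K : ℕ} {A w : ℝ} (hK1 : 1 ≤ K) (hK : K * K ≤ N) (hA0 : 0 ≤ A) (hw0 : 0 ≤ w)
    (hA : ∀ M, 1 ≤ M → N ≤ 4 * M ^ 2 → |liouS M| ≤ A * M)
    (hw : ∀ M, K ≤ M → |liouR M| ≤ w * M) :
    |liouS N| * log N ≤ 2 * N.sqrt + A * N + A * N * (2 * log K + 7) +
      2 * w * N * (1 + log N) := by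
  have hKN : K ≤ N := (Nat.le_mul_self K).trans hK
  have d1 : |∑ m ∈ range N, liouS m * (log ((m + 1 : ℕ) : ℝ) - log m)| ≤ N.sqrt + A * N := by
    have h1 : ∀ m ∈ range N, |liouS m * (log ((m + 1 : ℕ) : ℝ) - log m)| ≤
        (if m ∈ Icc 1 N.sqrt then 1 else 0) + A := by
      intro m _
      rcases Nat.eq_zero_or_pos m with rfl | hm
      · simpa [liouS] using hA0
      have hm' : (0 : ℝ) < m := by exact_mod_cast hm
      have h2 : |log ((m + 1 : ℕ) : ℝ) - log m| ≤ 1 / m := by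
        have h3 := log_le_sub_one_of_pos (show (0 : ℝ) < ((m + 1 : ℕ) : ℝ) / m by positivity)
        rw [log_div (by positivity) hm'.ne'] at h3
        rw [abs_of_nonneg (sub_nonneg.2 (log_le_log hm' (by push_cast; linarith)))]
        refine h3.trans_eq ?_
        push_cast
        field_simp
        ring
      rw [abs_mul]
      split_ifs with h3
      · have := mul_le_mul (liou_triv m) h2 (abs_nonneg _) hm'.le
        rw [mul_one_div_cancel hm'.ne'] at this
        linarith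
      · have h4 : N.sqrt < m := not_le.1 fun h5 => h3 (mem_Icc.2 ⟨hm, h5⟩)
        have h5 := Nat.sqrt_lt'.1 h4
        have := mul_le_mul (hA m hm (by omega)) h2 (abs_nonneg _) (by positivity)
        rw [mul_assoc, mul_one_div_cancel hm'.ne'] at this
        linarith
    refine (abs_sum_le_sum_abs _ _).trans ((sum_le_sum h1).trans ?_)
    rw [sum_add_distrib, sum_boole, sum_const, card_range, nsmul_eq_mul, mul_comm]
    have h2 : ((range N).filter fun m => m ∈ Icc 1 N.sqrt).card ≤ N.sqrt :=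
      (card_le_card fun m hm => (mem_filter.1 hm).2).trans (by simp)
    exact add_le_add (by exact_mod_cast h2) le_rfl
  have e1 : ∑ n ∈ Icc 1 N, liouL n * log n = -(∑ d ∈ Icc 1 K, liouC d * liouS (N / d)) -
      (∑ m ∈ Icc 1 N, liouL m * ∑ d ∈ Icc 1 (N / m), (if d ≤ K then 0 else liouC d)) -
      ∑ m ∈ Icc 1 N, ∑ _d ∈ Icc 1 (N / m), liouL m := by
    have h1 : ∑ d ∈ Icc 1 K, liouC d * liouS (N / d) = ∑ m ∈ Icc 1 N, ∑ d ∈ Icc 1 (N / m),
        (if d ≤ K then liouC d * liouL m else 0) := by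
      rw [hall_swap, ← liou_head K N hKN]
      refine sum_congr rfl fun d _ => ?_
      split_ifs
      · rw [liouS, mul_sum]
      · simp
    rw [h1, hall_log, ← sum_neg_distrib, ← sum_sub_distrib, ← sum_sub_distrib]
    refine sum_congr rfl fun m _ => ?_
    rw [mul_sum, ← sum_neg_distrib, ← sum_sub_distrib, ← sum_sub_distrib]
    refine sum_congr rfl fun d _ => ?_
    rw [liou_mul, liouC]
    split_ifs <;> ring
  have d2 : |∑ d ∈ Icc 1 K, liouC d * liouS (N / d)| ≤ A * N * (2 * log K + 7) := by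
    have h1 := (Vale.Agent.Lib.NT.mertens1_nat K hK1).2
    have hI : Ioc 0 K = Icc 1 K := rfl
    rw [hI] at h1
    have h2 := liou_harm K
    have h3 : ∑ d ∈ Icc 1 K, |liouC d * liouS (N / d)| ≤
        ∑ d ∈ Icc 1 K, A * N * (Λ d / d + 1 / d) := by
      refine sum_le_sum fun d hd => ?_
      obtain ⟨hd1, hd2⟩ := mem_Icc.1 hd
      have hΛ : 0 ≤ Λ d := ArithmeticFunction.vonMangoldt_nonneg
      have h4 : |liouC d| ≤ Λ d + 1 := by
        have := abs_le.1 (liou_abs d)
        rw [liouC, abs_le]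
        constructor <;> nlinarith
      have h5 : d ≤ N / d := (Nat.le_div_iff_mul_le hd1).2 ((Nat.mul_le_mul hd2 hd2).trans hK)
      have h6 : N ≤ 4 * (N / d) ^ 2 := by
        have := Nat.lt_div_mul_add (a := N) hd1
        nlinarith
      have h7 := (hA _ (hd1.trans h5) h6).trans
        (mul_le_mul_of_nonneg_left (Nat.cast_div_le (α := ℝ)) hA0)
      rw [abs_mul]
      refine (mul_le_mul h4 h7 (abs_nonneg _) (by positivity)).trans_eq ?_
      ring
    rw [← mul_sum, sum_add_distrib] at h3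
    refine (abs_sum_le_sum_abs _ _).trans (h3.trans ?_)
    exact mul_le_mul_of_nonneg_left (by linarith) (by positivity)
  have d3 : |∑ m ∈ Icc 1 N, liouL m * ∑ d ∈ Icc 1 (N / m), (if d ≤ K then 0 else liouC d)| ≤
      2 * w * N * (1 + log N) := by
    refine (abs_sum_le_sum_abs _ _).trans (le_trans ?_
      (mul_le_mul_of_nonneg_left (liou_harm N) (by positivity)))
    rw [mul_sum]
    refine sum_le_sum fun m _ => ?_
    rw [abs_mul]
    refine (mul_le_of_le_one_left (abs_nonneg _) (liou_abs m)).trans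
      ((liou_tail hw0 hw _).trans ?_)
    rw [mul_one_div, mul_div_assoc]
    exact mul_le_mul_of_nonneg_left Nat.cast_div_le (by positivity)
  have d4 := liou_sq N
  rw [← liou_abel, e1] at d1
  rw [← abs_of_nonneg (log_natCast_nonneg N), ← abs_mul, abs_of_nonneg (log_natCast_nonneg N)]
  rw [abs_le] at d1 d2 d3 d4 ⊢
  constructor <;> linarith [d1.1, d1.2, d2.1, d2.2, d3.1, d3.2, d4.1, d4.2]

theorem liou_cmp {N M : ℝ} (hN : 1 ≤ N) (hM : 1 ≤ M) (h : N ≤ 4 * M ^ 2) :
    √(1 + log N) ≤ 2 * √(1 + log M) := by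
  have h1 := log_le_log (by linarith) h
  have h2 := log_nonneg hM
  have h3 := log_le_sub_one_of_pos (show (0 : ℝ) < 4 by norm_num)
  rw [log_mul (by norm_num) (by positivity), log_pow] at h1
  refine sqrt_le_iff.2 ⟨by positivity, ?_⟩
  rw [mul_pow, sq_sqrt (by linarith)]
  push_cast at h1
  linarith

theorem liou_ind {δ C₁ : ℝ} (hδ0 : 0 < δ) (hδ : δ ≤ 1 / 4) (hC₁ : 0 ≤ C₁)
    (hR : ∀ M : ℕ, 1 ≤ M → |liouR M| ≤ C₁ * (M : ℝ) ^ (1 - δ)) (j : ℕ) (hj : j ≤ 8) :
    ∃ C : ℝ, 0 < C ∧ ∀ N : ℕ, 1 ≤ N → |liouS N| ≤ C / √(1 + log N) ^ j * N := by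
  induction j with
  | zero => exact ⟨1, one_pos, fun N _ => by simpa using liou_triv N⟩
  | succ j ih =>
    obtain ⟨C, hC, ih⟩ := ih (by omega)
    set B := (Nat.factorial 12 : ℝ) / δ ^ 12 with hB
    have hB0 : 0 < B := by positivity
    refine ⟨3 ^ (j + 1) + 16 * (C * 2 ^ j) + 4 * B + 4 * (C₁ * B), by positivity, fun N hN => ?_⟩
    have hN' : (1 : ℝ) ≤ N := by exact_mod_cast hN
    have hl := log_nonneg hN'
    have hs2 : √(1 + log N) ^ 2 = 1 + log N := sq_sqrt (by linarith)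
    have hs1 : 1 ≤ √(1 + log (N : ℝ)) := one_le_sqrt.2 (by linarith)
    have hcmp := fun (M : ℕ) (h1 : 1 ≤ M) (h2 : N ≤ 4 * M ^ 2) =>
      liou_cmp (M := M) hN' (by exact_mod_cast h1) (by exact_mod_cast h2)
    set s := √(1 + log (N : ℝ))
    have hs0 : 0 < s := by linarith
    rw [div_mul_eq_mul_div, le_div_iff₀ (by positivity)]
    have hpos : 0 ≤ (16 * (C * 2 ^ j) + 4 * B + 4 * (C₁ * B)) * N := by positivity
    rcases le_total s 3 with h3 | h3
    · have := mul_le_mul (liou_triv N) (pow_le_pow_left₀ hs0.le h3 (j + 1)) (by positivity)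
        (by positivity)
      linarith
    set K := ⌈exp s⌉₊
    have hK0 : exp s ≤ K := Nat.le_ceil _
    have he1 : 1 ≤ exp s := one_le_exp hs0.le
    have hK2 : (K : ℝ) ≤ 2 * exp s := by linarith [Nat.ceil_lt_add_one (exp_pos s).le]
    have hK1 : 1 ≤ K := by exact_mod_cast he1.trans hK0
    have hlK : log K ≤ s + 1 := by
      have h4 := log_le_log (by linarith) hK2
      rw [log_mul two_ne_zero (exp_pos s).ne', log_exp] at h4
      linarith [log_two_lt_d9]
    have hKK : K * K ≤ N := by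
      have h4 : log K + log K ≤ log N := by nlinarith
      rw [← log_mul (by positivity) (by positivity),
        log_le_log_iff (by positivity) (by positivity)] at h4
      exact_mod_cast h4
    have hω : exp (-(δ * s)) ≤ B / s ^ 12 := by
      have h4 := pow_div_factorial_le_exp (δ * s) (by positivity) 12
      rw [exp_neg, inv_le_comm₀ (exp_pos _) (by positivity)]
      refine le_trans (le_of_eq ?_) h4
      rw [hB]
      field_simp
    have key := liou_step (A := C * 2 ^ j / s ^ j) (w := C₁ * (B / s ^ 12)) hK1 hKK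
      (by positivity) (by positivity) (fun M h1 h2 => (ih M h1).trans (by
        have h4 := pow_le_pow_left₀ hs0.le (hcmp M h1 h2) j
        have h5 : 0 < √(1 + log (M : ℝ)) := by linarith [hcmp M h1 h2]
        refine mul_le_mul_of_nonneg_right ?_ (Nat.cast_nonneg M)
        rw [div_le_div_iff₀ (by positivity) (by positivity), mul_assoc, ← mul_pow]
        exact mul_le_mul_of_nonneg_left h4 hC.le))
      fun M hM => (hR M (hK1.trans hM)).trans (by
        have h4 : (0 : ℝ) < M := by exact_mod_cast hK1.trans hM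
        have h5 : s ≤ log M := (le_log_iff_exp_le h4).2 (hK0.trans (by exact_mod_cast hM))
        have h6 : (M : ℝ) ^ (-δ) ≤ B / s ^ 12 := by
          rw [rpow_def_of_pos h4]
          exact (exp_le_exp.2 (by nlinarith)).trans hω
        rw [sub_eq_neg_add, rpow_add_one h4.ne', mul_assoc]
        gcongr)
    have hQ : (N.sqrt : ℝ) ≤ B / s ^ 12 * N := by
      have h4 : N.sqrt * K ≤ N :=
        (Nat.mul_le_mul_left _ (Nat.le_sqrt.2 hKK)).trans (Nat.sqrt_le N)
      have h5 : (N.sqrt : ℝ) * exp s ≤ N :=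
        (mul_le_mul_of_nonneg_left hK0 (Nat.cast_nonneg _)).trans (by exact_mod_cast h4)
      have h6 : exp (-s) ≤ B / s ^ 12 := (exp_le_exp.2 (by nlinarith)).trans hω
      rw [← le_div_iff₀ (exp_pos s), div_eq_inv_mul, ← exp_neg] at h5
      exact h5.trans (mul_le_mul_of_nonneg_right h6 (by positivity))
    have hpw : s ^ (j + 1) ≤ s ^ 12 := pow_le_pow_right₀ hs1 (by omega)
    have hu : B / s ^ 12 * s ^ (j + 1) ≤ B := by
      rw [div_mul_eq_mul_div, div_le_iff₀ (by positivity)]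
      exact mul_le_mul_of_nonneg_left hpw hB0.le
    have hv : C * 2 ^ j / s ^ j * s ^ (j + 1) = C * 2 ^ j * s := by
      field_simp
      ring
    rw [← hs2] at key
    set u := B / s ^ 12
    set v := C * 2 ^ j / s ^ j
    have hv0 : 0 ≤ v := by positivity
    have hu0 : 0 ≤ u := by positivity
    have k1 : |liouS N| * s ^ 2 ≤ (4 * u * s ^ 2 + 16 * v * s + 4 * C₁ * u * s ^ 2) * N := by
      have a1 := mul_le_mul_of_nonneg_left (show s ^ 2 ≤ 2 * log N by nlinarith)
        (abs_nonneg (liouS N))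
      have a2 := mul_le_mul_of_nonneg_left (show 1 + (2 * log K + 7) ≤ 8 * s by linarith)
        (show 0 ≤ v * N by positivity)
      have a3 := mul_le_mul_of_nonneg_left (show 1 ≤ s ^ 2 by nlinarith)
        (show 0 ≤ u * N by positivity)
      linarith
    have k2 := mul_le_mul_of_nonneg_right k1 (show 0 ≤ s ^ (j + 1) by positivity)
    have k3 : (4 * u * s ^ 2 + 16 * v * s + 4 * C₁ * u * s ^ 2) * N * s ^ (j + 1) =
        ((4 + 4 * C₁) * (u * s ^ (j + 1)) * s ^ 2 + 16 * (v * s ^ (j + 1)) * s) * N := by ring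
    have k4 := mul_le_mul_of_nonneg_left hu (show 0 ≤ (4 + 4 * C₁) * s ^ 2 * N by positivity)
    have k5 : |liouS N| * s ^ (j + 1) ≤ (16 * (C * 2 ^ j) + 4 * B + 4 * (C₁ * B)) * N := by
      refine le_of_mul_le_mul_right ?_ (show 0 < s ^ 2 by positivity)
      rw [k3, hv] at k2
      linarith
    have k6 : (0 : ℝ) ≤ 3 ^ (j + 1) * N := by positivity
    linarith

theorem liou {δ C : ℝ} (hδ0 : 0 < δ) (hδ : δ ≤ 1 / 4) (h : PA δ C) :
    ∃ C' : ℝ, 0 < C' ∧ ∀ t : ℝ, 1 ≤ t →
      |∑ n ∈ Icc 1 ⌊t⌋₊, (ArithmeticFunction.liouville n : ℝ)| ≤ C' * t / (1 + log t) ^ 4 := by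
  obtain ⟨C₁, hC₁, hR⟩ := liou_R hδ h
  obtain ⟨C', hC', h8⟩ := liou_ind hδ0 hδ hC₁ hR 8 le_rfl
  refine ⟨C' * 2 ^ 8, by positivity, fun t ht => ?_⟩
  have hN : 1 ≤ ⌊t⌋₊ := Nat.floor_pos.2 ht
  have hN' : (1 : ℝ) ≤ ⌊t⌋₊ := by exact_mod_cast hN
  have h1 := Nat.lt_floor_add_one t
  have h2 := liou_cmp ht hN' (by nlinarith)
  have h3 : 0 < √(1 + log t) := sqrt_pos.2 (by linarith [log_nonneg ht])
  have h4 : 0 < √(1 + log (⌊t⌋₊ : ℝ)) := by linarith
  have h5 : (1 + log t) ^ 4 = √(1 + log t) ^ 8 := by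
    rw [show 8 = 2 * 4 from rfl, pow_mul, sq_sqrt (by linarith [log_nonneg ht])]
  refine (h8 _ hN).trans ?_
  rw [h5, mul_div_right_comm]
  refine mul_le_mul ?_ (Nat.floor_le (by linarith)) (by positivity) (by positivity)
  rw [div_le_div_iff₀ (by positivity) (by positivity), mul_assoc, ← mul_pow]
  exact mul_le_mul_of_nonneg_left (pow_le_pow_left₀ h3.le h2 8) hC'.le

end Vale.Agent.P013
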