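import Vale.Agent.P013.CoreA
import Vale.Agent.P013.Mert
import Vale.Agent.P013.Lines

/-!
Masses. `coreM_B1`: `mert_sum`, `log (1 + η) ∈ [η - η² , η]`. `coreM_AA`: `J = PR w (w^(1+η))`, `H = ∑ q ∈ J, 1 / q ∈ [η / 2, 1]`,
`e k = ∑ a ∈ powersetCard k J, 1 / pr a`; counting pairs `(a, q)` with `q ∉ a`:
`(k + 1) e (k + 1) = ∑ a ∈ powersetCard k J, (1 / pr a) ∑ q ∈ J \ a, 1 / q`, between `e k (H - k / w)` and `e k H`; eventually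
`n / w ≤ η / 6` (`coreA_w`).
`coreM_exc`: for `β ≠ β'` in `𝔅`, `M = β'.1 β.2 - β.1 β'.2 ≠ 0` (coprime pairs with positive first entries), `|M| ≤ 2 y^(1 + 14 δ₃) ≤ y^(3/2)`,
and `pr a ∣ M`. By `card_mul_log_le` at most `3 n` primes `> w ≥ y^(1 / (2 n))` divide `M`, so there are at most `2^(3 n)` such `a`, each with
`1 / pr a ≤ w^(-n) ≤ y^(-1/2)`. Total at most `4 y^(12 δ₃) 2^(3 n) y^(-1/2) → 0`.
`coreM_lines`: `lines` with `ρ = y^(1 - 3 δ₃) ≥ 2`, `ρ - 1 ≥ ρ / 2`, `Δ ≤ 2 y^(3 δ₃) < y^(4 δ₃)`, `Δ + Δ² ≤ y^(7 δ₃)` eventually.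
-/

namespace Vale.Agent.P013

open Finset Real Filter

open Classical

theorem coreM_tend {ε : ℝ} (hε : 0 < ε) : Tendsto (fun y : ℕ => (y : ℝ) ^ ε) atTop atTop :=
  (tendsto_rpow_atTop hε).comp tendsto_natCast_atTop_atTop

theorem coreM_mass {η : ℝ} (hη : 0 < η) (hη' : η ≤ 1 / 50) : ∀ᶠ u : ℝ in atTop,
    97 / 100 * η ≤ ∑ p ∈ PR u (u ^ (1 + η)), 1 / (p : ℝ) ∧
      ∑ p ∈ PR u (u ^ (1 + η)), 1 / (p : ℝ) ≤ 1 := by
  obtain ⟨C, hC, h⟩ := mert_sum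
  filter_upwards [eventually_ge_atTop (2 : ℝ),
    tendsto_log_atTop.eventually_ge_atTop (100 * C / η)] with u h1 h2
  have h3 : 0 < log u := log_pos (by linarith)
  have h4 := h u (u ^ (1 + η)) h1 (self_le_rpow_of_one_le (by linarith) (by linarith))
  rw [log_rpow (by linarith), mul_div_cancel_right₀ _ h3.ne', abs_le] at h4
  have h5 : C / log u ≤ η / 100 := by
    rw [div_le_iff₀ hη] at h2
    rw [div_le_iff₀ h3]
    linarith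
  have h6 := log_le_sub_one_of_pos (by linarith : 0 < 1 + η)
  have h7 := one_sub_inv_le_log_of_pos (by linarith : 0 < 1 + η)
  have h8 : (1 + η)⁻¹ ≤ 1 - 98 / 100 * η := by
    rw [inv_le_iff_one_le_mul₀ (by linarith)]
    nlinarith
  constructor <;> linarith [h4.1, h4.2]

theorem coreM_rec (J : Finset ℕ) (f : ℕ → ℝ) (k : ℕ) :
    ((k : ℝ) + 1) * ∑ b ∈ J.powersetCard (k + 1), ∏ q ∈ b, f q =
      ∑ a ∈ J.powersetCard k, (∏ q ∈ a, f q) * ∑ q ∈ J \ a, f q := by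
  have h1 : ((k : ℝ) + 1) * ∑ b ∈ J.powersetCard (k + 1), ∏ q ∈ b, f q =
      ∑ b ∈ J.powersetCard (k + 1), ∑ r ∈ b, (∏ q ∈ b.erase r, f q) * f r := by
    rw [mul_sum]
    refine sum_congr rfl fun b hb => ?_
    rw [sum_congr rfl fun r hr => prod_erase_mul b f hr, sum_const, (mem_powersetCard.1 hb).2]
    simp
  rw [h1]
  simp only [mul_sum]
  rw [sum_sigma', sum_sigma']
  refine sum_bij' (fun z _ => ⟨z.1.erase z.2, z.2⟩) (fun z _ => ⟨insert z.2 z.1, z.2⟩) ?_ ?_ ?_ ?_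
    fun _ _ => rfl
  · rintro ⟨b, r⟩ hz
    simp only [mem_sigma, mem_powersetCard, Finset.mem_sdiff] at hz ⊢
    exact ⟨⟨(erase_subset _ _).trans hz.1.1, by rw [card_erase_of_mem hz.2, hz.1.2]; rfl⟩,
      hz.1.1 hz.2, notMem_erase _ _⟩
  · rintro ⟨a, r⟩ hz
    simp only [mem_sigma, mem_powersetCard, Finset.mem_sdiff] at hz ⊢
    exact ⟨⟨insert_subset hz.2.1 hz.1.1, by rw [card_insert_of_notMem hz.2.2, hz.1.2]⟩,
      mem_insert_self _ _⟩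
  · rintro ⟨b, r⟩ hz
    simp only [mem_sigma] at hz
    simp only [insert_erase hz.2]
  · rintro ⟨a, r⟩ hz
    simp only [mem_sigma, Finset.mem_sdiff] at hz
    simp only [erase_insert hz.2.2]

theorem coreM_sym {J : Finset ℕ} {f : ℕ → ℝ} {t c : ℝ} {n : ℕ} (h0 : ∀ q, 0 ≤ f q) (ht : 0 ≤ t)
    (h1 : ∀ q ∈ J, f q ≤ t) (hc : 0 ≤ c) (h2 : c + n * t ≤ ∑ q ∈ J, f q) (h3 : ∑ q ∈ J, f q ≤ 1)
    {k : ℕ} (hk : k ≤ n) : c ^ k / k.factorial ≤ ∑ a ∈ J.powersetCard k, ∏ q ∈ a, f q ∧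
      ∑ a ∈ J.powersetCard k, ∏ q ∈ a, f q ≤ 1 := by
  induction k with
  | zero => simp
  | succ k ih =>
    obtain ⟨i1, i2⟩ := ih (Nat.le_of_succ_le hk)
    have hp : ∀ a : Finset ℕ, 0 ≤ ∏ q ∈ a, f q := fun a => prod_nonneg fun q _ => h0 q
    have e := coreM_rec J f k
    have l1 : (∑ a ∈ J.powersetCard k, ∏ q ∈ a, f q) * c ≤
        ∑ a ∈ J.powersetCard k, (∏ q ∈ a, f q) * ∑ q ∈ J \ a, f q := by
      rw [sum_mul]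
      refine sum_le_sum fun a ha => mul_le_mul_of_nonneg_left ?_ (hp a)
      obtain ⟨a1, a2⟩ := mem_powersetCard.1 ha
      have a3 := sum_le_card_nsmul a f t fun q hq => h1 q (a1 hq)
      have a4 : (k : ℝ) ≤ n := by exact_mod_cast Nat.le_of_succ_le hk
      rw [a2, nsmul_eq_mul] at a3
      rw [sum_sdiff_eq_sub a1]
      nlinarith
    have l2 : ∑ a ∈ J.powersetCard k, (∏ q ∈ a, f q) * ∑ q ∈ J \ a, f q ≤ 1 :=
      (sum_le_sum fun a _ => mul_le_of_le_one_right (hp a) ((sum_le_sum_of_subset_of_nonneg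
        sdiff_subset fun q _ _ => h0 q).trans h3)).trans i2
    have k0 : (0 : ℝ) ≤ k := Nat.cast_nonneg k
    have p0 : 0 ≤ ∑ b ∈ J.powersetCard (k + 1), ∏ q ∈ b, f q := sum_nonneg fun a _ => hp a
    refine ⟨le_of_mul_le_mul_left (le_trans (le_of_eq ?_) (((mul_le_mul_of_nonneg_right i1
      hc).trans l1).trans e.ge)) (by linarith), by nlinarith⟩
    rw [Nat.factorial_succ]
    push_cast
    field_simp
    ring

theorem coreM_ne {β β' : ℕ × ℤ} (h1 : 1 ≤ β.1) (h : Int.gcd β.1 β.2 = 1)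
    (h' : Int.gcd β'.1 β'.2 = 1) (e : (β'.1 : ℤ) * β.2 - β.1 * β'.2 = 0) : β = β' := by
  rw [sub_eq_zero] at e
  have d1 : (β.1 : ℤ) ∣ β'.1 :=
    (Int.isCoprime_iff_gcd_eq_one.2 h).dvd_of_dvd_mul_right (e ▸ dvd_mul_right _ _)
  have d2 : (β'.1 : ℤ) ∣ β.1 :=
    (Int.isCoprime_iff_gcd_eq_one.2 h').dvd_of_dvd_mul_right (e ▸ dvd_mul_right _ _)
  have e1 : β.1 = β'.1 := Nat.dvd_antisymm (Int.natCast_dvd_natCast.1 d1)
    (Int.natCast_dvd_natCast.1 d2)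
  rw [← e1] at e
  exact Prod.ext e1 (mul_left_cancel₀ (by omega) e)

theorem coreM_B1 {η : ℝ} (hη : 0 < η) (hη' : η ≤ 1 / 50) : ∀ᶠ y : ℕ in atTop,
    97 / 100 * η ≤ ∑ p ∈ B1 η y, 1 / (p : ℝ) ∧ ∑ p ∈ B1 η y, 1 / (p : ℝ) ≤ 1 := by
  exact (coreM_tend (by norm_num : (0 : ℝ) < 3 / 10)).eventually (coreM_mass hη hη')

theorem coreM_AA {n : ℕ} (hn : 6 ≤ n) {η : ℝ} (hη : 0 < η) (hη' : η ≤ 1 / 50) :
    ∀ᶠ y : ℕ in atTop, (η / 3) ^ n / n.factorial ≤ ∑ a ∈ AA n η y, 1 / (pr a : ℝ) ∧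
      ∑ a ∈ AA n η y, 1 / (pr a : ℝ) ≤ 1 := by
  have hn0 : (0 : ℝ) < n := by exact_mod_cast (by omega : 0 < n)
  have hw : Tendsto (ww n) atTop atTop := tendsto_atTop_mono' _ ((coreA_w hn).mono fun _ h => h.1)
    (coreM_tend (by positivity))
  filter_upwards [hw.eventually (coreM_mass hη hη'), hw.eventually_ge_atTop (6 * n / η)]
    with y h1 h2
  have h3 : 0 < ww n y := exp_pos _
  have e : ∀ a : Finset ℕ, 1 / (pr a : ℝ) = ∏ q ∈ a, 1 / (q : ℝ) := fun a => by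
    rw [pr_cast, prod_div_distrib, prod_const_one]
  simp only [e]
  refine coreM_sym (t := 1 / ww n y) (fun q => by positivity) (by positivity)
    (fun q hq => one_div_le_one_div_of_le h3 ((mem_PR h3.le (by positivity)).1 hq).2.1.le)
    (by positivity) ?_ h1.2 le_rfl
  have h4 : n * (1 / ww n y) ≤ η / 6 := by
    rw [div_le_iff₀ hη] at h2
    rw [mul_one_div, div_le_iff₀ h3]
    linarith
  linarith [h1.1]

theorem coreM_exc {n : ℕ} (hn : 6 ≤ n) (η : ℝ) {δ₃ c : ℝ} (h3 : 0 < δ₃) (h3' : δ₃ ≤ 1 / 50)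
    (hc : 0 < c) : ∀ᶠ y : ℕ in atTop, ∀ (x : ℕ) (𝔅 : Finset (ℕ × ℤ)),
    (𝔅.card : ℝ) ≤ 2 * (y : ℝ) ^ (6 * δ₃) →
    (∀ β ∈ 𝔅, 1 ≤ β.1 ∧ (β.1 : ℝ) ≤ (y : ℝ) ^ (7 * δ₃) ∧ |(β.2 : ℝ)| ≤ (y : ℝ) ^ (1 + 7 * δ₃) ∧
      Int.gcd β.1 β.2 = 1) →
    ∑ a ∈ (AA n η y).filter (fun a => ∃ β ∈ 𝔅, ∃ β' ∈ 𝔅, β ≠ β' ∧
      (pr a : ℤ) ∣ β.1 * x + β.2 ∧ (pr a : ℤ) ∣ β'.1 * x + β'.2), 1 / (pr a : ℝ) ≤ c := by
  have hn0 : (0 : ℝ) < n := by exact_mod_cast (by omega : 0 < n)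
  filter_upwards [coreA_w hn, eventually_gt_atTop 1,
    (coreM_tend (by norm_num : (0 : ℝ) < 1 / 5)).eventually_ge_atTop 2,
    (coreM_tend (by norm_num : (0 : ℝ) < 1 / 4)).eventually_ge_atTop (4 * 2 ^ (3 * n) / c)]
    with y hw hy h5 h4 x 𝔅 hcard hβ
  have hy1 : (1 : ℝ) < y := by exact_mod_cast hy
  have hy0 : (0 : ℝ) < y := by linarith
  have hw0 : 0 < ww n y := exp_pos _
  have hJ : ∀ q ∈ PR (ww n y) (ww n y ^ (1 + η)), q.Prime ∧ (y : ℝ) ^ (1 / (2 * (n : ℝ))) ≤ q :=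
    fun q hq => ⟨prime_of_mem_PR hq, hw.1.trans ((mem_PR hw0.le (by positivity)).1 hq).2.1.le⟩
  have hT : ∀ b ∈ 𝔅.offDiag, ((PR (ww n y) (ww n y ^ (1 + η))).filter fun q : ℕ =>
      (q : ℤ) ∣ b.2.1 * b.1.2 - b.1.1 * b.2.2).powerset.card ≤ 2 ^ (3 * n) := by
    intro b hb
    obtain ⟨b1, b2, b3⟩ := mem_offDiag.1 hb
    obtain ⟨p1, p2, p3, p4⟩ := hβ _ b1
    obtain ⟨-, q2, q3, q4⟩ := hβ _ b2
    have hM : (b.2.1 : ℤ) * b.1.2 - b.1.1 * b.2.2 ≠ 0 := fun e => b3 (coreM_ne p1 p4 q4 e)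
    have h1 := card_mul_log_le (S := (PR (ww n y) (ww n y ^ (1 + η))).filter fun q : ℕ =>
      (q : ℤ) ∣ b.2.1 * b.1.2 - b.1.1 * b.2.2) hM (rpow_pos_of_pos hy0 (1 / (2 * (n : ℝ))))
      fun q hq => ⟨(hJ q (mem_filter.1 hq).1).1, (hJ q (mem_filter.1 hq).1).2, (mem_filter.1 hq).2⟩
    have h2 : |(((b.2.1 : ℤ) * b.1.2 - b.1.1 * b.2.2 : ℤ) : ℝ)| ≤ (y : ℝ) ^ (3 / 2 : ℝ) := by
      push_cast
      refine (abs_sub _ _).trans ?_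
      rw [abs_mul, abs_mul, Nat.abs_cast, Nat.abs_cast]
      calc _ ≤ (y : ℝ) ^ (7 * δ₃) * (y : ℝ) ^ (1 + 7 * δ₃) +
            (y : ℝ) ^ (7 * δ₃) * (y : ℝ) ^ (1 + 7 * δ₃) := by gcongr
        _ = 2 * (y : ℝ) ^ (7 * δ₃ + (1 + 7 * δ₃)) := by rw [rpow_add hy0 (7 * δ₃)]; ring
        _ ≤ (y : ℝ) ^ (1 / 5 : ℝ) * (y : ℝ) ^ (7 * δ₃ + (1 + 7 * δ₃)) := by gcongr
        _ ≤ _ := by
          rw [← rpow_add hy0]
          exact rpow_le_rpow_of_exponent_le hy1.le (by linarith)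
    have h6 := h1.trans (log_le_log (abs_pos.2 (by exact_mod_cast hM)) h2)
    rw [log_rpow hy0, log_rpow hy0, ← mul_assoc] at h6
    have h7 := le_of_mul_le_mul_right h6 (log_pos hy1)
    rw [mul_one_div, div_le_iff₀ (by positivity)] at h7
    rw [card_powerset]
    refine Nat.pow_le_pow_right two_pos ?_
    exact_mod_cast (h7.trans (le_of_eq (by ring)) : _ ≤ 3 * (n : ℝ))
  refine (sum_le_card_nsmul _ _ (1 / (y : ℝ) ^ (1 / 2 : ℝ)) fun a ha => ?_).trans ?_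
  · obtain ⟨a1, a2⟩ := mem_powersetCard.1 (mem_filter.1 ha).1
    refine one_div_le_one_div_of_le (by positivity) ?_
    rw [pr_cast]
    refine le_trans (le_of_eq ?_) (prod_le_prod (f := fun _ => (y : ℝ) ^ (1 / (2 * (n : ℝ))))
      (fun _ _ => by positivity) fun q hq => (hJ q (a1 hq)).2)
    rw [prod_const, a2, ← rpow_mul_natCast hy0.le]
    congr 1
    field_simp
  have h8 := (card_le_card (t := 𝔅.offDiag.biUnion fun b =>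
      ((PR (ww n y) (ww n y ^ (1 + η))).filter fun q : ℕ =>
        (q : ℤ) ∣ b.2.1 * b.1.2 - b.1.1 * b.2.2).powerset)
      (s := (AA n η y).filter (fun a => ∃ β ∈ 𝔅, ∃ β' ∈ 𝔅, β ≠ β' ∧
        (pr a : ℤ) ∣ β.1 * x + β.2 ∧ (pr a : ℤ) ∣ β'.1 * x + β'.2)) fun a ha => by
    obtain ⟨a1, β, b1, β', b2, b3, b4, b5⟩ := mem_filter.1 ha
    refine mem_biUnion.2 ⟨(β, β'), mem_offDiag.2 ⟨b1, b2, b3⟩, mem_powerset.2 fun q hq =>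
      mem_filter.2 ⟨(mem_powersetCard.1 a1).1 hq, ?_⟩⟩
    have d : (q : ℤ) ∣ pr a := Int.natCast_dvd_natCast.2 (dvd_prod_of_mem _ hq)
    have := ((d.trans b4).mul_left β'.1).sub ((d.trans b5).mul_left β.1)
    exact this.trans (dvd_of_eq (by ring))).trans (card_biUnion_le_card_mul _ _ _ hT)
  have h9 : 𝔅.offDiag.card ≤ 𝔅.card * 𝔅.card := by rw [offDiag_card]; exact Nat.sub_le _ _
  have h10 := (Nat.cast_le (α := ℝ)).2 (h8.trans (Nat.mul_le_mul_right _ h9))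
  push_cast at h10
  have h11 : (y : ℝ) ^ (6 * δ₃) * (y : ℝ) ^ (6 * δ₃) ≤ (y : ℝ) ^ (1 / 4 : ℝ) := by
    rw [← rpow_add hy0]
    exact rpow_le_rpow_of_exponent_le hy1.le (by linarith)
  have h12 : (y : ℝ) ^ (1 / 2 : ℝ) = (y : ℝ) ^ (1 / 4 : ℝ) * (y : ℝ) ^ (1 / 4 : ℝ) := by
    rw [← rpow_add hy0]
    norm_num
  rw [div_le_iff₀ hc] at h4
  rw [nsmul_eq_mul, mul_one_div, div_le_iff₀ (by positivity), h12]
  calc _ ≤ _ := h10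
    _ ≤ 2 * (y : ℝ) ^ (6 * δ₃) * (2 * (y : ℝ) ^ (6 * δ₃)) * 2 ^ (3 * n) := by gcongr
    _ = 4 * 2 ^ (3 * n) * ((y : ℝ) ^ (6 * δ₃) * (y : ℝ) ^ (6 * δ₃)) := by ring
    _ ≤ (y : ℝ) ^ (1 / 4 : ℝ) * c * (y : ℝ) ^ (1 / 4 : ℝ) := by gcongr
    _ = _ := by ring

theorem coreM_lines {δ₃ : ℝ} (h3 : 0 < δ₃) (h3' : δ₃ ≤ 1 / 50) : ∀ᶠ y : ℕ in atTop, ∀ x : ℕ,
    ∃ 𝔅 : Finset (ℕ × ℤ), (𝔅.card : ℝ) ≤ 2 * (y : ℝ) ^ (6 * δ₃) ∧
    (∀ β ∈ 𝔅, 1 ≤ β.1 ∧ (β.1 : ℝ) ≤ (y : ℝ) ^ (7 * δ₃) ∧ |(β.2 : ℝ)| ≤ (y : ℝ) ^ (1 + 7 * δ₃) ∧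
      Int.gcd β.1 β.2 = 1) ∧
    ∀ m ∈ Icc 1 y, Rich x y ((y : ℝ) ^ (1 - 3 * δ₃)) m → ∃ β ∈ 𝔅, ∀ a : ℕ, a ∣ m →
      (∀ p : ℕ, p.Prime → p ∣ a → (y : ℝ) ^ (4 * δ₃) ≤ p) → (a : ℤ) ∣ β.1 * x + β.2 := by
  filter_upwards [eventually_gt_atTop 0, (coreM_tend h3).eventually_ge_atTop 6,
    (coreM_tend (by linarith : 0 < 1 - 3 * δ₃)).eventually_ge_atTop 2] with y hy ht hρ x
  have hy0 : (0 : ℝ) < y := by exact_mod_cast hy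
  obtain ⟨𝔅, h1, h2, h4⟩ := lines x y hρ
  have e : ∀ k : ℕ, (y : ℝ) ^ ((k : ℝ) * δ₃) = ((y : ℝ) ^ δ₃) ^ k := fun k => by
    rw [mul_comm, rpow_mul_natCast hy0.le]
  have e3 := e 3
  have e4 := e 4
  have e6 := e 6
  have e7 := e 7
  push_cast at e3 e4 e6 e7
  have e0 : (y : ℝ) = (y : ℝ) ^ (1 - 3 * δ₃) * ((y : ℝ) ^ δ₃) ^ 3 := by
    rw [← e3, ← rpow_add hy0, sub_add_cancel, rpow_one]
  rw [rpow_add hy0, rpow_one, e4, e6, e7]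
  generalize (y : ℝ) ^ δ₃ = t at *
  generalize (y : ℝ) ^ (1 - 3 * δ₃) = ρ at *
  have t0 : 0 < t ^ 3 := by positivity
  have d1 : (y : ℝ) / (ρ - 1) ≤ 2 * t ^ 3 := by
    rw [div_le_iff₀ (by linarith), e0]
    nlinarith
  have d0 : 0 ≤ (y : ℝ) / (ρ - 1) := div_nonneg hy0.le (by linarith)
  have t1 : 1 ≤ t ^ 3 := one_le_pow₀ (by linarith)
  have d2 : 2 * t ^ 3 < t ^ 4 := by nlinarith
  have d3 : 2 * t ^ 3 * (1 + 2 * t ^ 3) ≤ t ^ 7 := by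
    have : t ^ 7 = t * (t ^ 3 * t ^ 3) := by ring
    nlinarith [mul_le_mul_of_nonneg_right ht (mul_pos t0 t0).le]
  refine ⟨𝔅, ?_, fun β hβ => ?_, fun m hm hr => ?_⟩
  · have : (y : ℝ) ^ 2 = ρ * ρ * t ^ 6 := by rw [e0]; ring
    refine le_of_mul_le_mul_right (h1.trans ?_) (mul_pos (by linarith) (by linarith))
    have t6 : 0 ≤ ρ * t ^ 6 := by positivity
    nlinarith
  · obtain ⟨p1, p2, p3, p4⟩ := h2 β hβ
    refine ⟨p1, p2.trans (d1.trans (by nlinarith)), p3.trans ?_, p4⟩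
    calc _ = y * (y / (ρ - 1) * (1 + y / (ρ - 1))) := by ring
      _ ≤ y * (2 * t ^ 3 * (1 + 2 * t ^ 3)) := by gcongr
      _ ≤ _ := by gcongr
  · obtain ⟨β, hβ, h5⟩ := h4 m hm hr
    exact ⟨β, hβ, fun a ha hp => h5 a ha fun p p1 p2 => (d1.trans_lt d2).trans_le (hp p p1 p2)⟩

end Vale.Agent.P013
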