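import Vale.Agent.P013.Basic

/-! Partial summation in layer cake form. -/

namespace Vale.Agent.P013

open Finset Real MeasureTheory

theorem mertAux_abel {ι : Type*} (s : Finset ι) (c x : ι → ℝ) {l v : ℝ} (hlv : l ≤ v)
    (hc : ∀ i ∈ s, 0 ≤ c i) (hx : ∀ i ∈ s, l ≤ x i ∧ x i ≤ v) {φ ψ B G : ℝ → ℝ}
    (hφ : ∀ t ∈ Set.Icc l v, HasDerivAt φ (-ψ t) t) (hψ : ContinuousOn ψ (Set.Icc l v))
    (hψ0 : ∀ t ∈ Set.Icc l v, 0 ≤ ψ t) (hφv : 0 ≤ φ v)
    (hB : ∀ t ∈ Set.Icc l v, ∑ i ∈ s.filter (fun i => x i ≤ t), c i ≤ B t)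
    (hBc : ContinuousOn B (Set.Icc l v)) (hG : ∀ t ∈ Set.Icc l v, HasDerivAt G (B t * ψ t) t) :
    ∑ i ∈ s, c i * φ (x i) ≤ φ v * B v + (G v - G l) := by
  have hψi : IntegrableOn ψ (Set.Ioc l v) :=
    (hψ.integrableOn_Icc).mono_set Set.Ioc_subset_Icc_self
  have hi : ∀ i, IntegrableOn (fun t => c i * (Set.Ioi (x i)).indicator ψ t) (Set.Ioc l v) :=
    fun i => (hψi.indicator measurableSet_Ioi).const_mul _
  have e1 : ∀ i ∈ s, c i * φ (x i) =
      c i * φ v + ∫ t in Set.Ioc l v, c i * (Set.Ioi (x i)).indicator ψ t := by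
    intro i hi
    obtain ⟨h1, h2⟩ := hx i hi
    have hsub : Set.uIcc (x i) v ⊆ Set.Icc l v := by
      rw [Set.uIcc_of_le h2]
      exact Set.Icc_subset_Icc_left h1
    have h3 := intervalIntegral.integral_eq_sub_of_hasDerivAt (fun t ht => hφ t (hsub ht))
      (hψ.mono hsub).neg.intervalIntegrable
    rw [intervalIntegral.integral_neg, intervalIntegral.integral_of_le h2] at h3
    rw [integral_const_mul, setIntegral_indicator measurableSet_Ioi, Set.Ioc_inter_Ioi,
      sup_eq_right.2 h1, ← mul_add]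
    congr 1
    linarith
  have e2 : ∑ i ∈ s, c i ≤ B v := by
    have := hB v ⟨hlv, le_rfl⟩
    rwa [filter_true_of_mem fun i hi => (hx i hi).2] at this
  have hBψ : ContinuousOn (fun t => B t * ψ t) (Set.Icc l v) := hBc.mul hψ
  have e3 : ∫ t in Set.Ioc l v, B t * ψ t = G v - G l := by
    rw [← intervalIntegral.integral_of_le hlv]
    refine intervalIntegral.integral_eq_sub_of_hasDerivAt (fun t ht => hG t ?_) ?_
    · rwa [Set.uIcc_of_le hlv] at ht
    · refine ContinuousOn.intervalIntegrable ?_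
      rwa [Set.uIcc_of_le hlv]
  rw [sum_congr rfl e1, sum_add_distrib, ← sum_mul, ← integral_finsetSum _ fun i _ => hi i, ← e3,
    mul_comm]
  refine add_le_add (mul_le_mul_of_nonneg_left e2 hφv) ?_
  refine setIntegral_mono_on (integrable_finsetSum _ fun i _ => hi i)
    (hBψ.integrableOn_Icc.mono_set Set.Ioc_subset_Icc_self) measurableSet_Ioc fun t ht => ?_
  have ht' := Set.Ioc_subset_Icc_self ht
  refine le_trans ?_ (mul_le_mul_of_nonneg_right (hB t ht') (hψ0 t ht'))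
  rw [sum_filter, sum_mul]
  refine sum_le_sum fun i hi => ?_
  by_cases h : x i < t
  · rw [Set.indicator_of_mem (show t ∈ Set.Ioi (x i) from h), if_pos h.le]
  · rw [Set.indicator_of_notMem (show t ∉ Set.Ioi (x i) from h), mul_zero]
    refine mul_nonneg ?_ (hψ0 t ht')
    split_ifs
    · exact hc i hi
    · exact le_rfl

end Vale.Agent.P013
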