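import Vale.Agent.P013.ChainB
import Vale.Agent.P013.Liou

/-!
Remainders of the parity sequences `{N < D : λ N = σ}`. For a chain `d`, `q = pr d < D` (`pr_lt_of_chain`,
`D^(3/5) ≤ D`), `t = D / q > 1`. Writing `N = q m`, the count is the number of `1 ≤ m < t` with
`λ m = σ λ q =: σ'`, that is `∑ m, (1 + σ' λ m) / 2` (`λ m = ± 1`). The number of `m` is within `1` of `t`, and
`∑ m < t, λ m` is within `1` of `∑ m ≤ t, λ m`. So the remainder is at most `1 + |Lv t| / 2 ≤ C t / (1 + log t)^4`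
(`liou` and `(1 + log t)^4 ≤ C t`). Sort the chains by `k = ⌊log (D / q)⌋₊`, so that `win D k d` holds and
`1 + log t ≥ 1 + k`; by `cb1` the total is at most
`∑ k, C D / (1 + k)^4 * C' (k + 1)^2 / log D ^ 2 ≤ 2 C C' D / log D ^ 2`.
-/

namespace Vale.Agent.P013

open Finset Real

theorem ModelA_liou {n : ℕ} (h : n ≠ 0) :
    ArithmeticFunction.liouville n = 1 ∨ ArithmeticFunction.liouville n = -1 := by
  rw [ArithmeticFunction.liouville_apply h]
  exact neg_one_pow_eq_or ℤ _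

theorem ModelA_abs {n : ℕ} (h : n ≠ 0) : |(ArithmeticFunction.liouville n : ℝ)| = 1 := by
  rcases ModelA_liou h with h1 | h1 <;> rw [h1] <;> simp

theorem ModelA_count {D : ℝ} {q : ℕ} (hq : 0 < q) {σ : ℤ} (hσ : σ = 1 ∨ σ = -1) :
    ((((Ico 1 ⌈D⌉₊).filter fun N => ArithmeticFunction.liouville N = σ).filter
      fun N => q ∣ N).card : ℝ) = ∑ m ∈ Ico 1 ⌈D / q⌉₊,
        (1 + (σ : ℝ) * (ArithmeticFunction.liouville q : ℝ) *
          (ArithmeticFunction.liouville m : ℝ)) / 2 := by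
  have hq' : (0 : ℝ) < q := by exact_mod_cast hq
  have key : ∀ m : ℕ, q * m < ⌈D⌉₊ ↔ m < ⌈D / q⌉₊ := by
    intro m
    rw [Nat.lt_ceil, Nat.lt_ceil, lt_div_iff₀ hq', Nat.cast_mul, mul_comm]
  have h1 : (((Ico 1 ⌈D⌉₊).filter fun N => ArithmeticFunction.liouville N = σ).filter
      fun N => q ∣ N).card = ((Ico 1 ⌈D / q⌉₊).filter
        fun m => ArithmeticFunction.liouville (q * m) = σ).card := by
    symm
    refine card_bij (fun m _ => q * m) (fun m hm => ?_)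
      (fun a _ b _ h => Nat.eq_of_mul_eq_mul_left hq h) fun N hN => ?_
    · simp only [mem_filter, mem_Ico] at hm ⊢
      exact ⟨⟨⟨Nat.mul_pos hq hm.1.1, (key m).2 hm.1.2⟩, hm.2⟩, dvd_mul_right _ _⟩
    · simp only [mem_filter, mem_Ico] at hN
      obtain ⟨⟨⟨h1, h2⟩, h3⟩, m, rfl⟩ := hN
      refine ⟨m, ?_, rfl⟩
      simp only [mem_filter, mem_Ico]
      exact ⟨⟨Nat.pos_of_mul_pos_left h1, (key m).1 h2⟩, h3⟩
  rw [h1, card_filter]
  push_cast
  refine sum_congr rfl fun m hm => ?_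
  have hm0 : m ≠ 0 := by have := (mem_Ico.1 hm).1; omega
  rw [ArithmeticFunction.liouville_apply_mul]
  rcases hσ with rfl | rfl <;> rcases ModelA_liou hq.ne' with h2 | h2 <;>
    rcases ModelA_liou hm0 with h3 | h3 <;> rw [h2, h3] <;> norm_num

theorem ModelA_err {D : ℝ} {q : ℕ} (hq : 0 < q) (hD : (q : ℝ) ≤ D) {σ : ℤ} (hσ : σ = 1 ∨ σ = -1) :
    |((((Ico 1 ⌈D⌉₊).filter fun N => ArithmeticFunction.liouville N = σ).filter
      fun N => q ∣ N).card : ℝ) - D / (2 * q)| ≤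
      1 + |∑ n ∈ Icc 1 ⌊D / q⌋₊, (ArithmeticFunction.liouville n : ℝ)| / 2 := by
  have hq' : (0 : ℝ) < q := by exact_mod_cast hq
  have ht : 1 ≤ D / q := (one_le_div hq').2 hD
  have e : D / (2 * q) = D / q / 2 := by field_simp
  rw [ModelA_count hq hσ, e]
  generalize D / q = t at ht
  have h1 : 1 ≤ ⌈t⌉₊ := Nat.ceil_pos.2 (by linarith)
  have h2 : t ≤ ⌈t⌉₊ := Nat.le_ceil t
  have h3 : (⌈t⌉₊ : ℝ) < t + 1 := Nat.ceil_lt_add_one (by linarith)
  have h4 : |∑ n ∈ Ico 1 ⌈t⌉₊, (ArithmeticFunction.liouville n : ℝ)| ≤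
      1 + |∑ n ∈ Icc 1 ⌊t⌋₊, (ArithmeticFunction.liouville n : ℝ)| := by
    have h5 := Nat.ceil_le_floor_add_one t
    have h6 := Nat.floor_le_ceil t
    rw [← Finset.Ico_add_one_right_eq_Icc]
    rcases Nat.eq_or_lt_of_le h5 with h7 | h7
    · rw [h7]; linarith
    · have h8 : ⌊t⌋₊ = ⌈t⌉₊ := by omega
      rw [h8, sum_Ico_succ_top h1]
      have h9 := ModelA_abs (n := ⌈t⌉₊) (by omega)
      have h10 := abs_sub (∑ n ∈ Ico 1 ⌈t⌉₊, (ArithmeticFunction.liouville n : ℝ) +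
        (ArithmeticFunction.liouville ⌈t⌉₊ : ℝ)) (ArithmeticFunction.liouville ⌈t⌉₊ : ℝ)
      rw [add_sub_cancel_right, h9] at h10
      linarith
  have h5 : |(σ : ℝ) * (ArithmeticFunction.liouville q : ℝ)| = 1 := by
    rw [abs_mul, ModelA_abs hq.ne']
    rcases hσ with rfl | rfl <;> simp
  rw [← sum_div, sum_add_distrib, ← mul_sum, sum_const, Nat.card_Ico, nsmul_eq_mul, mul_one,
    Nat.cast_sub h1, Nat.cast_one, ← sub_div, abs_div, abs_two]
  have h6 := abs_add_le ((⌈t⌉₊ : ℝ) - 1 - t) ((σ : ℝ) * (ArithmeticFunction.liouville q : ℝ) *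
    ∑ n ∈ Ico 1 ⌈t⌉₊, (ArithmeticFunction.liouville n : ℝ))
  have h7 : |(⌈t⌉₊ : ℝ) - 1 - t| ≤ 1 := abs_le.2 ⟨by linarith, by linarith⟩
  rw [abs_mul, h5, one_mul] at h6
  rw [add_sub_right_comm]
  linarith

theorem ModelA_log {t : ℝ} (ht : 1 ≤ t) : (1 + log t) ^ 4 ≤ 256 * t := by
  have h0 : 0 ≤ log t := log_nonneg ht
  have h1 : 1 + log t ≤ 4 * exp (log t / 4) := by
    have := add_one_le_exp (log t / 4)
    linarith
  have h2 : exp (log t / 4) ^ 4 = t := by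
    rw [← exp_nat_mul, show ((4 : ℕ) : ℝ) * (log t / 4) = log t by push_cast; ring,
      exp_log (by linarith)]
  calc (1 + log t) ^ 4 ≤ (4 * exp (log t / 4)) ^ 4 := by gcongr
    _ = 256 * t := by rw [mul_pow, h2]; norm_num

theorem ModelA_sum (B : ℕ) :
    ∑ k ∈ range B, 1 / ((k : ℝ) + 1) ^ 2 ≤ 2 - 2 / ((B : ℝ) + 1) := by
  induction B with
  | zero => simp
  | succ B ih =>
    rw [sum_range_succ]
    have h0 : (0 : ℝ) ≤ B := Nat.cast_nonneg B
    have h1 : 1 / ((B : ℝ) + 1) ^ 2 ≤ 2 / ((B : ℝ) + 1) - 2 / (((B + 1 : ℕ) : ℝ) + 1) := by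
      push_cast
      rw [div_sub_div _ _ (by positivity) (by positivity), div_le_div_iff₀ (by positivity)
        (by positivity)]
      nlinarith [mul_nonneg h0 h0]
    linarith

theorem ModelA_win {D : ℝ} {d : Finset ℕ} (hq : 0 < pr d) (hD : (pr d : ℝ) ≤ D) :
    win D (⌊log (D / pr d)⌋₊ : ℕ) d := by
  have hq' : (0 : ℝ) < pr d := by exact_mod_cast hq
  have ht : 1 ≤ D / pr d := (one_le_div hq').2 hD
  have h1 := Nat.floor_le (log_nonneg ht)
  have h2 := Nat.lt_floor_add_one (log (D / pr d))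
  rw [le_log_iff_exp_le (by linarith), le_div_iff₀ hq'] at h1
  rw [log_lt_iff_lt_exp (by linarith), div_lt_iff₀ hq'] at h2
  unfold win
  generalize (⌊log (D / pr d)⌋₊ : ℝ) = k at h1 h2
  constructor
  · rw [show -k - 1 = -(k + 1) by ring, exp_neg, ← div_eq_mul_inv, div_lt_iff₀ (exp_pos _),
      mul_comm]
    exact h2
  · rw [exp_neg, ← div_eq_mul_inv, le_div_iff₀ (exp_pos _), mul_comm]
    exact h1

theorem model_err {δ C : ℝ} (hδ0 : 0 < δ) (hδ : δ ≤ 1 / 4) (h : PA δ C) :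
    ∃ C' D₀ : ℝ, 0 < C' ∧ ∀ D : ℝ, D₀ ≤ D → ∀ par z : ℕ,
      (par = 1 ∨ (par = 0 ∧ (z : ℝ) ≤ D ^ (3 / 5 : ℝ))) → ∀ σ : ℤ, (σ = 1 ∨ σ = -1) →
      ∑ d ∈ chains par D z, |((((Ico 1 ⌈D⌉₊).filter fun N =>
          ArithmeticFunction.liouville N = σ).filter fun N => pr d ∣ N).card : ℝ) -
          D / (2 * pr d)| ≤ C' * D / log D ^ 2 := by
  classical
  obtain ⟨C1, D1, hC1, h1⟩ := cb1
  obtain ⟨C2, hC2, h2⟩ := liou hδ0 hδ h
  refine ⟨2 * ((256 + C2) * C1), max D1 2, by positivity, ?_⟩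
  intro D hD par z hpar σ hσ
  have hD1 : D1 ≤ D := (le_max_left _ _).trans hD
  have hD2 : 2 ≤ D := (le_max_right _ _).trans hD
  have hz : Odd par ∨ (z : ℝ) ≤ D := by
    rcases hpar with rfl | ⟨_, hz⟩
    · exact Or.inl odd_one
    · refine Or.inr (hz.trans ?_)
      conv_rhs => rw [← rpow_one D]
      exact rpow_le_rpow_of_exponent_le (by linarith) (by norm_num)
  have hch : ∀ d ∈ chains par D z, 0 < pr d ∧ (pr d : ℝ) ≤ D := fun d hd =>
    ⟨pr_pos (Comb_prime hd), (pr_lt_of_chain (by linarith) hz hd).le⟩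
  obtain ⟨k, hk⟩ : ∃ k : Finset ℕ → ℕ, ∀ d, k d = ⌊log (D / pr d)⌋₊ := ⟨_, fun _ => rfl⟩
  have step : ∀ d ∈ chains par D z, |((((Ico 1 ⌈D⌉₊).filter fun N =>
      ArithmeticFunction.liouville N = σ).filter fun N => pr d ∣ N).card : ℝ) - D / (2 * pr d)| ≤
      (256 + C2) * D / ((k d : ℝ) + 1) ^ 4 * (1 / (pr d : ℝ)) := by
    intro d hd
    obtain ⟨hq, hqD⟩ := hch d hd
    have hq' : (0 : ℝ) < pr d := by exact_mod_cast hq
    have ht : 1 ≤ D / pr d := (one_le_div hq').2 hqD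
    refine (ModelA_err hq hqD hσ).trans ?_
    have e : (256 + C2) * D / ((k d : ℝ) + 1) ^ 4 * (1 / (pr d : ℝ)) =
        (256 + C2) * (D / pr d) / ((k d : ℝ) + 1) ^ 4 := by field_simp
    have h3 := h2 _ ht
    have h4 := ModelA_log ht
    have h5 : (k d : ℝ) ≤ log (D / pr d) := by rw [hk]; exact Nat.floor_le (log_nonneg ht)
    rw [e]
    generalize D / pr d = t at ht h3 h4 h5
    have h6 : 0 ≤ log t := log_nonneg ht
    have h7 : (1 : ℝ) ≤ 256 * t / (1 + log t) ^ 4 := by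
      rw [one_le_div (by positivity)]; exact h4
    have h8 : (256 + C2) * t / (1 + log t) ^ 4 ≤ (256 + C2) * t / ((k d : ℝ) + 1) ^ 4 := by
      refine div_le_div_of_nonneg_left (by positivity) (by positivity) ?_
      exact pow_le_pow_left₀ (by positivity) (by linarith) 4
    have h9 : (256 + C2) * t / (1 + log t) ^ 4 =
        256 * t / (1 + log t) ^ 4 + C2 * t / (1 + log t) ^ 4 := by ring
    have h10 := abs_nonneg (∑ n ∈ Icc 1 ⌊t⌋₊, (ArithmeticFunction.liouville n : ℝ))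
    linarith
  refine (sum_le_sum step).trans ?_
  have hmap : ∀ d ∈ chains par D z, k d ∈ range ((chains par D z).sup k + 1) := fun d hd =>
    mem_range.2 (Nat.lt_succ_of_le (le_sup hd))
  rw [← sum_fiberwise_of_maps_to hmap]
  have hL : 0 < log D := log_pos (by linarith)
  have fib : ∀ j ∈ range ((chains par D z).sup k + 1),
      ∑ d ∈ (chains par D z).filter (fun d => k d = j),
        (256 + C2) * D / ((k d : ℝ) + 1) ^ 4 * (1 / (pr d : ℝ)) ≤
      (256 + C2) * C1 * D / log D ^ 2 * (1 / ((j : ℝ) + 1) ^ 2) := by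
    intro j _
    have h3 := h1 D hD1 par z hpar j (Nat.cast_nonneg j)
    have h4 : ∑ d ∈ (chains par D z).filter (fun d => k d = j), 1 / (pr d : ℝ) ≤
        C1 * ((j : ℝ) + 1) ^ 2 / log D ^ 2 := by
      refine le_trans (sum_le_sum_of_subset_of_nonneg (fun d hd => ?_) fun _ _ _ => by positivity) h3
      rw [mem_filter] at hd ⊢
      refine ⟨hd.1, ?_⟩
      rw [← hd.2, hk]
      exact ModelA_win (hch d hd.1).1 (hch d hd.1).2
    rw [sum_congr rfl fun d hd => by rw [(mem_filter.1 hd).2], ← mul_sum]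
    refine (mul_le_mul_of_nonneg_left h4 (by positivity)).trans (le_of_eq ?_)
    field_simp
  refine (sum_le_sum fib).trans ?_
  rw [← mul_sum]
  have h3 := ModelA_sum ((chains par D z).sup k + 1)
  have h4 : (0 : ℝ) ≤ 2 / ((((chains par D z).sup k + 1 : ℕ) : ℝ) + 1) := by positivity
  refine (mul_le_mul_of_nonneg_left (h3.trans (sub_le_self _ h4)) (by positivity)).trans
    (le_of_eq ?_)
  ring

end Vale.Agent.P013
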