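import Vale.Agent.P013.Basic

/-! Integral representation of L-series of periodic sequences (adapted from `P020/Growth`). -/

namespace Vale.Agent.P013

open Finset Filter

theorem pa1_sum_range {q : ℕ} [NeZero q] (Φ : ZMod q → ℂ) (N : ℕ) :
    ∑ i ∈ range q, Φ ((N + i : ℕ) : ZMod q) = ∑ a, Φ a := by
  rw [← Equiv.sum_comp (Equiv.addLeft (N : ZMod q)) Φ]
  refine sum_nbij' (fun i => (i : ZMod q)) ZMod.val (fun _ _ => mem_univ _)
    (fun a _ => mem_range.2 (ZMod.val_lt a)) (fun i hi => ZMod.val_cast_of_lt (mem_range.1 hi))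
    (fun a _ => ZMod.natCast_zmod_val a) fun i _ => by simp

theorem pa1_psum {q : ℕ} [NeZero q] (Φ : ZMod q → ℂ) (hΦ : ∀ a, ‖Φ a‖ ≤ 1) (N : ℕ) :
    ‖∑ k ∈ Icc 1 N, Φ k - (∑ a, Φ a) / q * N‖ ≤ (q - 1) + ‖(∑ a, Φ a) / q‖ * (q - 1) := by
  have hq : 0 < q := NeZero.pos q
  induction N using Nat.strong_induction_on with
  | _ N ih =>
    rcases lt_or_ge N q with h | h
    · have h' : (N : ℝ) ≤ q - 1 := by
        have : (N : ℝ) + 1 ≤ q := by exact_mod_cast h
        linarith
      refine (norm_sub_le _ _).trans (add_le_add ((norm_sum_le _ _).trans ?_) ?_)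
      · refine (sum_le_sum fun (k : ℕ) _ => hΦ k).trans ?_
        simpa using h'
      · rw [norm_mul, Complex.norm_natCast]
        gcongr
    · obtain ⟨M, rfl⟩ := Nat.exists_eq_add_of_le' h
      refine le_of_eq_of_le ?_ (ih M (by omega))
      congr 1
      have e : ∀ n : ℕ, ∑ k ∈ Icc 1 n, Φ k = ∑ k ∈ range n, Φ ((1 + k : ℕ) : ZMod q) := by
        intro n
        rw [← Finset.Ico_add_one_right_eq_Icc, sum_Ico_eq_sum_range]
        simp
      rw [e, e, sum_range_add]
      simp only [← add_assoc]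
      rw [pa1_sum_range]
      have : (q : ℂ) ≠ 0 := by exact_mod_cast hq.ne'
      push_cast
      field_simp
      ring

theorem pa1_mean_le {q : ℕ} [NeZero q] (Φ : ZMod q → ℂ) (hΦ : ∀ a, ‖Φ a‖ ≤ 1) :
    ‖(∑ a, Φ a) / q‖ ≤ 1 := by
  have hq : (0 : ℝ) < q := by exact_mod_cast NeZero.pos q
  rw [norm_div, Complex.norm_natCast, div_le_one hq]
  refine (norm_sum_le _ _).trans ((sum_le_sum fun a _ => hΦ a).trans ?_)
  simp

open MeasureTheory in
theorem pa1_exists_I {a : ℕ → ℂ} (ha : ∀ n, ‖a n‖ ≤ 1) {c : ℂ} {B : ℝ}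
    (hB : ∀ N : ℕ, ‖∑ k ∈ Icc 1 N, a k - c * N‖ ≤ B) :
    ∃ I : ℂ → ℂ, DifferentiableOn ℂ I {s | 0 < s.re} ∧
      (∀ s : ℂ, 1 / 2 ≤ s.re → ‖I s‖ ≤ 2 * (B + ‖c‖)) ∧
      ∀ s : ℂ, 1 < s.re → LSeries a s = s * (I s + c / (s - 1)) := by
  set R : ℝ → ℂ := fun t => ∑ k ∈ Icc 1 ⌊t⌋₊, a k - c * t with hR
  have hB0 : 0 ≤ B := (norm_nonneg _).trans (hB 0)
  have hRb : ∀ t, 0 ≤ t → ‖R t‖ ≤ B + ‖c‖ := by
    intro t ht
    have e : R t = (∑ k ∈ Icc 1 ⌊t⌋₊, a k - c * (⌊t⌋₊ : ℕ)) - c * ((t - ⌊t⌋₊ : ℝ) : ℂ) := by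
      rw [hR]; push_cast; ring
    rw [e]
    refine (norm_sub_le _ _).trans (add_le_add (hB _) ?_)
    rw [norm_mul, Complex.norm_real, Real.norm_of_nonneg (sub_nonneg.2 (Nat.floor_le ht))]
    exact mul_le_of_le_one_right (norm_nonneg _) (by linarith [Nat.lt_floor_add_one t])
  have hRm : Measurable R := by
    have h1 : Measurable fun t : ℝ => ∑ k ∈ Icc 1 ⌊t⌋₊, a k :=
      (measurable_from_nat (f := fun n : ℕ => ∑ k ∈ Icc 1 n, a k)).comp Nat.measurable_floor
    exact h1.sub (by fun_prop)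
  set f : ℝ → ℂ := (Set.Ioi 1).indicator R with hf
  have hfb : ∀ t, ‖f t‖ ≤ B + ‖c‖ := by
    intro t
    by_cases ht : t ∈ Set.Ioi (1 : ℝ)
    · rw [hf, Set.indicator_of_mem ht]
      exact hRb t (zero_le_one.trans (le_of_lt ht))
    · rw [hf, Set.indicator_of_notMem ht, norm_zero]
      positivity
  have hfm : Measurable f := hRm.indicator measurableSet_Ioi
  have hI : ∀ s : ℂ, mellin f (-s) = ∫ t in Set.Ioi (1 : ℝ), R t * (t : ℂ) ^ (-(s + 1)) := by
    intro s
    have e : (fun t : ℝ => (t : ℂ) ^ (-s - 1) • f t) =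
        (Set.Ioi 1).indicator fun t : ℝ => R t * (t : ℂ) ^ (-(s + 1)) := by
      funext t
      by_cases ht : t ∈ Set.Ioi (1 : ℝ)
      · rw [hf, Set.indicator_of_mem ht, Set.indicator_of_mem ht, smul_eq_mul, mul_comm]
        congr 2
        ring
      · rw [hf, Set.indicator_of_notMem ht, Set.indicator_of_notMem ht, smul_zero]
    rw [mellin, e, setIntegral_indicator measurableSet_Ioi, Set.Ioi_inter_Ioi]
    simp
  have hbd : ∀ s : ℂ, 1 / 2 ≤ s.re → ∀ t ∈ Set.Ioi (1 : ℝ),
      ‖R t * (t : ℂ) ^ (-(s + 1))‖ ≤ (B + ‖c‖) * t ^ (-(3 / 2) : ℝ) := by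
    intro s hs t ht
    have ht1 : 1 < t := ht
    rw [norm_mul, Complex.norm_cpow_eq_rpow_re_of_pos (by linarith)]
    refine mul_le_mul (hRb t (by linarith)) (Real.rpow_le_rpow_of_exponent_le ht1.le ?_)
      (by positivity) (by positivity)
    simp only [neg_add_rev, Complex.add_re, Complex.neg_re, Complex.one_re]
    linarith
  have hint : IntegrableOn (fun t : ℝ => (B + ‖c‖) * t ^ (-(3 / 2) : ℝ)) (Set.Ioi 1) :=
    (integrableOn_Ioi_rpow_of_lt (by norm_num) one_pos).const_mul _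
  have hval : ∫ t in Set.Ioi (1 : ℝ), (B + ‖c‖) * t ^ (-(3 / 2) : ℝ) = 2 * (B + ‖c‖) := by
    rw [integral_const_mul, integral_Ioi_rpow_of_lt (by norm_num) one_pos, Real.one_rpow]
    ring
  refine ⟨fun s => mellin f (-s), fun s hs => ?_, fun s hs => ?_, fun s hs => ?_⟩
  · have hs0 : 0 < s.re := hs
    refine DifferentiableAt.differentiableWithinAt 
      (DifferentiableAt.comp (g := mellin f) (f := fun s : ℂ => -s) s ?_ (by fun_prop))
    refine mellin_differentiableAt_of_isBigO_rpow (a := 0) (b := -s.re - 1) ?_ ?_ (by simpa) ?_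
      (by simp)
    · refine LocallyIntegrable.locallyIntegrableOn ?_ _
      exact (locallyIntegrable_const (B + ‖c‖)).mono hfm.aestronglyMeasurable
        (Eventually.of_forall fun t => (hfb t).trans (le_abs_self _))
    · refine Asymptotics.IsBigO.of_bound (B + ‖c‖) (Eventually.of_forall fun t => ?_)
      simpa using hfb t
    · refine Asymptotics.IsBigO.of_bound 0 ?_
      filter_upwards [mem_nhdsWithin_of_mem_nhds (Iio_mem_nhds one_pos)] with t ht
      rw [hf, Set.indicator_of_notMem (by simpa using le_of_lt ht)]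
      simp
  · simp only [hI]
    rw [← hval]
    exact norm_integral_le_of_norm_le hint
      ((ae_restrict_iff' measurableSet_Ioi).2 (Eventually.of_forall (hbd s hs)))
  · have hs1 : s - 1 ≠ 0 := fun h => by
      rw [sub_eq_zero.1 h] at hs; simp at hs
    simp only [hI]
    rw [LSeries_eq_mul_integral' a zero_le_one hs]
    · congr 1
      have i1 : IntegrableOn (fun t : ℝ => R t * (t : ℂ) ^ (-(s + 1))) (Set.Ioi 1) := by
        refine hint.mono' (hRm.aestronglyMeasurable.mul ?_)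
          ((ae_restrict_iff' measurableSet_Ioi).2 (Eventually.of_forall (hbd s (by linarith))))
        exact (integrableOn_Ioi_cpow_of_lt (by simp; linarith) one_pos).aestronglyMeasurable
      have i2 : IntegrableOn (fun t : ℝ => c * (t : ℂ) ^ (-s)) (Set.Ioi 1) :=
        (integrableOn_Ioi_cpow_of_lt (by simpa) one_pos).const_mul _
      have i3 : ∫ t in Set.Ioi (1 : ℝ), c * (t : ℂ) ^ (-s) = c / (s - 1) := by
        rw [integral_const_mul, integral_Ioi_cpow_of_lt (by simpa) one_pos]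
        have : -s + 1 ≠ 0 := fun h => hs1 (by linear_combination -h)
        simp only [Complex.ofReal_one, Complex.one_cpow]
        field_simp
        ring
      rw [← i3, ← integral_add i1 i2]
      refine setIntegral_congr_fun measurableSet_Ioi fun t ht => ?_
      have ht1 : 1 < t := ht
      have ht0 : (t : ℂ) ≠ 0 := by exact_mod_cast (by linarith : t ≠ 0)
      have e : (t : ℂ) ^ (-s) = t * (t : ℂ) ^ (-(s + 1)) := by
        rw [show -s = 1 + -(s + 1) by ring, Complex.cpow_add _ _ ht0, Complex.cpow_one]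
      simp only [hR, e]
      ring
    · refine Asymptotics.IsBigO.of_bound 1 (Eventually.of_forall fun n => ?_)
      rw [Real.norm_of_nonneg (sum_nonneg fun _ _ => norm_nonneg _)]
      refine (sum_le_sum fun k _ => ha k).trans ?_
      simp

theorem pa1_ident {F G : ℂ → ℂ} (hF : DifferentiableOn ℂ F {s | 0 < s.re})
    (hG : DifferentiableOn ℂ G {s | 0 < s.re}) (h : ∀ s : ℂ, 1 < s.re → F s = G s) {s : ℂ}
    (hs : 0 < s.re) : F s = G s := by
  have ho : IsOpen {s : ℂ | 0 < s.re} := isOpen_lt continuous_const Complex.continuous_re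
  have ho1 : IsOpen {s : ℂ | 1 < s.re} := isOpen_lt continuous_const Complex.continuous_re
  refine (hF.analyticOnNhd ho).eqOn_of_preconnected_of_eventuallyEq (hG.analyticOnNhd ho)
    (convex_halfSpace_re_gt 0).isPreconnected (z₀ := 2) (by simp) ?_ hs
  filter_upwards [ho1.mem_nhds (show (2 : ℂ) ∈ {s : ℂ | 1 < s.re} by simp)] with z hz
  exact h z hz

end Vale.Agent.P013
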