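import Vale.Agent.P013.Basic
import Vale.Agent.P013.PA1Aux

/-!
The entire function `HH χ` (`L(s, χ)` for `χ ≠ 1`, `(s - 1) L(s, χ)` for `χ = 1`).
`HH_diff`: `differentiable_LFunction`, `differentiable_LFunctionTrivChar₁`.
`HH_upper`: let `A t = ∑ k ∈ Icc 1 ⌊t⌋₊, χ k`, `ρ = φ(q) / q` for `χ = 1` and `ρ = 0` otherwise. Then
`‖A t - ρ t‖ ≤ q` for `t ≥ 0` (the sum over a full period is `ρ q`: `MulChar.sum_eq_zero_of_ne_one`,
`MulChar.sum_one_eq_card_units`; an incomplete period contributes at most `q`, and for `χ = 1` both the count and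
`φ(q) {t / q}` lie in `[0, q]`). `E s = ∫ t in Ioi 1, (A t - ρ t) t^(-(s+1))` is holomorphic on `0 < re s` (it is a Mellin
transform: `mellin_differentiableAt_of_isBigO_rpow` for `f t = indicator (Ioi 1) (A t - ρ t)` at `-s`, or of
`t ↦ f (1 / t)` at `s`) with `‖E s‖ ≤ q / re s`. For `1 < re s`, `LSeries_eq_mul_integral` gives
`L(s) = ρ s / (s - 1) + s E s`. By the identity theorem on the half plane `0 < re s`
(`AnalyticOnNhd.eqOn_of_preconnected_of_eventuallyEq`), `HH χ s = s E s` or `ρ s + s (s - 1) E s`.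
`HH_lower`: `‖L(2 + i t) - 1‖ ≤ ∑ n ≥ 2, 1 / n² ≤ 3 / 4` (`hasSum_zeta_two`, `π² / 6 ≤ 7 / 4`), `‖s - 1‖ ≥ 1`.
`HH_ne`: `ZF`, `LFunctionTrivChar₁_apply_one_ne_zero`.
`HH_logderiv`: `LSeries_twist_vonMangoldt_eq`, `LFunction_eq_LSeries`, `deriv_LFunction_eq_deriv_LSeries`,
`deriv_LFunctionTrivChar₁_apply_of_ne_one`, `LSeries_ne_zero_of_one_lt_re`.
-/

namespace Vale.Agent.P013

open Finset Complex
open scoped ArithmeticFunction.vonMangoldt

open Classical

theorem pa1_triv {q : ℕ} [NeZero q] {χ : DirichletCharacter ℂ q} (hχ : χ = 1) {s : ℂ}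
    (hs : s ≠ 1) : HH χ s = (s - 1) * DirichletCharacter.LFunction χ s := by
  rw [HH, if_pos hχ, DirichletCharacter.LFunctionTrivChar₁, Function.update_of_ne hs, hχ]

theorem pa1_nontriv {q : ℕ} [NeZero q] {χ : DirichletCharacter ℂ q} (hχ : χ ≠ 1) :
    HH χ = DirichletCharacter.LFunction χ := by
  rw [HH, if_neg hχ]

theorem pa1_lower {a : ℕ → ℂ} (ha : ∀ n, ‖a n‖ ≤ 1) (h1 : a 1 = 1) {s : ℂ} (hs : s.re = 2) :
    1 / 4 ≤ ‖LSeries a s‖ := by
  have hz := hasSum_zeta_two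
  have hb : ∀ n : ℕ, ‖LSeries.term a s n‖ ≤ 1 / (n : ℝ) ^ 2 := fun n => by
    rw [LSeries.norm_term_eq, hs]
    split_ifs with h
    · positivity
    · rw [Real.rpow_two]
      exact div_le_div_of_nonneg_right (ha n) (by positivity)
  have hsum : Summable (LSeries.term a s) := Summable.of_norm_bounded hz.summable hb
  have e1 := hsum.sum_add_tsum_nat_add 2
  have e2 := (hasSum_nat_add_iff' 2).2 hz
  have e3 := tsum_of_norm_bounded e2 fun n => hb (n + 2)
  have e4 : ∑ i ∈ range 2, LSeries.term a s i = 1 := by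
    simp [sum_range_succ, h1]
  have e5 : ∑ i ∈ range 2, 1 / (i : ℝ) ^ 2 = 1 := by
    simp [sum_range_succ]
  rw [e4] at e1
  rw [e5] at e3
  have e6 : Real.pi ^ 2 / 6 ≤ 7 / 4 := by
    nlinarith [Real.pi_lt_d2, Real.pi_pos]
  have e7 : (1 : ℝ) ≤ ‖LSeries a s‖ + ‖∑' i, LSeries.term a s (i + 2)‖ := by
    have : (1 : ℂ) = LSeries a s - ∑' i, LSeries.term a s (i + 2) := by
      rw [LSeries, ← e1]
      ring
    calc (1 : ℝ) = ‖(1 : ℂ)‖ := norm_one.symm
      _ ≤ _ := by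
        rw [this]
        exact norm_sub_le _ _
  linarith

theorem HH_diff {q : ℕ} [NeZero q] (χ : DirichletCharacter ℂ q) : Differentiable ℂ (HH χ) := by
  unfold HH
  split_ifs with h
  · exact DirichletCharacter.differentiable_LFunctionTrivChar₁ q
  · exact DirichletCharacter.differentiable_LFunction h

theorem HH_upper {q : ℕ} [NeZero q] (χ : DirichletCharacter ℂ q) {s : ℂ} (hs : 1 / 2 ≤ s.re) :
    ‖HH χ s‖ ≤ 4 * q * (‖s‖ + 1) ^ 2 := by
  obtain ⟨I, hI, hIb, hL⟩ := pa1_exists_I (a := fun n => χ n) (fun n => χ.norm_le_one _)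
    (pa1_psum (fun a => χ a) fun a => χ.norm_le_one a)
  have hc := pa1_mean_le (fun a => χ a) fun a => χ.norm_le_one a
  have hq : (1 : ℝ) ≤ q := by exact_mod_cast NeZero.pos q
  set c := (∑ a, χ a) / (q : ℂ) with hcdef
  have hIb' : ‖I s‖ ≤ 4 * q - 2 := by
    refine (hIb s hs).trans ?_
    nlinarith [norm_nonneg c]
  have hd := (HH_diff χ).differentiableOn (s := {s : ℂ | 0 < s.re})
  have hs0 := norm_nonneg s
  by_cases hχ : χ = 1
  · have e := pa1_ident hd (G := fun s => s * ((s - 1) * I s + c)) (by fun_prop) (fun s hs => by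
      have h1 : s ≠ 1 := fun h => by rw [h] at hs; simp at hs
      have h2 := sub_ne_zero.2 h1
      rw [pa1_triv hχ h1, DirichletCharacter.LFunction_eq_LSeries _ hs, hL s hs]
      field_simp) (s := s) (by linarith)
    rw [e, norm_mul]
    have a1 : ‖s - 1‖ ≤ ‖s‖ + 1 := by simpa using norm_sub_le s 1
    have a2 := mul_le_mul a1 hIb' (norm_nonneg _) (by positivity)
    have a3 : ‖(s - 1) * I s + c‖ ≤ (‖s‖ + 1) * (4 * q) := by
      refine (norm_add_le _ _).trans ?_
      rw [norm_mul]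
      linarith
    calc ‖s‖ * ‖(s - 1) * I s + c‖ ≤ (‖s‖ + 1) * ((‖s‖ + 1) * (4 * q)) :=
          mul_le_mul (by linarith) a3 (norm_nonneg _) (by positivity)
      _ = _ := by ring
  · have e := pa1_ident hd (G := fun s => s * I s) (by fun_prop) (fun s hs => by
      rw [pa1_nontriv hχ, DirichletCharacter.LFunction_eq_LSeries _ hs, hL s hs, hcdef,
        MulChar.sum_eq_zero_of_ne_one hχ]
      simp) (s := s) (by linarith)
    rw [e, norm_mul]
    calc ‖s‖ * ‖I s‖ ≤ (‖s‖ + 1) ^ 2 * (4 * q) :=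
          mul_le_mul (by nlinarith) (by linarith) (norm_nonneg _) (by positivity)
      _ = _ := by ring

theorem HH_lower {q : ℕ} [NeZero q] (χ : DirichletCharacter ℂ q) {s : ℂ} (hs : s.re = 2) :
    1 / 4 ≤ ‖HH χ s‖ := by
  have h1 : 1 < s.re := by rw [hs]; norm_num
  have h2 := pa1_lower (a := fun n => χ n) (fun n => χ.norm_le_one _) (by simp) hs
  rw [← DirichletCharacter.LFunction_eq_LSeries _ h1] at h2
  by_cases hχ : χ = 1
  · have h3 : s ≠ 1 := fun h => by rw [h] at h1; simp at h1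
    rw [pa1_triv hχ h3, norm_mul]
    have h4 : 1 ≤ ‖s - 1‖ := le_trans (by simp; linarith) (Complex.re_le_norm (s - 1))
    exact h2.trans (le_mul_of_one_le_left (norm_nonneg _) h4)
  · rwa [pa1_nontriv hχ]

theorem HH_ne (h : ZF) {q : ℕ} [NeZero q] (χ : DirichletCharacter ℂ q) {s : ℂ}
    (hs : 1999 / 2000 < s.re) : HH χ s ≠ 0 := by
  by_cases hχ : χ = 1
  · by_cases h1 : s = 1
    · rw [h1, HH, if_pos hχ]
      exact DirichletCharacter.LFunctionTrivChar₁_apply_one_ne_zero q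
    · rw [pa1_triv hχ h1]
      exact mul_ne_zero (sub_ne_zero.2 h1) (h q χ s hs (Or.inr h1))
  · rw [pa1_nontriv hχ]
    exact h q χ s hs (Or.inl hχ)

theorem HH_logderiv {q : ℕ} [NeZero q] (χ : DirichletCharacter ℂ q) {s : ℂ} (hs : 1 < s.re) :
    LSeries (fun n : ℕ => χ n * (Λ n : ℂ)) s =
      -(deriv (HH χ) s / HH χ s) + (if χ = 1 then 1 else 0) / (s - 1) := by
  have h1 : s ≠ 1 := fun h => by rw [h] at hs; simp at hs
  have h2 := sub_ne_zero.2 h1
  have h3 := DirichletCharacter.LSeries_twist_vonMangoldt_eq χ hs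
  have h4 := DirichletCharacter.LSeries_ne_zero_of_one_lt_re χ hs
  rw [← DirichletCharacter.deriv_LFunction_eq_deriv_LSeries χ hs,
    ← DirichletCharacter.LFunction_eq_LSeries χ hs] at h3
  rw [← DirichletCharacter.LFunction_eq_LSeries χ hs] at h4
  refine Eq.trans h3 ?_
  by_cases hχ : χ = 1
  · have h5 : deriv (HH χ) s = (s - 1) * deriv (DirichletCharacter.LFunction χ) s +
        DirichletCharacter.LFunction χ s := by
      rw [HH, if_pos hχ, DirichletCharacter.deriv_LFunctionTrivChar₁_apply_of_ne_one q h1, hχ]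
    rw [h5, pa1_triv hχ h1, if_pos hχ]
    field_simp
    ring
  · rw [pa1_nontriv hχ, if_neg hχ, zero_div, add_zero, neg_div]

end Vale.Agent.P013
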