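import Vale.Agent.P013.Basic

/-!
Selberg sieve with a down-closed support `𝒟`. `h p = 1 / (p - 1)`, `fw d = ∏ h`, `G = GG 𝒟 ≥ fw ∅ = 1`.
`pr_mul_fw`: `∑ e ⊆ b, fw e = ∏ (1 + h p) = ∏ p / (p - 1) = pr b * fw b` (`Finset.prod_one_add`).
`abs_rho_le`: `d ⊇ b` is `b ∪ c` with `c = d \ b`; `pr b * ∑ d ⊇ b, fw d = ∑ e ⊆ b, ∑ c, fw (e ∪ c) ≤ G` since
`(e, d) ↦ e ∪ (d \ b) ⊆ d` is injective into `𝒟`.
`sel_ineq`: with `Q = Qs W (x + ν)`, the indicator of `Q = ∅` is at most `(∑ b ∈ 𝒟, b ⊆ Q, rho b)²` as `rho ∅ = 1`. Sum over `ν`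
with `a ∣ x + ν`: `a ∣ N ∧ b₁ ⊆ Q ∧ b₂ ⊆ Q ↔ a * pr (b₁ ∪ b₂) ∣ N` (coprimality). The main term is
`(y / a) ∑ b₁ b₂, rho b₁ rho b₂ / pr (b₁ ∪ b₂)`. Diagonalise: `1 / pr (b₁ ∪ b₂) = (1 / (pr b₁ pr b₂)) pr (b₁ ∩ b₂)` and
`pr (b₁ ∩ b₂) = ∑ d ⊆ b₁ ∩ b₂, ∏ p ∈ d, (p - 1) = ∑ d ⊆ b₁ ∩ b₂, 1 / fw d`; so the double sum is
`∑ d ∈ 𝒟, (1 / fw d) (∑ b ∈ 𝒟, b ⊇ d, rho b / pr b)²`, and
`∑ b ⊇ d, (-1)^|b| ∑ e ⊇ b, fw e / G = ∑ e ⊇ d, (fw e / G) ∑ d ⊆ b ⊆ e, (-1)^|b| = (-1)^|d| fw d / G`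
(`Finset.sum_powerset_neg_one_pow_card`). Hence the double sum is `∑ fw d / G² = 1 / G`.
`DD_down`: `sg` is monotone; if `e ⊆ d` misses `J i`, pick `p ∈ d ∩ J i`; `sg e ≤ sg d / ro (bx p) ≤ R / V₀ ≤ R'`.
-/

namespace Vale.Agent.P013

open Finset Real

theorem selA_one_lt {p : ℕ} (hp : p.Prime) : (1 : ℝ) < p := by exact_mod_cast hp.one_lt

theorem selA_sum_le_of_inj {α β : Type*} {s : Finset α} {t : Finset β} {f : α → β} {w : β → ℝ}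
    (hinj : Set.InjOn f s) (hmap : ∀ a ∈ s, f a ∈ t) (hw : ∀ b ∈ t, 0 ≤ w b) :
    ∑ a ∈ s, w (f a) ≤ ∑ b ∈ t, w b := by
  classical
  rw [← sum_image (f := w) hinj]
  refine sum_le_sum_of_subset_of_nonneg (fun b hb => ?_) fun b hb _ => hw b hb
  obtain ⟨a, ha, rfl⟩ := mem_image.1 hb
  exact hmap a ha

theorem selA_fw_union {d e : Finset ℕ} (h : Disjoint d e) : fw (d ∪ e) = fw d * fw e :=
  prod_union h

theorem selA_sg_union (L : ℕ) {d e : Finset ℕ} (h : Disjoint d e) :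
    sg L (d ∪ e) = sg L d * sg L e := prod_union h

theorem fw_pos {d : Finset ℕ} (hd : ∀ p ∈ d, p.Prime) : 0 < fw d := by
  exact prod_pos fun p hp => one_div_pos.2 (sub_pos.2 (selA_one_lt (hd p hp)))

theorem pr_mul_fw {b : Finset ℕ} (hb : ∀ p ∈ b, p.Prime) :
    ∑ e ∈ b.powerset, fw e = pr b * fw b := by
  unfold fw
  rw [← prod_one_add, pr_cast, ← prod_mul_distrib]
  refine prod_congr rfl fun p hp => ?_
  have := (sub_pos.2 (selA_one_lt (hb p hp))).ne'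
  field_simp
  ring

theorem sg_mono (L : ℕ) {d e : Finset ℕ} (h : e ⊆ d) : sg L e ≤ sg L d := by
  exact prod_le_prod_of_subset_of_one_le h (fun p _ => (ro_pos _ _).le) fun p _ _ => one_le_ro _ _

theorem one_le_GG {𝒟 : Finset (Finset ℕ)} (hp : ∀ d ∈ 𝒟, ∀ p ∈ d, p.Prime) (h0 : ∅ ∈ 𝒟) :
    1 ≤ GG 𝒟 := by
  have h := single_le_sum (f := fw) (fun d hd => (fw_pos (hp d hd)).le) h0
  have h1 : fw ∅ = 1 := prod_empty
  rw [h1] at h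
  exact h

theorem abs_rho_le {𝒟 : Finset (Finset ℕ)} (hp : ∀ d ∈ 𝒟, ∀ p ∈ d, p.Prime)
    (hdown : ∀ d ∈ 𝒟, ∀ e ⊆ d, e ∈ 𝒟) (h0 : ∅ ∈ 𝒟) (b : Finset ℕ) : |rho 𝒟 b| ≤ 1 := by
  have hG := one_le_GG hp h0
  have hS : 0 ≤ ∑ d ∈ 𝒟.filter (fun d => b ⊆ d), fw d :=
    sum_nonneg fun d hd => (fw_pos (hp d (mem_filter.1 hd).1)).le
  have key : (pr b : ℝ) * ∑ d ∈ 𝒟.filter (fun d => b ⊆ d), fw d ≤ GG 𝒟 := by
    have h1 : (pr b : ℝ) * ∑ d ∈ 𝒟.filter (fun d => b ⊆ d), fw d =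
        ∑ q ∈ 𝒟.filter (fun d => b ⊆ d) ×ˢ b.powerset, fw (q.2 ∪ (q.1 \ b)) := by
      rw [sum_product, mul_sum]
      refine sum_congr rfl fun d hd => ?_
      obtain ⟨hd1, hd2⟩ := mem_filter.1 hd
      have h2 : fw d = fw b * fw (d \ b) := by
        rw [← selA_fw_union disjoint_sdiff, union_sdiff_of_subset hd2]
      rw [h2, ← mul_assoc, ← pr_mul_fw fun p hb => hp d hd1 p (hd2 hb), sum_mul]
      refine sum_congr rfl fun e he => ?_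
      rw [selA_fw_union (disjoint_sdiff.mono_left (mem_powerset.1 he))]
    rw [h1]
    refine selA_sum_le_of_inj (w := fw) (f := fun q : Finset ℕ × Finset ℕ => q.2 ∪ (q.1 \ b))
      ?_ ?_ fun d hd => (fw_pos (hp d hd)).le
    · rintro ⟨d, e⟩ h ⟨d', e'⟩ h' hh
      simp only [coe_product, Set.mem_prod, mem_coe, mem_filter, mem_powerset] at h h' hh
      have h3 := h.1.2
      have h4 := h.2
      have h5 := h'.1.2
      have h6 := h'.2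
      simp only [Finset.ext_iff, mem_union, mem_sdiff, subset_iff, Prod.mk.injEq] at *
      constructor <;> grind
    · rintro ⟨d, e⟩ h
      simp only [mem_product, mem_filter, mem_powerset] at h
      exact hdown d h.1.1 _ (union_subset (h.2.trans h.1.2) sdiff_subset)
  unfold rho
  rw [abs_div, mul_assoc, abs_mul, abs_pow, abs_neg, abs_one, one_pow, one_mul,
    abs_of_nonneg (by positivity), abs_of_nonneg (by linarith), div_le_one (by linarith)]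
  exact key

theorem selA_alt (d e : Finset ℕ) :
    ∑ b ∈ e.powerset, (if d ⊆ b then (-1 : ℝ) ^ b.card else 0) =
      if d = e then (-1) ^ d.card else 0 := by
  by_cases h : d ⊆ e
  · rw [← sum_filter, ← Icc_eq_filter_powerset, Icc_eq_image_powerset h, sum_image]
    · have h1 : ∀ c ∈ (e \ d).powerset, (-1 : ℝ) ^ (d ∪ c).card = (-1) ^ d.card * (-1) ^ c.card := by
        intro c hc
        rw [card_union_of_disjoint (disjoint_sdiff.mono_right (mem_powerset.1 hc)), pow_add]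
      have h2 : ∑ c ∈ (e \ d).powerset, (-1 : ℝ) ^ c.card = if e \ d = ∅ then 1 else 0 := by
        have := sum_powerset_neg_one_pow_card (x := e \ d)
        exact_mod_cast this
      rw [sum_congr rfl h1, ← mul_sum, h2]
      by_cases hde : d = e
      · simp [hde]
      · rw [if_neg hde, if_neg, mul_zero]
        rw [sdiff_eq_empty_iff_subset]
        exact fun h' => hde (Subset.antisymm h h')
    · intro c hc c' hc' hh
      simp only [coe_powerset, Set.mem_preimage, Set.mem_powerset_iff, coe_subset] at hc hc' hh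
      simp only [Finset.ext_iff, mem_union, mem_sdiff, subset_iff] at *
      grind
  · rw [if_neg fun hde : d = e => h hde.subset]
    exact sum_eq_zero fun b hb => if_neg fun hdb => h (hdb.trans (mem_powerset.1 hb))

theorem selA_inner {𝒟 : Finset (Finset ℕ)} (hp : ∀ d ∈ 𝒟, ∀ p ∈ d, p.Prime)
    (hdown : ∀ d ∈ 𝒟, ∀ e ⊆ d, e ∈ 𝒟) {d : Finset ℕ} (hd : d ∈ 𝒟) :
    ∑ b ∈ 𝒟, (if d ⊆ b then rho 𝒟 b / pr b else 0) = (-1) ^ d.card * fw d / GG 𝒟 := by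
  have h1 : ∀ b ∈ 𝒟, (if d ⊆ b then rho 𝒟 b / pr b else 0) =
      ∑ e ∈ 𝒟, if b ⊆ e then (if d ⊆ b then (-1 : ℝ) ^ b.card else 0) * fw e / GG 𝒟 else 0 := by
    intro b hb
    have hb0 : (pr b : ℝ) ≠ 0 := by exact_mod_cast (pr_pos (hp b hb)).ne'
    rw [← sum_filter, ← sum_div, ← mul_sum]
    split_ifs
    · unfold rho; field_simp
    · simp
  rw [sum_congr rfl h1, sum_comm]
  have h2 : ∀ e ∈ 𝒟, ∑ b ∈ 𝒟,
      (if b ⊆ e then (if d ⊆ b then (-1 : ℝ) ^ b.card else 0) * fw e / GG 𝒟 else 0) =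
        if d = e then (-1) ^ d.card * fw e / GG 𝒟 else 0 := by
    intro e he
    have h3 : 𝒟.filter (fun b => b ⊆ e) = e.powerset := by
      ext b
      simp only [mem_filter, mem_powerset]
      exact ⟨fun h => h.2, fun h => ⟨hdown e he b h, h⟩⟩
    rw [← sum_filter, h3, ← sum_div, ← sum_mul, selA_alt]
    split_ifs <;> simp
  rw [sum_congr rfl h2, sum_ite_eq, if_pos hd]

theorem selA_main {𝒟 : Finset (Finset ℕ)} (hp : ∀ d ∈ 𝒟, ∀ p ∈ d, p.Prime)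
    (hdown : ∀ d ∈ 𝒟, ∀ e ⊆ d, e ∈ 𝒟) (h0 : ∅ ∈ 𝒟) :
    ∑ b₁ ∈ 𝒟, ∑ b₂ ∈ 𝒟, rho 𝒟 b₁ * rho 𝒟 b₂ / pr (b₁ ∪ b₂) = 1 / GG 𝒟 := by
  have hG := one_le_GG hp h0
  have h1 : ∀ b₁ ∈ 𝒟, ∀ b₂ ∈ 𝒟, rho 𝒟 b₁ * rho 𝒟 b₂ / pr (b₁ ∪ b₂) =
      ∑ d ∈ 𝒟, 1 / fw d * ((if d ⊆ b₁ then rho 𝒟 b₁ / pr b₁ else 0) *
        (if d ⊆ b₂ then rho 𝒟 b₂ / pr b₂ else 0)) := by
    intro b₁ hb₁ b₂ hb₂
    have e1 : (pr b₁ : ℝ) ≠ 0 := by exact_mod_cast (pr_pos (hp b₁ hb₁)).ne'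
    have e2 : (pr b₂ : ℝ) ≠ 0 := by exact_mod_cast (pr_pos (hp b₂ hb₂)).ne'
    have e3 : (pr (b₁ ∪ b₂) : ℝ) * pr (b₁ ∩ b₂) = pr b₁ * pr b₂ := by
      simp only [pr_cast]; exact prod_union_inter
    have e4 : (pr (b₁ ∪ b₂) : ℝ) ≠ 0 := left_ne_zero_of_mul (e3 ▸ mul_ne_zero e1 e2)
    have e5 : (pr (b₁ ∩ b₂) : ℝ) = ∑ d ∈ (b₁ ∩ b₂).powerset, 1 / fw d := by
      simp only [fw, one_div, prod_inv_distrib, inv_inv]
      rw [← prod_one_add, pr_cast]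
      exact prod_congr rfl fun p _ => by ring
    have e6 : 𝒟.filter (fun d => d ⊆ b₁ ∩ b₂) = (b₁ ∩ b₂).powerset := by
      ext d
      simp only [mem_filter, mem_powerset]
      exact ⟨fun h => h.2, fun h => ⟨hdown b₁ hb₁ d (h.trans inter_subset_left), h⟩⟩
    have e7 : rho 𝒟 b₁ * rho 𝒟 b₂ / pr (b₁ ∪ b₂) =
        pr (b₁ ∩ b₂) * (rho 𝒟 b₁ / pr b₁ * (rho 𝒟 b₂ / pr b₂)) := by
      rw [div_mul_div_comm, ← e3]
      have e8 : (pr (b₁ ∩ b₂) : ℝ) ≠ 0 := right_ne_zero_of_mul (e3 ▸ mul_ne_zero e1 e2)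
      field_simp
    rw [e7, e5, ← e6, sum_mul, sum_filter]
    refine sum_congr rfl fun d _ => ?_
    simp only [subset_inter_iff]
    by_cases c1 : d ⊆ b₁ <;> by_cases c2 : d ⊆ b₂ <;> simp [c1, c2]
  rw [sum_congr rfl fun b₁ hb₁ => sum_congr rfl (h1 b₁ hb₁), sum_congr rfl fun _ _ => sum_comm,
    sum_comm]
  have h2 : ∀ d ∈ 𝒟, ∑ b₁ ∈ 𝒟, ∑ b₂ ∈ 𝒟, 1 / fw d * ((if d ⊆ b₁ then rho 𝒟 b₁ / pr b₁ else 0) *
        (if d ⊆ b₂ then rho 𝒟 b₂ / pr b₂ else 0)) = fw d / GG 𝒟 ^ 2 := by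
    intro d hd
    have e1 := (fw_pos (hp d hd)).ne'
    simp only [← mul_sum, ← sum_mul]
    rw [selA_inner hp hdown hd]
    have e2 : ((-1 : ℝ) ^ d.card) ^ 2 = 1 := by rw [← pow_mul, mul_comm, pow_mul]; simp
    field_simp
    rw [e2]
  rw [sum_congr rfl h2, ← sum_div]
  have : ∑ d ∈ 𝒟, fw d = GG 𝒟 := rfl
  rw [this]
  field_simp

theorem sel_ineq (x y : ℕ) {a W : ℕ} {𝒟 : Finset (Finset ℕ)}
    (hp : ∀ d ∈ 𝒟, d ⊆ Nat.primesBelow W) (hdown : ∀ d ∈ 𝒟, ∀ e ⊆ d, e ∈ 𝒟) (h0 : ∅ ∈ 𝒟)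
    (ha : ∀ p ∈ Nat.primesBelow W, ¬ p ∣ a) :
    (Sv x y a W : ℝ) ≤ (y : ℝ) / a / GG 𝒟 + Err x y a 𝒟 := by
  have hp' : ∀ d ∈ 𝒟, ∀ p ∈ d, p.Prime := fun d hd p h => (Nat.mem_primesBelow.1 (hp d hd h)).2
  have hG := one_le_GG hp' h0
  have hr0 : rho 𝒟 ∅ = 1 := by
    have : ∑ d ∈ 𝒟, fw d = GG 𝒟 := rfl
    simp only [rho, card_empty, pow_zero, pr_empty, Nat.cast_one, mul_one, one_mul, empty_subset,
      filter_true, this]
    exact div_self (by linarith)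
  have h1 : ∀ N : ℕ, (if a ∣ N ∧ ∀ p ∈ Nat.primesBelow W, ¬ p ∣ N then (1 : ℝ) else 0) ≤
      ∑ b₁ ∈ 𝒟, ∑ b₂ ∈ 𝒟, rho 𝒟 b₁ * rho 𝒟 b₂ * if a * pr (b₁ ∪ b₂) ∣ N then 1 else 0 := by
    intro N
    by_cases haN : a ∣ N
    · have e1 : ∀ b₁ ∈ 𝒟, ∀ b₂ ∈ 𝒟, rho 𝒟 b₁ * rho 𝒟 b₂ * (if a * pr (b₁ ∪ b₂) ∣ N then 1 else 0) =
          (if ∀ p ∈ b₁, p ∣ N then rho 𝒟 b₁ else 0) * (if ∀ p ∈ b₂, p ∣ N then rho 𝒟 b₂ else 0) := by
        intro b₁ hb₁ b₂ hb₂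
        have hu : b₁ ∪ b₂ ⊆ Nat.primesBelow W := union_subset (hp b₁ hb₁) (hp b₂ hb₂)
        have hu' : ∀ p ∈ b₁ ∪ b₂, p.Prime := fun p h => (Nat.mem_primesBelow.1 (hu h)).2
        have hc : a.Coprime (pr (b₁ ∪ b₂)) := Nat.Coprime.prod_right fun p h =>
          ((Nat.Prime.coprime_iff_not_dvd (hu' p h)).2 (ha p (hu h))).symm
        have e2 : a * pr (b₁ ∪ b₂) ∣ N ↔ (∀ p ∈ b₁, p ∣ N) ∧ ∀ p ∈ b₂, p ∣ N := by
          rw [← forall_mem_union, ← pr_dvd_iff hu']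
          exact ⟨fun h => (Dvd.intro_left _ rfl).trans h, fun h => hc.mul_dvd_of_dvd_of_dvd haN h⟩
        simp only [e2]
        rw [ite_zero_mul_ite_zero, mul_ite, mul_one, mul_zero]
      rw [sum_congr rfl fun b₁ hb₁ => sum_congr rfl (e1 b₁ hb₁), ← sum_mul_sum]
      split_ifs with hN
      · rw [sum_eq_single ∅, if_pos (by simp), hr0, mul_one]
        · intro b hb hb0
          obtain ⟨p, hpb⟩ := nonempty_iff_ne_empty.2 hb0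
          exact if_neg fun h => hN.2 p (hp b hb hpb) (h p hpb)
        · exact fun h => absurd h0 h
      · exact mul_self_nonneg _
    · rw [if_neg fun h => haN h.1]
      refine le_of_eq (sum_eq_zero fun b₁ _ => sum_eq_zero fun b₂ _ => ?_).symm
      rw [if_neg fun h => haN ((Dvd.intro _ rfl).trans h), mul_zero]
  have h2 : (Sv x y a W : ℝ) ≤
      ∑ b₁ ∈ 𝒟, ∑ b₂ ∈ 𝒟, rho 𝒟 b₁ * rho 𝒟 b₂ * (cnt x y (a * pr (b₁ ∪ b₂)) : ℝ) := by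
    simp only [Sv, cnt, card_filter, Nat.cast_sum, Nat.cast_ite, Nat.cast_one, Nat.cast_zero,
      mul_sum]
    rw [sum_congr rfl fun _ _ => sum_comm, sum_comm]
    exact sum_le_sum fun ν _ => h1 (x + ν)
  refine h2.trans (le_of_eq ?_)
  rw [div_eq_mul_one_div _ (GG 𝒟), ← selA_main hp' hdown h0, Err, mul_sum, ← sum_add_distrib]
  refine sum_congr rfl fun b₁ _ => ?_
  rw [mul_sum, ← sum_add_distrib]
  refine sum_congr rfl fun b₂ _ => ?_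
  rw [Fe]
  push_cast
  ring

theorem DD_down {r L W : ℕ} {J : Fin r → Finset ℕ} {R' R V₀ : ℝ} (hL : 1 ≤ L) (hV : 0 < V₀)
    (hJ : ∀ i, ∀ p ∈ J i, V₀ ≤ (p : ℝ)) (hR : R ≤ R' * V₀) :
    ∀ d ∈ DD L W J R' R, ∀ e ⊆ d, e ∈ DD L W J R' R := by
  intro d hd e he
  simp only [DD, mem_filter, mem_powerset] at hd ⊢
  refine ⟨he.trans hd.1, ?_⟩
  rcases hd.2 with h | ⟨h1, h2⟩
  · exact Or.inl ((sg_mono L he).trans h)
  · by_cases h3 : ∀ i, (e ∩ J i).Nonempty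
    · exact Or.inr ⟨(sg_mono L he).trans h1, h3⟩
    · left
      obtain ⟨i, hi⟩ := not_forall.1 h3
      obtain ⟨p, hp⟩ := h2 i
      rw [mem_inter] at hp
      have hpe : p ∉ e := fun h => hi ⟨p, mem_inter.2 ⟨h, hp.2⟩⟩
      have h4 := sg_mono L (insert_subset hp.1 he)
      have h5 : sg L (insert p e) = ro L (bx L p) * sg L e := prod_insert hpe
      have h6 := le_ro_bx hL (Nat.mem_primesBelow.1 (hd.1 hp.1)).2.one_le
      have h7 := hJ i p hp.2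
      have h8 := one_le_sg L e
      refine le_of_mul_le_mul_right ?_ hV
      nlinarith

theorem empty_mem_DD {r L W : ℕ} {J : Fin r → Finset ℕ} {R' R : ℝ} (h : 1 ≤ R') :
    ∅ ∈ DD L W J R' R := by
  simp only [DD, mem_filter, mem_powerset]
  exact ⟨empty_subset _, Or.inl (by simpa [sg] using h)⟩

end Vale.Agent.P013
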