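import Vale.Agent.P013.SelA

/-!
Multilinear structure of the Selberg remainder. `𝒟 = DD L W J R' R`, `𝒟₁ = {sg ≤ R'}`, `𝒟₂ = 𝒟 \ 𝒟₁` (these sets meet every
`J i`, `R' < sg ≤ R`). All `|rho| ≤ 1`, `|Fe| ≤ 1`. With `T b₂ = ∑ b₁ ∈ 𝒟₂, rho b₁ * Fe x y (a * pr (b₁ ∪ b₂))` and the symmetry
of the summand, `Err ≤ |𝒟₁|² + ∑ b₂ ∈ 𝒟, |T b₂| + ∑ b₂ ∈ 𝒟₁, |T b₂| ≤ R'² + 2 ∑ b₂ ∈ Sm L W R, |T b₂|`
(`card_le_of_pr_le`, `pr_le_sg`).
Ramare weights: for `b₁ ∈ 𝒟₂`, `1 = ∑ p ∈ piFinset (b₁ ∩ J ·), 1 / ∏ i, |b₁ ∩ J i|`. Put `b = b₁ \ image p`; then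
`|b₁ ∩ J i| = |b ∩ J i| + 1` (disjointness of the `J i`), and `(b₁, p) ↦ (b, p)` is a bijection onto the pairs with `p ∈ piFinset J`,
`p i ∉ b`, `R' < sg b * ∏ ro (bx (p i)) ≤ R`. Sorting by `c = bx ∘ p ∈ Cs L J`:
`|T b₂| ≤ ∑ c, ∑ b ∈ Sm L W (R / ∏ ro (c i)), |U c b|`, `U c b = ∑ p ∈ piFinset (Bx L J c), all p i ∉ b, rho (b ∪ image p) Fe (a pr (b ∪ image p ∪ b₂))`
(the weight is in `[0, 1]` and depends only on `b`, the size condition only on `b, c`).
For such `p`: `d ⊇ b ∪ image p` is in `𝒟` iff `d ⊆ primesBelow W`, `sg d ≤ R`. So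
`rho (b ∪ image p) = (-1)^(|b| + r) * Π * A'`, `Π = ∏ p i / (p i - 1)`, `A' = pr b * fw b * ∑ fw e / G` over `e` disjoint from
`b ∪ image p` with `sg e * sg b * ∏ ro (c i) ≤ R`. Let `A` be the same sum over `e` disjoint from `b` only; it does not depend on `p`.
`0 ≤ A' ≤ A ≤ 1` (`pr_mul_fw`: `e' ∪ e` with `e' ⊆ b` has `sg ≤ R / ∏ ro ≤ R / V₀ ≤ R'`, so it is in `𝒟`),
`A - A' ≤ ∑ i, A / (p i - 1) ≤ r / (V₀ - 1)` (remove `p i` from `e`), `1 ≤ Π ≤ exp (r / (V₀ - 1)) ≤ 1 + 2 r / (V₀ - 1)`. So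
`|Π A' - A| ≤ 2 r / (V₀ - 1)`. If all `p i ∉ b ∪ b₂` then `pr (b ∪ image p ∪ b₂) = pr (b ∪ b₂) * ∏ p i`. The tuples with some
`p i ∈ b ∪ b₂` number at most `r (|b| + |b₂|) NN / N₀ ≤ 3 r log R * NN / N₀` (`2^|b| ≤ pr b ≤ R`) and cost at most `2` each. Hence
`|U c b - (-1)^(|b| + r) A * Phi| ≤ e * NN`.
-/

namespace Vale.Agent.P013

open Finset Real

theorem selB_inj {r : ℕ} {J : Fin r → Finset ℕ} (hdisj : ∀ i j, i ≠ j → Disjoint (J i) (J j))
    {p : Fin r → ℕ} (hp : ∀ i, p i ∈ J i) : Function.Injective p := by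
  intro i j h
  by_contra hij
  exact disjoint_left.1 (hdisj i j hij) (hp i) (h ▸ hp j)

theorem selB_prod_image {r : ℕ} {M : Type*} [CommMonoid M] {p : Fin r → ℕ}
    (hp : Function.Injective p) (f : ℕ → M) : ∏ q ∈ univ.image p, f q = ∏ i, f (p i) :=
  prod_image fun _ _ _ _ h => hp h

theorem selB_disj {r : ℕ} {p : Fin r → ℕ} {b : Finset ℕ} (h : ∀ i, p i ∉ b) :
    Disjoint b (univ.image p) := by
  refine disjoint_right.2 fun q hq => ?_
  obtain ⟨i, -, rfl⟩ := mem_image.1 hq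
  exact h i

theorem selB_card_le {L W : ℕ} (hL : 1 ≤ L) {b : Finset ℕ} (hb : b ⊆ Nat.primesBelow W) {R : ℝ}
    (h : sg L b ≤ R) : (b.card : ℝ) ≤ 3 / 2 * log R := by
  have hp : ∀ p ∈ b, p.Prime := fun p h => (Nat.mem_primesBelow.1 (hb h)).2
  have h2 : (2 : ℝ) ^ b.card ≤ pr b := by
    rw [pr_cast, ← prod_const]
    exact prod_le_prod (fun _ _ => by norm_num) fun p h => by exact_mod_cast (hp p h).two_le
  have h3 : (b.card : ℝ) * log 2 ≤ log R := by
    rw [← log_pow]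
    exact log_le_log (by positivity) (h2.trans ((pr_le_sg hL hp).trans h))
  have := log_two_gt_d9
  have h0 : (0 : ℝ) ≤ b.card := Nat.cast_nonneg _
  nlinarith

theorem selB_bad_count {r : ℕ} (B : Fin r → Finset ℕ) (s : Finset ℕ) {N₀ : ℝ} (hN : 0 < N₀)
    (hB : ∀ i, N₀ ≤ ((B i).card : ℝ)) :
    (((Fintype.piFinset B).filter fun p => ¬ ∀ i, p i ∉ s).card : ℝ) ≤
      r * s.card / N₀ * NN B := by
  have h1 : (Fintype.piFinset B).filter (fun p => ¬ ∀ i, p i ∉ s) ⊆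
      (univ ×ˢ s).biUnion fun q : Fin r × ℕ => (Fintype.piFinset B).filter fun p => p q.1 = q.2 := by
    intro p hp
    obtain ⟨hp1, hp2⟩ := mem_filter.1 hp
    push Not at hp2
    obtain ⟨i, hi⟩ := hp2
    exact mem_biUnion.2 ⟨(i, p i), mem_product.2 ⟨mem_univ _, hi⟩, mem_filter.2 ⟨hp1, rfl⟩⟩
  have h2 : ∀ q : Fin r × ℕ,
      (((Fintype.piFinset B).filter fun p => p q.1 = q.2).card : ℝ) ≤ NN B / N₀ := by
    intro q
    have h3 : NN B = (B q.1).card * ∏ j ∈ univ.erase q.1, ((B j).card : ℝ) :=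
      (mul_prod_erase _ _ (mem_univ _)).symm
    have h4 : 0 ≤ ∏ j ∈ univ.erase q.1, ((B j).card : ℝ) := by positivity
    rw [Fintype.card_filter_piFinset_eq B q.1 q.2, le_div_iff₀ hN, h3]
    split_ifs
    · push_cast
      nlinarith [hB q.1]
    · simp only [Nat.cast_zero, zero_mul]; positivity
  calc _ ≤ ((∑ q ∈ univ ×ˢ s,
        ((Fintype.piFinset B).filter fun p => p q.1 = q.2).card : ℕ) : ℝ) := by
        exact_mod_cast (card_le_card h1).trans card_biUnion_le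
    _ ≤ ∑ _q ∈ (univ : Finset (Fin r)) ×ˢ s, NN B / N₀ := by
        rw [Nat.cast_sum]; exact sum_le_sum fun q _ => h2 q
    _ = _ := by
        rw [sum_const, card_product, card_univ, Fintype.card_fin, nsmul_eq_mul]
        push_cast; ring

theorem selB_A_le {𝒟 : Finset (Finset ℕ)} (hp : ∀ d ∈ 𝒟, ∀ p ∈ d, p.Prime) {b : Finset ℕ}
    (hb : ∀ p ∈ b, p.Prime) {E : Finset (Finset ℕ)} (hE : ∀ e ∈ E, Disjoint e b)
    (hmem : ∀ e ∈ E, ∀ e' ⊆ b, e' ∪ e ∈ 𝒟) : pr b * fw b * ∑ e ∈ E, fw e ≤ GG 𝒟 := by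
  have h1 : pr b * fw b * ∑ e ∈ E, fw e = ∑ q ∈ b.powerset ×ˢ E, fw (q.1 ∪ q.2) := by
    rw [← pr_mul_fw hb, sum_mul_sum, sum_product]
    refine sum_congr rfl fun e' he' => sum_congr rfl fun e he => ?_
    rw [selA_fw_union ((hE e he).symm.mono_left (mem_powerset.1 he'))]
  rw [h1]
  refine selA_sum_le_of_inj (w := fw) (f := fun q : Finset ℕ × Finset ℕ => q.1 ∪ q.2)
    ?_ ?_ fun d hd => (fw_pos (hp d hd)).le
  · rintro ⟨e', e⟩ h ⟨d', d⟩ h' hh
    simp only [coe_product, Set.mem_prod, mem_coe, mem_powerset] at h h' hh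
    have h3 := disjoint_left.1 (hE e h.2)
    have h4 := disjoint_left.1 (hE d h'.2)
    have h5 := h.1
    have h6 := h'.1
    simp only [Finset.ext_iff, mem_union, subset_iff, Prod.mk.injEq] at *
    constructor <;> grind
  · rintro ⟨e', e⟩ h
    simp only [mem_product, mem_powerset] at h
    exact hmem e h.2 e' h.1

theorem selB_erase {r : ℕ} {E : Finset (Finset ℕ)} (hp : ∀ d ∈ E, ∀ p ∈ d, p.Prime)
    (hE : ∀ e ∈ E, ∀ q, e.erase q ∈ E) {V₀ : ℝ} (hV : 1 < V₀) {p : Fin r → ℕ}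
    (hpV : ∀ i, V₀ ≤ (p i : ℝ)) :
    ∑ e ∈ E.filter (fun e => ¬ ∀ i, p i ∉ e), fw e ≤ r / (V₀ - 1) * ∑ e ∈ E, fw e := by
  have h0 : ∀ e ∈ E, 0 ≤ fw e := fun e he => (fw_pos (hp e he)).le
  have h1 : ∀ i, ∑ e ∈ E.filter (fun e => p i ∈ e), fw e ≤ 1 / (V₀ - 1) * ∑ e ∈ E, fw e := by
    intro i
    have h2 : ∑ e ∈ E.filter (fun e => p i ∈ e), fw (e.erase (p i)) ≤ ∑ e ∈ E, fw e := by
      refine selA_sum_le_of_inj (w := fw) (f := fun e : Finset ℕ => e.erase (p i)) ?_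
        (fun e he => hE e (mem_filter.1 he).1 _) h0
      intro e he e' he' h
      rw [← insert_erase (mem_filter.1 he).2, ← insert_erase (mem_filter.1 he').2]
      exact congrArg _ h
    refine le_trans ?_ (mul_le_mul_of_nonneg_left h2 (by have := sub_pos.2 hV; positivity))
    rw [mul_sum]
    refine sum_le_sum fun e he => ?_
    obtain ⟨he1, he2⟩ := mem_filter.1 he
    have h3 : fw e = 1 / ((p i : ℝ) - 1) * fw (e.erase (p i)) := (mul_prod_erase _ _ he2).symm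
    rw [h3]
    have := hpV i
    gcongr
    exact h0 _ (hE e he1 _)
  calc _ ≤ ∑ e ∈ E, ∑ i, if p i ∈ e then fw e else 0 := by
        rw [sum_filter]
        refine sum_le_sum fun e he => ?_
        have h2 : ∀ i ∈ (univ : Finset (Fin r)), 0 ≤ if p i ∈ e then fw e else 0 := by
          intro i _; split_ifs; exacts [h0 e he, le_rfl]
        split_ifs with h
        · exact sum_nonneg h2
        · push Not at h
          obtain ⟨i, hi⟩ := h
          exact le_trans (le_of_eq (if_pos hi).symm) (single_le_sum h2 (mem_univ i))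
    _ ≤ ∑ _i : Fin r, 1 / (V₀ - 1) * ∑ e ∈ E, fw e := by
        rw [sum_comm]
        refine sum_le_sum fun i _ => ?_
        rw [← sum_filter]
        exact h1 i
    _ = _ := by rw [sum_const, card_univ, Fintype.card_fin, nsmul_eq_mul]; ring

theorem selB_Pi {r : ℕ} {V₀ : ℝ} (hrV : (r : ℝ) + 1 ≤ V₀) (hV : 1 < V₀) {p : Fin r → ℕ}
    (hpV : ∀ i, V₀ ≤ (p i : ℝ)) :
    1 ≤ ∏ i, ((p i : ℝ) * (1 / ((p i : ℝ) - 1))) ∧
      ∏ i, ((p i : ℝ) * (1 / ((p i : ℝ) - 1))) ≤ 1 + 2 * (r / (V₀ - 1)) := by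
  have h1 : ∀ i, (p i : ℝ) * (1 / ((p i : ℝ) - 1)) = 1 / ((p i : ℝ) - 1) + 1 := by
    intro i
    have : (p i : ℝ) - 1 ≠ 0 := by linarith [hpV i]
    field_simp
    ring
  have h2 : ∀ i, 0 ≤ 1 / ((p i : ℝ) - 1) := fun i =>
    one_div_nonneg.2 (by linarith [hpV i])
  have hV' : 0 < V₀ - 1 := by linarith
  simp only [h1]
  constructor
  · calc (1 : ℝ) = ∏ _i : Fin r, 1 := by simp
      _ ≤ _ := prod_le_prod (fun _ _ => zero_le_one) fun i _ => by linarith [h2 i]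
  · have h3 : 0 ≤ (r : ℝ) / (V₀ - 1) := by positivity
    have h4 : (r : ℝ) / (V₀ - 1) ≤ 1 := (div_le_one hV').2 (by linarith)
    have h5 := Real.abs_exp_sub_one_le (x := r / (V₀ - 1)) (by rwa [abs_of_nonneg h3])
    rw [abs_of_nonneg h3] at h5
    calc _ ≤ ∏ _i : Fin r, exp (1 / (V₀ - 1)) := by
          refine prod_le_prod (fun i _ => by linarith [h2 i]) fun i _ => ?_
          refine le_trans ?_ (add_one_le_exp _)
          have := hpV i
          gcongr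
      _ = exp (r / (V₀ - 1)) := by
          rw [prod_const, card_univ, Fintype.card_fin, ← exp_nat_mul, mul_one_div]
      _ ≤ _ := by linarith [le_abs_self (exp (r / (V₀ - 1)) - 1)]

/-- the coefficient that does not depend on the tuple of primes -/
noncomputable def selB_A {r : ℕ} (L W : ℕ) (J : Fin r → Finset ℕ) (R' R ρ : ℝ) (b : Finset ℕ) : ℝ :=
  pr b * fw b * (∑ e ∈ (Nat.primesBelow W).powerset.filter
    (fun e => Disjoint e b ∧ sg L e * (sg L b * ρ) ≤ R), fw e) / GG (DD L W J R' R)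

theorem selB_prime {r L W : ℕ} {J : Fin r → Finset ℕ} {R' R : ℝ} :
    ∀ d ∈ DD L W J R' R, ∀ p ∈ d, p.Prime := fun _ hd _ h =>
  (Nat.mem_primesBelow.1 (mem_powerset.1 (mem_filter.1 hd).1 h)).2

theorem selB_A_bound {r L W : ℕ} {J : Fin r → Finset ℕ} {R' R ρ : ℝ} (hR' : 1 ≤ R')
    (hρ : 0 < ρ) (hR : R ≤ R' * ρ) {b : Finset ℕ} (hb : b ⊆ Nat.primesBelow W) :
    0 ≤ selB_A L W J R' R ρ b ∧ selB_A L W J R' R ρ b ≤ 1 := by
  have hG := one_le_GG (selB_prime (L := L) (W := W) (J := J) (R' := R') (R := R))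
    (empty_mem_DD hR')
  have hb' : ∀ p ∈ b, p.Prime := fun p h => (Nat.mem_primesBelow.1 (hb h)).2
  constructor
  · refine div_nonneg (mul_nonneg (mul_nonneg (Nat.cast_nonneg _) (fw_pos hb').le)
      (sum_nonneg fun e he => (fw_pos fun p h => ?_).le)) (by linarith)
    exact (Nat.mem_primesBelow.1 (mem_powerset.1 (mem_filter.1 he).1 h)).2
  · refine (div_le_one (by linarith)).2 (selB_A_le selB_prime hb'
      (fun e he => (mem_filter.1 he).2.1) fun e he e' he' => ?_)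
    obtain ⟨h1, h2, h3⟩ := mem_filter.1 he
    simp only [DD, mem_filter, mem_powerset] at h1 ⊢
    refine ⟨union_subset (he'.trans hb) h1, Or.inl ?_⟩
    rw [selA_sg_union L (h2.symm.mono_left he')]
    have h4 := sg_mono L he'
    have h5 := one_le_sg L e
    refine le_of_mul_le_mul_right ?_ hρ
    calc sg L e' * sg L e * ρ ≤ sg L b * sg L e * ρ := by gcongr
      _ ≤ _ := by linarith

theorem selB_rho {r L W : ℕ} {J : Fin r → Finset ℕ} {R' R V₀ : ℝ}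
    (hJ : ∀ i, J i ⊆ Nat.primesBelow W) (hdisj : ∀ i j, i ≠ j → Disjoint (J i) (J j))
    (hV : ∀ i, ∀ p ∈ J i, V₀ ≤ (p : ℝ)) (hrV : (r : ℝ) + 1 ≤ V₀) (hV1 : 1 < V₀) (hR' : 1 ≤ R')
    (hR : R' ≤ R) {b : Finset ℕ} (hb : b ⊆ Nat.primesBelow W) {p : Fin r → ℕ}
    (hp : ∀ i, p i ∈ J i) (hpb : ∀ i, p i ∉ b) (hRρ : R ≤ R' * ∏ i, ro L (bx L (p i))) :
    |rho (DD L W J R' R) (b ∪ univ.image p) -
      (-1) ^ (b.card + r) * selB_A L W J R' R (∏ i, ro L (bx L (p i))) b| ≤ 2 * r / (V₀ - 1) := by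
  set ρ := ∏ i, ro L (bx L (p i)) with hρ
  have hρ0 : 0 < ρ := prod_pos fun i _ => ro_pos _ _
  obtain ⟨hA0, hA1⟩ := selB_A_bound (L := L) (J := J) hR' hρ0 hRρ hb
  have hG := one_le_GG (selB_prime (L := L) (W := W) (J := J) (R' := R') (R := R))
    (empty_mem_DD hR')
  have hinj := selB_inj hdisj hp
  have hdj := selB_disj hpb
  have hI : univ.image p ⊆ Nat.primesBelow W := fun q hq => by
    obtain ⟨i, -, rfl⟩ := mem_image.1 hq
    exact hJ i (hp i)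
  have hsg : sg L (b ∪ univ.image p) = sg L b * ρ := by
    rw [selA_sg_union L hdj]; congr 1; exact selB_prod_image hinj _
  set E := (Nat.primesBelow W).powerset.filter
    (fun e => Disjoint e b ∧ sg L e * (sg L b * ρ) ≤ R) with hE
  have hEp : ∀ d ∈ E, ∀ q ∈ d, q.Prime := fun d hd q h =>
    (Nat.mem_primesBelow.1 (mem_powerset.1 (mem_filter.1 hd).1 h)).2
  have h1 : ∑ d ∈ (DD L W J R' R).filter (fun d => b ∪ univ.image p ⊆ d), fw d =
      ∑ e ∈ E.filter (fun e => ∀ i, p i ∉ e), fw (b ∪ univ.image p) * fw e := by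
    symm
    have hd : ∀ e ∈ E.filter (fun e => ∀ i, p i ∉ e), Disjoint (b ∪ univ.image p) e := by
      intro e he
      obtain ⟨he1, he2⟩ := mem_filter.1 he
      exact disjoint_union_left.2 ⟨(mem_filter.1 he1).2.1.symm, (selB_disj he2).symm⟩
    refine sum_bij' (fun e _ => (b ∪ univ.image p) ∪ e) (fun d _ => d \ (b ∪ univ.image p))
      ?_ ?_ ?_ ?_ ?_
    · intro e he
      have h2 := hd e he
      simp only [hE, DD, mem_filter, mem_powerset] at he ⊢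
      refine ⟨⟨union_subset (union_subset hb hI) he.1.1, Or.inr ⟨?_, fun i => ⟨p i, ?_⟩⟩⟩,
        subset_union_left⟩
      · rw [selA_sg_union L h2, hsg, mul_comm]; exact he.1.2.2
      · simp [hp i]
    · intro d hd
      simp only [hE, DD, mem_filter, mem_powerset] at hd ⊢
      refine ⟨⟨sdiff_subset.trans hd.1.1, sdiff_disjoint.mono_right subset_union_left, ?_⟩,
        fun i => by simp⟩
      rw [← hsg, ← selA_sg_union L sdiff_disjoint, sdiff_union_of_subset hd.2]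
      exact hd.1.2.elim (fun h => h.trans hR) fun h => h.1
    · intro e he
      exact union_sdiff_cancel_left (hd e he)
    · intro d hd
      exact union_sdiff_of_subset (mem_filter.1 hd).2
    · intro e he
      exact (selA_fw_union (hd e he)).symm
  obtain ⟨hP1, hP2⟩ := selB_Pi hrV hV1 fun i => hV i _ (hp i)
  set Pp := ∏ i, ((p i : ℝ) * (1 / ((p i : ℝ) - 1))) with hPp
  set c := (pr b : ℝ) * fw b / GG (DD L W J R' R) with hc
  have hc0 : 0 ≤ c := div_nonneg (mul_nonneg (Nat.cast_nonneg _)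
    (fw_pos fun q h => (Nat.mem_primesBelow.1 (hb h)).2).le) (by linarith)
  have h2 : rho (DD L W J R' R) (b ∪ univ.image p) =
      (-1) ^ (b.card + r) * (Pp * (c * ∑ e ∈ E.filter (fun e => ∀ i, p i ∉ e), fw e)) := by
    have h3 : Pp = pr (univ.image p) * fw (univ.image p) := by
      rw [pr_cast, fw, ← prod_mul_distrib, selB_prod_image hinj]
    unfold rho
    rw [h1, ← mul_sum, card_union_of_disjoint hdj, card_image_of_injective _ hinj, card_univ,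
      Fintype.card_fin, pr_union hdj, selA_fw_union hdj, h3, hc]
    push_cast
    ring
  have h4 : selB_A L W J R' R ρ b = c * ∑ e ∈ E, fw e := by rw [selB_A, hc]; ring
  have h5 := selB_erase (E := E) hEp (fun e he q => by
    simp only [hE, mem_filter, mem_powerset] at he ⊢
    refine ⟨(erase_subset _ _).trans he.1, he.2.1.mono_left (erase_subset _ _), le_trans ?_ he.2.2⟩
    have := one_le_sg L b
    gcongr
    exact sg_mono L (erase_subset _ _)) hV1 fun i => hV i _ (hp i)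
  have h6 := sum_filter_add_sum_filter_not E (fun e => ∀ i, p i ∉ e) fw
  have h7 : 0 ≤ ∑ e ∈ E.filter (fun e => ¬ ∀ i, p i ∉ e), fw e :=
    sum_nonneg fun e he => (fw_pos (hEp e (mem_filter.1 he).1)).le
  have h8 : 0 ≤ ∑ e ∈ E.filter (fun e => ∀ i, p i ∉ e), fw e :=
    sum_nonneg fun e he => (fw_pos (hEp e (mem_filter.1 he).1)).le
  rw [h4] at hA0 hA1
  rw [h2, h4, ← mul_sub, abs_mul, abs_pow, abs_neg, abs_one, one_pow, one_mul, mul_div_assoc]
  have hu : 0 ≤ (r : ℝ) / (V₀ - 1) := div_nonneg (Nat.cast_nonneg _) (by linarith)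
  set u := (r : ℝ) / (V₀ - 1)
  set S := ∑ e ∈ E, fw e
  set S' := ∑ e ∈ E.filter (fun e => ∀ i, p i ∉ e), fw e
  have a1 : c * S' ≤ c * S := mul_le_mul_of_nonneg_left (by linarith) hc0
  have a2 : c * (S - u * S) ≤ c * S' := mul_le_mul_of_nonneg_left (by linarith) hc0
  have a3 : 0 ≤ c * S' := mul_nonneg hc0 h8
  have a4 : u * (c * S) ≤ u := mul_le_of_le_one_right hu hA1
  rw [abs_le]
  constructor <;> nlinarith

theorem selB_V_le {r L W : ℕ} (hr : 1 ≤ r) (hL : 1 ≤ L) {J : Fin r → Finset ℕ} {V₀ : ℝ}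
    (hJ : ∀ i, J i ⊆ Nat.primesBelow W) (hV : ∀ i, ∀ p ∈ J i, V₀ ≤ (p : ℝ)) {c : Fin r → ℕ}
    (hc : c ∈ Cs L J) : V₀ ≤ ∏ i, ro L (c i) := by
  obtain ⟨q, hq, hq'⟩ := mem_image.1 (Fintype.mem_piFinset.1 hc ⟨0, hr⟩)
  have h1 := le_ro_bx hL (Nat.mem_primesBelow.1 (hJ _ hq)).2.one_le
  rw [hq'] at h1
  refine (hV _ q hq).trans (h1.trans ?_)
  rw [← prod_singleton (fun i => ro L (c i)) ⟨0, hr⟩]
  exact prod_le_prod_of_subset_of_one_le (subset_univ _) (fun _ _ => (ro_pos _ _).le)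
    fun _ _ _ => one_le_ro _ _

theorem selB_U {r : ℕ} (hr : 1 ≤ r) (x y : ℕ) {a L W : ℕ} {J : Fin r → Finset ℕ}
    {R' R V₀ N₀ e : ℝ} (hL : 1 ≤ L) (ha : 1 ≤ a) (hJ : ∀ i, J i ⊆ Nat.primesBelow W)
    (hdisj : ∀ i j, i ≠ j → Disjoint (J i) (J j)) (hV : ∀ i, ∀ p ∈ J i, V₀ ≤ (p : ℝ))
    (hrV : (r : ℝ) + 1 ≤ V₀) (hR' : 1 ≤ R') (hR : R' ≤ R) (hRV : R ≤ R' * V₀) (hN : 0 < N₀)
    (hB : ∀ i, ∀ p ∈ J i, N₀ ≤ (((J i).filter fun q => bx L q = bx L p).card : ℝ))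
    (he : 2 * r / (V₀ - 1) + 6 * r * log R / N₀ ≤ e) {c : Fin r → ℕ} (hc : c ∈ Cs L J)
    {b b₂ : Finset ℕ} (hb : b ∈ Sm L W (R / ∏ i, ro L (c i))) (hb₂ : b₂ ∈ Sm L W R) :
    |∑ p ∈ (Fintype.piFinset (Bx L J c)).filter (fun p => ∀ i, p i ∉ b),
      rho (DD L W J R' R) (b ∪ univ.image p) * Fe x y (a * pr (b ∪ univ.image p ∪ b₂))| ≤
      |Phi x y (a * pr (b ∪ b₂)) (Bx L J c)| + e * NN (Bx L J c) := by
  have hr' : (1 : ℝ) ≤ r := by exact_mod_cast hr
  have hV1 : 1 < V₀ := by linarith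
  have hρ := selB_V_le hr hL hJ hV hc
  set ρ := ∏ i, ro L (c i) with hρd
  have hRρ : R ≤ R' * ρ := hRV.trans (by gcongr)
  simp only [Sm, mem_filter, mem_powerset] at hb hb₂
  obtain ⟨hA0, hA1⟩ := selB_A_bound (L := L) (J := J) hR' (by linarith) hRρ hb.1
  set A := selB_A L W J R' R ρ b with hA
  set B := Bx L J c with hBd
  set s : ℝ := (-1) ^ (b.card + r) with hs
  have hs1 : |s| = 1 := by simp [hs]
  have hsA : |s * A| ≤ 1 := by rw [abs_mul, hs1, one_mul, abs_of_nonneg hA0]; exact hA1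
  have hpB : ∀ p ∈ Fintype.piFinset B, (∀ i, p i ∈ J i) ∧ ∀ i, bx L (p i) = c i := fun p hp =>
    ⟨fun i => (mem_filter.1 (Fintype.mem_piFinset.1 hp i)).1,
      fun i => (mem_filter.1 (Fintype.mem_piFinset.1 hp i)).2⟩
  have hprime : ∀ {d : Finset ℕ}, d ⊆ Nat.primesBelow W → 1 ≤ a * pr d := fun hd =>
    Nat.mul_pos ha (pr_pos fun q h => (Nat.mem_primesBelow.1 (hd h)).2)
  have hu : 0 ≤ 2 * (r : ℝ) / (V₀ - 1) := div_nonneg (by linarith) (by linarith)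
  have hpt : ∀ p ∈ Fintype.piFinset B,
      |(if ∀ i, p i ∉ b then rho (DD L W J R' R) (b ∪ univ.image p) *
        Fe x y (a * pr (b ∪ univ.image p ∪ b₂)) else 0) -
          s * A * Fe x y (a * pr (b ∪ b₂) * ∏ i, p i)| ≤
        2 * r / (V₀ - 1) + if ¬ ∀ i, p i ∉ b ∪ b₂ then 2 else 0 := by
    intro p hp
    obtain ⟨hp1, hp2⟩ := hpB p hp
    have hF : |Fe x y (a * pr (b ∪ b₂) * ∏ i, p i)| ≤ 1 := abs_Fe_le x y
      (Nat.mul_pos (hprime (union_subset hb.1 hb₂.1))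
        (prod_pos fun i _ => (Nat.mem_primesBelow.1 (hJ i (hp1 i))).2.pos))
    by_cases hg : ∀ i, p i ∉ b ∪ b₂
    · have hg1 : ∀ i, p i ∉ b := fun i h => hg i (mem_union_left _ h)
      have h1 : pr (b ∪ univ.image p ∪ b₂) = pr (b ∪ b₂) * ∏ i, p i := by
        rw [union_right_comm, pr_union (selB_disj hg)]
        congr 1
        exact selB_prod_image (selB_inj hdisj hp1) _
      have h2 : ∏ i, ro L (bx L (p i)) = ρ := prod_congr rfl fun i _ => by rw [hp2 i]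
      have h3 := selB_rho (L := L) hJ hdisj hV hrV hV1 hR' hR hb.1 hp1 hg1 (by rwa [h2])
      rw [h2] at h3
      rw [if_pos hg1, if_neg (not_not.2 hg), add_zero, h1, ← mul_assoc, ← sub_mul, abs_mul]
      exact (mul_le_mul h3 hF (abs_nonneg _) hu).trans_eq (mul_one _)
    · rw [if_pos hg]
      have h1 : |s * A * Fe x y (a * pr (b ∪ b₂) * ∏ i, p i)| ≤ 1 := by
        rw [abs_mul]; exact mul_le_one₀ hsA (abs_nonneg _) hF
      have h2 : |(if ∀ i, p i ∉ b then rho (DD L W J R' R) (b ∪ univ.image p) *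
          Fe x y (a * pr (b ∪ univ.image p ∪ b₂)) else 0)| ≤ 1 := by
        split_ifs
        · rw [abs_mul]
          refine mul_le_one₀ (abs_rho_le selB_prime (DD_down hL (by linarith) hV hRV)
            (empty_mem_DD hR') _) (abs_nonneg _) (abs_Fe_le x y (hprime ?_))
          refine union_subset (union_subset hb.1 fun q hq => ?_) hb₂.1
          obtain ⟨i, -, rfl⟩ := mem_image.1 hq
          exact hJ i (hp1 i)
        · simp
      linarith [abs_sub _ _ |>.trans (add_le_add h2 h1)]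
  have hNN : 0 ≤ NN B := prod_nonneg fun _ _ => Nat.cast_nonneg _
  have hcard : ((Fintype.piFinset B).card : ℝ) = NN B := by
    rw [Fintype.card_piFinset, Nat.cast_prod]; rfl
  have hbad := selB_bad_count B (b ∪ b₂) hN fun i => by
    obtain ⟨q, hq, hq'⟩ := mem_image.1 (Fintype.mem_piFinset.1 hc i)
    have := hB i q hq
    rwa [hq'] at this
  have hc1 := selB_card_le hL hb.1 (hb.2.trans (div_le_self (by linarith) (by linarith)))
  have hc2 := selB_card_le hL hb₂.1 hb₂.2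
  have hc3 : ((b ∪ b₂).card : ℝ) ≤ 3 * log R := by
    have : ((b ∪ b₂).card : ℝ) ≤ b.card + b₂.card := by exact_mod_cast card_union_le b b₂
    linarith
  have hsum := (abs_sum_le_sum_abs _ _).trans (sum_le_sum hpt)
  rw [sum_sub_distrib, ← sum_filter, ← mul_sum, sum_add_distrib, ← sum_filter, sum_const, sum_const,
    nsmul_eq_mul, nsmul_eq_mul, hcard] at hsum
  have h4 : (r : ℝ) * (b ∪ b₂).card / N₀ * NN B ≤ r * (3 * log R) / N₀ * NN B := by gcongr
  have h5 : |s * A * Phi x y (a * pr (b ∪ b₂)) B| ≤ |Phi x y (a * pr (b ∪ b₂)) B| := by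
    rw [abs_mul]; exact mul_le_of_le_one_left (abs_nonneg _) hsA
  have h6 := mul_le_mul_of_nonneg_right he hNN
  have h7 : (2 * r / (V₀ - 1) + 6 * r * log R / N₀) * NN B =
      NN B * (2 * r / (V₀ - 1)) + r * (3 * log R) / N₀ * NN B * 2 := by ring
  have h8 := abs_add_le (∑ p ∈ (Fintype.piFinset B).filter (fun p => ∀ i, p i ∉ b),
      rho (DD L W J R' R) (b ∪ univ.image p) * Fe x y (a * pr (b ∪ univ.image p ∪ b₂)) -
      s * A * Phi x y (a * pr (b ∪ b₂)) B) (s * A * Phi x y (a * pr (b ∪ b₂)) B)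
  rw [sub_add_cancel] at h8
  unfold Phi at h5 h8 ⊢
  linarith

theorem selB_ramare {r L W : ℕ} {J : Fin r → Finset ℕ} (hJ : ∀ i, J i ⊆ Nat.primesBelow W)
    (hdisj : ∀ i j, i ≠ j → Disjoint (J i) (J j)) (R' R : ℝ) (φ : Finset ℕ → ℝ) :
    ∑ d ∈ (Nat.primesBelow W).powerset.filter
      (fun d => R' < sg L d ∧ sg L d ≤ R ∧ ∀ i, (d ∩ J i).Nonempty), φ d =
    ∑ p ∈ Fintype.piFinset J, ∑ b ∈ (Nat.primesBelow W).powerset.filter
      (fun b => (R' < sg L b * ∏ i, ro L (bx L (p i)) ∧ sg L b * ∏ i, ro L (bx L (p i)) ≤ R) ∧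
        ∀ i, p i ∉ b), (∏ i, (((b ∩ J i).card : ℝ) + 1))⁻¹ * φ (b ∪ univ.image p) := by
  have h1 : ∀ d ∈ (Nat.primesBelow W).powerset.filter
      (fun d => R' < sg L d ∧ sg L d ≤ R ∧ ∀ i, (d ∩ J i).Nonempty),
      φ d = ∑ _p ∈ Fintype.piFinset (fun i => d ∩ J i), (∏ i, ((d ∩ J i).card : ℝ))⁻¹ * φ d := by
    intro d hd
    have h2 : ∏ i, ((d ∩ J i).card : ℝ) ≠ 0 := prod_ne_zero_iff.2 fun i _ => by
      exact_mod_cast ((mem_filter.1 hd).2.2.2 i).card_pos.ne'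
    rw [sum_const, Fintype.card_piFinset, nsmul_eq_mul, Nat.cast_prod, ← mul_assoc,
      mul_inv_cancel₀ h2, one_mul]
  rw [sum_congr rfl h1, sum_comm' (t' := Fintype.piFinset J) (s' := fun p =>
    (Nat.primesBelow W).powerset.filter fun d => (R' < sg L d ∧ sg L d ≤ R) ∧ ∀ i, p i ∈ d)]
  · refine sum_congr rfl fun p hp => ?_
    have hp' := Fintype.mem_piFinset.1 hp
    have hinj := selB_inj hdisj hp'
    have hI : univ.image p ⊆ Nat.primesBelow W := fun q hq => by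
      obtain ⟨i, -, rfl⟩ := mem_image.1 hq
      exact hJ i (hp' i)
    have hsg : ∀ b, (∀ i, p i ∉ b) →
        sg L (b ∪ univ.image p) = sg L b * ∏ i, ro L (bx L (p i)) := by
      intro b hb
      rw [selA_sg_union L (selB_disj hb)]; congr 1; exact selB_prod_image hinj _
    have hsub : ∀ d : Finset ℕ, (∀ i, p i ∈ d) → d \ univ.image p ∪ univ.image p = d := by
      intro d hd
      refine sdiff_union_of_subset fun q hq => ?_
      obtain ⟨i, -, rfl⟩ := mem_image.1 hq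
      exact hd i
    symm
    refine sum_bij' (fun b _ => b ∪ univ.image p) (fun d _ => d \ univ.image p) ?_ ?_ ?_ ?_ ?_
    · intro b hb
      simp only [mem_filter, mem_powerset] at hb ⊢
      rw [hsg b hb.2.2]
      exact ⟨union_subset hb.1 hI, hb.2.1, fun i => by simp⟩
    · intro d hd
      simp only [mem_filter, mem_powerset] at hd ⊢
      have h3 : ∀ i, p i ∉ d \ univ.image p := fun i => by simp
      rw [← hsg _ h3, hsub d hd.2.2]
      exact ⟨sdiff_subset.trans hd.1, hd.2.1, h3⟩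
    · intro b hb
      exact union_sdiff_cancel_right (selB_disj (mem_filter.1 hb).2.2)
    · intro d hd
      exact hsub d (mem_filter.1 hd).2.2
    · intro b hb
      congr 2
      refine prod_congr rfl fun i _ => ?_
      have h3 : (b ∪ univ.image p) ∩ J i = insert (p i) (b ∩ J i) := by
        ext q
        simp only [mem_inter, mem_union, mem_image, mem_univ, true_and, mem_insert]
        constructor
        · rintro ⟨h | ⟨j, rfl⟩, h'⟩
          · exact Or.inr ⟨h, h'⟩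
          · by_cases hij : j = i
            · exact Or.inl (by rw [hij])
            · exact absurd h' (disjoint_left.1 (hdisj j i hij) (hp' j))
        · rintro (rfl | h)
          · exact ⟨Or.inr ⟨i, rfl⟩, hp' i⟩
          · exact ⟨Or.inl h.1, h.2⟩
      rw [h3, card_insert_of_notMem fun h => (mem_filter.1 hb).2.2 i (mem_inter.1 h).1]
      push_cast; rfl
  · intro d p
    simp only [mem_filter, mem_powerset, Fintype.mem_piFinset, mem_inter]
    constructor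
    · rintro ⟨⟨h2, h3, h4, -⟩, h5⟩
      exact ⟨⟨h2, ⟨h3, h4⟩, fun i => (h5 i).1⟩, fun i => (h5 i).2⟩
    · rintro ⟨⟨h2, ⟨h3, h4⟩, h5⟩, h6⟩
      exact ⟨⟨h2, h3, h4, fun i => ⟨p i, mem_inter.2 ⟨h5 i, h6 i⟩⟩⟩, fun i => ⟨h5 i, h6 i⟩⟩

theorem selB_T {r L W : ℕ} {J : Fin r → Finset ℕ} (hJ : ∀ i, J i ⊆ Nat.primesBelow W)
    (hdisj : ∀ i j, i ≠ j → Disjoint (J i) (J j)) (R' R : ℝ) (φ : Finset ℕ → ℝ) :
    |∑ d ∈ (Nat.primesBelow W).powerset.filter
      (fun d => R' < sg L d ∧ sg L d ≤ R ∧ ∀ i, (d ∩ J i).Nonempty), φ d| ≤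
    ∑ c ∈ Cs L J, ∑ b ∈ Sm L W (R / ∏ i, ro L (c i)),
      |∑ p ∈ (Fintype.piFinset (Bx L J c)).filter (fun p => ∀ i, p i ∉ b),
        φ (b ∪ univ.image p)| := by
  rw [selB_ramare hJ hdisj, ← sum_fiberwise_of_maps_to (t := Cs L J)
    (g := fun p i => bx L (p i)) fun p hp => Fintype.mem_piFinset.2 fun i =>
      mem_image_of_mem _ (Fintype.mem_piFinset.1 hp i)]
  refine (abs_sum_le_sum_abs _ _).trans (sum_le_sum fun c _ => ?_)
  have h1 : (Fintype.piFinset J).filter (fun p => (fun i => bx L (p i)) = c) =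
      Fintype.piFinset (Bx L J c) := by
    ext p
    simp only [mem_filter, Fintype.mem_piFinset, Bx, funext_iff, forall_and]
  have hρ : 0 < ∏ i, ro L (c i) := prod_pos fun i _ => ro_pos _ _
  rw [h1, sum_comm' (t' := (Nat.primesBelow W).powerset.filter
      fun b => R' < sg L b * ∏ i, ro L (c i) ∧ sg L b * ∏ i, ro L (c i) ≤ R)
    (s' := fun b => (Fintype.piFinset (Bx L J c)).filter fun p => ∀ i, p i ∉ b)]
  · refine (abs_sum_le_sum_abs _ _).trans (le_trans (sum_le_sum fun b _ => ?_)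
      (sum_le_sum_of_subset_of_nonneg (fun b hb => ?_) fun _ _ _ => abs_nonneg _))
    · rw [← mul_sum, abs_mul]
      refine mul_le_of_le_one_left (abs_nonneg _) ?_
      rw [abs_of_nonneg (by positivity)]
      refine inv_le_one_of_one_le₀ ?_
      calc (1 : ℝ) = ∏ _i : Fin r, 1 := by simp
        _ ≤ _ := prod_le_prod (fun _ _ => zero_le_one) fun i _ =>
            le_add_of_nonneg_left (Nat.cast_nonneg _)
    · simp only [Sm, mem_filter] at hb ⊢
      exact ⟨hb.1, (le_div_iff₀ hρ).2 hb.2.2⟩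
  · intro p b
    simp only [mem_filter]
    by_cases hp : p ∈ Fintype.piFinset (Bx L J c)
    · have h2 : ∏ i, ro L (bx L (p i)) = ∏ i, ro L (c i) :=
        prod_congr rfl fun i _ => by rw [(mem_filter.1 (Fintype.mem_piFinset.1 hp i)).2]
      rw [h2]; tauto
    · tauto

theorem err_le {r : ℕ} (hr : 1 ≤ r) (x y : ℕ) {a L W : ℕ} {J : Fin r → Finset ℕ}
    {R' R V₀ N₀ e : ℝ} (hL : 1 ≤ L) (ha : 1 ≤ a) (hJ : ∀ i, J i ⊆ Nat.primesBelow W)
    (hdisj : ∀ i j, i ≠ j → Disjoint (J i) (J j)) (hV : ∀ i, ∀ p ∈ J i, V₀ ≤ (p : ℝ))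
    (hrV : (r : ℝ) + 1 ≤ V₀) (hR' : 1 ≤ R') (hR : R' ≤ R) (hRV : R ≤ R' * V₀) (hN : 0 < N₀)
    (hB : ∀ i, ∀ p ∈ J i, N₀ ≤ (((J i).filter fun q => bx L q = bx L p).card : ℝ))
    (he : 2 * r / (V₀ - 1) + 6 * r * log R / N₀ ≤ e) :
    Err x y a (DD L W J R' R) ≤ R' ^ 2 + 2 * ErrS x y a L W J R e := by
  have hr' : (1 : ℝ) ≤ r := by exact_mod_cast hr
  set 𝒟 := DD L W J R' R with h𝒟
  set D₂ := (Nat.primesBelow W).powerset.filter
    (fun d => R' < sg L d ∧ sg L d ≤ R ∧ ∀ i, (d ∩ J i).Nonempty) with hD₂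
  have hrho : ∀ b, |rho 𝒟 b| ≤ 1 :=
    abs_rho_le selB_prime (DD_down hL (by linarith) hV hRV) (empty_mem_DD hR')
  have hsplit : ∀ f : Finset ℕ → ℝ, ∑ b ∈ 𝒟, f b = ∑ b ∈ Sm L W R', f b + ∑ b ∈ D₂, f b := by
    intro f
    rw [← sum_union]
    · refine sum_congr ?_ fun _ _ => rfl
      ext d
      simp only [h𝒟, hD₂, DD, Sm, mem_union, mem_filter, ← not_le]
      tauto
    · refine disjoint_left.2 fun d h1 h2 => ?_
      exact not_le.2 (mem_filter.1 h2).2.1 (mem_filter.1 h1).2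
  set T : Finset ℕ → ℝ := fun b₂ => ∑ b₁ ∈ D₂, rho 𝒟 b₁ * Fe x y (a * pr (b₁ ∪ b₂)) with hT
  have hTb : ∑ b₂ ∈ Sm L W R, |T b₂| ≤ ErrS x y a L W J R e := by
    unfold ErrS
    rw [sum_congr rfl fun c _ => sum_comm, sum_comm]
    refine sum_le_sum fun b₂ hb₂ => (selB_T hJ hdisj R' R _).trans ?_
    exact sum_le_sum fun c hc => sum_le_sum fun b hb =>
      selB_U hr x y hL ha hJ hdisj hV hrV hR' hR hRV hN hB he hc hb hb₂
  have hle : ∀ s ⊆ Sm L W R, ∑ b ∈ s, rho 𝒟 b * T b ≤ ErrS x y a L W J R e := by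
    intro s hs
    refine le_trans (le_trans (sum_le_sum fun b _ => ?_)
      (sum_le_sum_of_subset_of_nonneg hs fun _ _ _ => abs_nonneg _)) hTb
    refine (le_abs_self _).trans ?_
    rw [abs_mul]
    exact mul_le_of_le_one_left (abs_nonneg _) (hrho b)
  have h1 := hle 𝒟 fun d hd => by
    simp only [h𝒟, DD, Sm, mem_filter] at hd ⊢
    exact ⟨hd.1, hd.2.elim (fun h => h.trans hR) fun h => h.1⟩
  have h2 := hle (Sm L W R') fun d hd => by
    simp only [Sm, mem_filter] at hd ⊢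
    exact ⟨hd.1, hd.2.trans hR⟩
  have hpr : ∀ d ∈ Sm L W R', ∀ p ∈ d, p.Prime := fun d hd p h =>
    (Nat.mem_primesBelow.1 (mem_powerset.1 (mem_filter.1 hd).1 h)).2
  have h3 : ((Sm L W R').card : ℝ) ≤ R' := card_le_of_pr_le (by linarith) fun d hd =>
    ⟨hpr d hd, (pr_le_sg hL (hpr d hd)).trans (mem_filter.1 hd).2⟩
  have h4 : ∑ b₁ ∈ Sm L W R', ∑ b₂ ∈ Sm L W R',
      rho 𝒟 b₁ * rho 𝒟 b₂ * Fe x y (a * pr (b₁ ∪ b₂)) ≤ R' ^ 2 := by
    calc _ ≤ ∑ _b₁ ∈ Sm L W R', ∑ _b₂ ∈ Sm L W R', (1 : ℝ) := by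
          refine sum_le_sum fun b₁ hb₁ => sum_le_sum fun b₂ hb₂ => (le_abs_self _).trans ?_
          rw [abs_mul, abs_mul]
          refine mul_le_one₀ (mul_le_one₀ (hrho _) (abs_nonneg _) (hrho _)) (abs_nonneg _)
            (abs_Fe_le x y (Nat.mul_pos ha (pr_pos fun p hp => ?_)))
          exact (mem_union.1 hp).elim (hpr _ hb₁ p) (hpr _ hb₂ p)
      _ ≤ _ := by
          simp only [sum_const, nsmul_eq_mul, mul_one]
          rw [sq]
          exact mul_self_le_mul_self (Nat.cast_nonneg _) h3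
  have h5 : ∑ b₁ ∈ D₂, ∑ b₂ ∈ 𝒟, rho 𝒟 b₁ * rho 𝒟 b₂ * Fe x y (a * pr (b₁ ∪ b₂)) =
      ∑ b ∈ 𝒟, rho 𝒟 b * T b := by
    rw [sum_comm]
    refine sum_congr rfl fun b _ => ?_
    rw [hT, mul_sum]
    exact sum_congr rfl fun _ _ => by ring
  have h6 : ∑ b₁ ∈ Sm L W R', ∑ b₂ ∈ D₂, rho 𝒟 b₁ * rho 𝒟 b₂ * Fe x y (a * pr (b₁ ∪ b₂)) =
      ∑ b ∈ Sm L W R', rho 𝒟 b * T b := by
    refine sum_congr rfl fun b _ => ?_
    rw [hT, mul_sum]
    exact sum_congr rfl fun _ _ => by rw [union_comm b]; ring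
  unfold Err
  rw [hsplit, h5, sum_congr rfl fun b₁ _ => hsplit _, sum_add_distrib, h6]
  linarith

end Vale.Agent.P013
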